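import Crest.Agent.N228.W.All
import Crest.Agent.N228.Gr.Ims
import Crest.Agent.N228.Nk.Prof
import Crest.Agent.N222.B.Seq
import Crest.Agent.N222.L.Lim
import Crest.Agent.N222.B.Riesz
import Crest.Agent.N222.B.Weight
import Crest.Agent.N222.J.Main
import Crest.Agent.N222.J.Imm

/-!
# Row 228, dimension three (helper62): the band inequality on closed surfaces
-/

set_option autoImplicit false
set_option linter.unusedSectionVars false
open MeasureTheory Set Filter Topology Function Metric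
open scoped ContDiff Real
open Crest.Agent.N222 Crest.Agent.N222.Imm

noncomputable section

namespace Crest.Agent.N228.Bd

variable {ι : Type} [Fintype ι] [DecidableEq ι] {X : Type}
  [TopologicalSpace X] [T2Space X] [SecondCountableTopology X] [MeasurableSpace X] [BorelSpace X]

/-- curves are flat -/
theorem scal_one (M : Imm 1 ι X) (p : X) : M.pre.scal p = 0 := by
  set c : ι → ℝ := fun a => ContinuousLinearMap.adjoint (Lam (M.J p)) (ee a) 0
  set v : E ι := M.J p (ee 0)
  have h1 : ∀ a, M.PL p (ee a) = c a • v := fun a => by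
    rw [PL_eq, ← map_smul]
    congr 1
    ext i
    rw [Subsingleton.elim i 0]
    simp [c]
  have h2 : ∀ (f : X → ℝ) a b, M.pre.hess f a b p =
      c a * c b * ∑ a', ∑ b', M.pre.hess f a' b' p * (v a' * v b') := fun f a b => by
    have h := hess_form_PL (M := M) f p (ee a) (ee b)
    rw [h1, h1] at h
    simp only [Finset.mul_sum]
    refine Eq.trans ?_ (h.symm.trans (Finset.sum_congr rfl fun a' _ =>
      Finset.sum_congr rfl fun b' _ => by simp only [PiLp.smul_apply, smul_eq_mul]; ring))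
    simp
  simp only [Pre.scal, Pre.Ric, Pre.Rm, Pre.II, Finset.sum_apply, Pi.sub_apply, Pi.mul_apply]
  refine Finset.sum_eq_zero fun b _ => Finset.sum_eq_zero fun a _ => Finset.sum_eq_zero fun k _ => ?_
  rw [h2 _ a a, h2 _ b b, h2 _ a b, h2 _ b a]
  ring

/-- no closed curve has a positive potential -/
theorem no_curve [CompactSpace X] [Nonempty X] (M : Imm 1 ι X) {c : ℝ} (hc : 0 < c) :
    ¬ M.Form fun _ => c := fun h => by
  have h1 := h (fun _ => 1) ⟨sm_const 1, Cl.hcs _⟩
  simp only [gam_apply, D_const, scal_one, mul_zero, Finset.sum_const_zero, zero_sub, one_pow,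
    mul_one, zero_add, integral_const, smul_eq_mul, mul_neg, Left.nonneg_neg_iff] at h1
  have h2 : 0 < M.mu.real univ :=
    ENNReal.toReal_pos (isOpen_univ.measure_ne_zero _ univ_nonempty) (measure_ne_top _ _)
  nlinarith

/-- the profile `2 b tan` -/
theorem exists_prof {a D s : ℝ} (hD : 0 < D) (hs : 4 * π ^ 2 < s * D ^ 2) :
    ∃ e σ : ℝ, 0 < e ∧ σ < s ∧ ∀ K : ℝ, 0 ≤ K → ∃ φ : ℝ → ℝ, ContDiff ℝ ∞ φ ∧
      (∀ t ≤ a + e, φ t = -K) ∧ (∀ t, a + D - e ≤ t → φ t = K) ∧
      ∀ t, 2 * |deriv φ t| ≤ φ t ^ 2 + σ := by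
  have h0 : ∀ᶠ e in 𝓝[>] (0 : ℝ), 0 < e ∧ 0 < D - 3 * e ∧ 4 * π ^ 2 < s * (D - 3 * e) ^ 2 := by
    refine eventually_mem_nhdsWithin.and (Eventually.filter_mono nhdsWithin_le_nhds ?_)
    refine (ContinuousAt.eventually_lt continuousAt_const (by fun_prop) (by simpa using hD)).and
      (ContinuousAt.eventually_lt continuousAt_const (by fun_prop) (by simpa using hs))
  obtain ⟨e, he, hl, hs'⟩ := h0.exists
  set l := D - 3 * e with hle
  set A := 2 * π / l with hA
  have hA0 : 0 < A := by positivity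
  refine ⟨e, A ^ 2, he, by rw [hA, div_pow, div_lt_iff₀ (by positivity)]; linarith, fun K hK => ?_⟩
  set θ0 := Real.arctan (K / A)
  have t0 : 0 ≤ θ0 := Real.arctan_nonneg.2 (by positivity)
  have t1 : θ0 < π / 2 := Real.arctan_lt_pi_div_two _
  have hc : Continuous fun x : ℝ => Real.smoothTransition (x / e) :=
    Real.smoothTransition.continuous.comp (continuous_id.div_const e)
  set S : ℝ → ℝ := fun x => Nk.ramp e x - Nk.ramp e (x - l) with hS
  have s0 : ∀ x, S x = ∫ y in (x - l)..x, Real.smoothTransition (y / e) := fun x =>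
    intervalIntegral.integral_interval_sub_left (hc.intervalIntegrable _ _)
      (hc.intervalIntegrable _ _)
  have s1 : ∀ x, 0 ≤ S x ∧ S x ≤ l := fun x => by
    have hx : x - l ≤ x := by linarith
    rw [s0]
    refine ⟨intervalIntegral.integral_nonneg hx fun y _ => Real.smoothTransition.nonneg _, ?_⟩
    simpa using intervalIntegral.integral_mono_on (μ := volume) hx (hc.intervalIntegrable _ _)
      (continuous_const.intervalIntegrable _ _) fun y _ => Real.smoothTransition.le_one (y / e)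
  have s2 : ∀ x ≤ 0, S x = 0 := fun x hx => by
    simp only [hS, Nk.ramp_eq_zero he hx, Nk.ramp_eq_zero he (show x - l ≤ 0 by linarith), sub_zero]
  have s3 : ∀ x, l + e ≤ x → S x = l := fun x hx => by
    rw [s0, intervalIntegral.integral_congr (g := fun _ => (1 : ℝ))]
    · simp
    · intro y hy
      rw [uIcc_of_le (by linarith)] at hy
      exact Real.smoothTransition.one_of_one_le ((one_le_div he).2 (by linarith [hy.1]))
  set θ : ℝ → ℝ := fun t => θ0 * (2 * S (t - (a + e)) / l - 1) with hθ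
  have c0 : ∀ t, Real.cos (θ t) ≠ 0 := fun t => by
    have h1 : 0 ≤ 2 * S (t - (a + e)) / l := div_nonneg (by linarith [(s1 (t - (a + e))).1]) hl.le
    have h2 : 2 * S (t - (a + e)) / l ≤ 2 :=
      (div_le_iff₀ hl).2 (by linarith [(s1 (t - (a + e))).2])
    refine (Real.cos_pos_of_mem_Ioo ⟨?_, ?_⟩).ne' <;> simp only [hθ] <;> nlinarith
  have c1 : ContDiff ℝ ∞ θ := contDiff_const.mul (((contDiff_const.mul
    (((Nk.contDiff_ramp e).sub ((Nk.contDiff_ramp e).comp (contDiff_id.sub contDiff_const))).comp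
      (contDiff_id.sub contDiff_const))).div_const l).sub contDiff_const)
  have c2 : A * Real.tan θ0 = K := by rw [Real.tan_arctan]; field_simp
  refine ⟨fun t => A * Real.tan (θ t), contDiff_const.mul (contDiff_iff_contDiffAt.2 fun t =>
    (Real.contDiffAt_tan.2 (c0 t)).comp t c1.contDiffAt), fun t ht => ?_, fun t ht => ?_,
    fun t => ?_⟩
  · simp only [hθ, s2 _ (sub_nonpos.2 ht)]
    simp [c2]
  · simp only [hθ, s3 (t - (a + e)) (by linarith)]
    rw [mul_div_assoc, div_self hl.ne', ← c2]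
    norm_num
  · set x := t - (a + e)
    have d1 : HasDerivAt θ (θ0 * (2 * (Real.smoothTransition (x / e) -
        Real.smoothTransition ((x - l) / e)) / l)) t :=
      (((((Nk.hasDerivAt_ramp e x).sub ((Nk.hasDerivAt_ramp e (x - l)).comp_sub_const x l)
        ).comp_sub_const t (a + e)).const_mul 2).div_const l |>.sub_const 1).const_mul θ0
    have d2 := ((Real.hasDerivAt_tan (c0 t)).comp t d1).const_mul A
    have d3 : |Real.smoothTransition (x / e) - Real.smoothTransition ((x - l) / e)| ≤ 1 := by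
      have := Real.smoothTransition.nonneg (x / e)
      have := Real.smoothTransition.le_one (x / e)
      have := Real.smoothTransition.nonneg ((x - l) / e)
      have := Real.smoothTransition.le_one ((x - l) / e)
      exact abs_le.2 ⟨by linarith, by linarith⟩
    have d4 : 1 / Real.cos (θ t) ^ 2 = 1 + Real.tan (θ t) ^ 2 := by
      rw [← Real.inv_one_add_tan_sq (c0 t), one_div, inv_inv]
    rw [show deriv (fun t => A * Real.tan (θ t)) t = _ from d2.deriv, d4]
    generalize Real.smoothTransition (x / e) - Real.smoothTransition ((x - l) / e) = y at d3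
    have d5 : |θ0 * (2 * y / l)| ≤ A / 2 := by
      rw [abs_mul, abs_of_nonneg t0, abs_div, abs_mul, abs_of_pos hl, abs_two, hA, ← mul_div_assoc,
        div_div, mul_comm l, ← div_div]
      gcongr
      nlinarith [abs_nonneg y]
    have d6 : 0 < 1 + Real.tan (θ t) ^ 2 := by positivity
    rw [abs_mul, abs_mul, abs_of_pos hA0, abs_of_pos d6]
    nlinarith [mul_le_mul_of_nonneg_left d5 (mul_pos hA0 d6).le]

theorem wseq_of {d : ℕ} {M : Imm d ι X} {F h : X → ℝ} {Λ : ℝ} {𝒰 : Ultrafilter ℕ}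
    {u : ℕ → X → ℝ} {τ s : ℕ → ℝ} (H : M.Seq F h Λ 𝒰 u τ s) : WSeq M F h Λ 𝒰 u τ s :=
  ⟨H.smh, H.adm, H.pos, H.tau, H.sh, fun _ => .of_forall fun j p _ => H.eq j p, H.thin⟩

/-- a slice without weight -/
theorem form_of_slice {m : ℕ} {M : Imm (m + 1) ι X} {F G : X → ℝ} {S B : Set X}
    {N : Imm m ι ↥(S \ B)} (hF : M.Sm F) (hG : M.Sm G) (h : Slice M F G S B N) :
    N.Form fun q => G q := by
  have hl := Loc.of_cont (N := N) (M := M) continuous_subtype_val h.x
  have h1 := weight m ι _ N _ _ (fun _ => 1) (hF.res hl) (hG.res hl) (sm_const 1)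
    (fun _ => one_pos) h.form
  simpa [lapF_apply, lap_const, gam_apply, D_const] using h1

/-- on a closed surface a positive potential leaves no slice -/
theorem sb_empty [CompactSpace X] {M : Imm 2 ι X} {F h : X → ℝ} {Λ : ℝ} {𝒰 : Ultrafilter ℕ}
    {u : ℕ → X → ℝ} {τ s : ℕ → ℝ} (hM : Injective M.x) (hF : M.Sm F) (H : WSeq M F h Λ 𝒰 u τ s)
    {c : ℝ} (hc : 0 < c) (hle : ∀ p, c ≤ M.pre.EF F p + h p ^ 2 - 2 * √(M.pre.gam h h p)) :
    Sb 𝒰 u = ∅ := by
  obtain ⟨N, -, hN⟩ := wLim 1 ι X M F h Λ 𝒰 u τ s hM hF H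
  have h1 := hN (fun _ => c) continuous_const fun q => (hle q).trans (by
    gcongr
    exact sub_le_self _ (gam_self_nonneg _ _))
  have h2 : M.Bad 𝒰 u = ∅ := Rz.empty_of_nets h1.nets (by norm_num)
  by_contra hne
  obtain ⟨p, hp⟩ := nonempty_iff_ne_empty.2 hne
  have : Nonempty ↥(M.Sig 𝒰 u) := ⟨⟨p, hp, by simp [h2]⟩⟩
  have : CompactSpace ↥(M.Sig 𝒰 u) := isCompact_iff_compactSpace.1 (by
    rw [Imm.Sig, h2, sdiff_empty]; exact (isClosed_Sb 𝒰 u).isCompact)
  exact no_curve N hc (form_of_slice hF (sm_const c) h1)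

/-- **The band inequality** on a closed surface -/
theorem band [CompactSpace X] {M : Imm 2 ι X} (hM : Injective M.x) {V g : X → ℝ}
    (hV : Continuous V) (hf : M.Form V) (hg : M.Sm g)
    {a D s : ℝ} (hD : 0 < D) (hs : 4 * π ^ 2 < s * D ^ 2)
    (hsV : ∀ p, a < g p → g p < a + D → M.pre.gam g g p ≤ 1 ∧ s ≤ V p) {Y : Set X} (hY : IsPreconnected Y) {p q : X}
    (hp : p ∈ Y) (hq : q ∈ Y) (hpa : g p ≤ a) : g q < a + D := by
  by_contra! hqa
  obtain ⟨e, σ, he, hσ, hφ⟩ := exists_prof (a := a) hD hs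
  set c := (s - σ) / 2 with hc
  have hc0 : 0 < c := by linarith
  obtain ⟨F, hF, hVF⟩ := Gr.lin hV hf hc0
  obtain ⟨r0, C, hr0, hC, hseq⟩ := seq (jang J.perron') bar 2 ι X M F hM hF
  obtain ⟨L, hL, hLip⟩ := hg.exists_lip hM
  obtain ⟨B, hB⟩ := (isCompact_range hV).bddBelow
  set r := min r0 (e / L)
  have hr : 0 < r := lt_min hr0 (by positivity)
  have hnear : ∀ y z, ‖M.x z - M.x y‖ < r → |g z - g y| ≤ e := fun y z h =>
    (hLip z y).trans ((le_div_iff₀' hL).1 (h.le.trans (min_le_right _ _)))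
  set K := C / r + (1 + |2 * c - B|) with hK
  have hK1 : 0 ≤ C / r := by positivity
  have hK2 : 2 * c - B ≤ K ^ 2 := by nlinarith [le_abs_self (2 * c - B), abs_nonneg (2 * c - B)]
  obtain ⟨φ, φ1, φ2, φ3, φ4⟩ := hφ K (by positivity)
  obtain ⟨Λ, 𝒰, u, τ, σ', hu, hbar⟩ := hseq (fun y => φ (g y)) (hg.comp φ1)
  have hgam : ∀ y, √(M.pre.gam (fun y => φ (g y)) (fun y => φ (g y)) y) =
      |deriv φ (g y)| * √(M.pre.gam g g y) := fun y => by
    rw [← Real.sqrt_sq_eq_abs, ← Real.sqrt_mul (sq_nonneg _)]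
    simp only [gam_apply, D_comp (hg.diffAt y) (φ1.differentiable (by simp) (g y)).hasDerivAt,
      mul_mul_mul_comm (deriv φ (g y)), ← Finset.mul_sum, sq]
  have hS := sb_empty hM hF (wseq_of hu) hc0 fun y => by
    have h1 := hVF y
    have h3 := hB (mem_range_self y)
    rw [hgam]
    rcases le_or_gt (g y) a with h | h
    · have h4 : deriv φ (g y) = 0 := (EventuallyEq.deriv_eq (f := fun _ => -K)
        ((eventually_lt_nhds (show g y < a + e by linarith)).mono fun t ht => φ2 t ht.le)).trans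
        (deriv_const _ _)
      rw [h4, abs_zero, φ2 _ (by linarith), neg_sq]
      linarith
    rcases le_or_gt (a + D) (g y) with h' | h'
    · have h4 : deriv φ (g y) = 0 := (EventuallyEq.deriv_eq (f := fun _ => K)
        ((eventually_gt_nhds (show a + D - e < g y by linarith)).mono fun t ht => φ3 t ht.le)).trans
        (deriv_const _ _)
      rw [h4, abs_zero, φ3 _ (by linarith)]
      linarith
    · have h4 := mul_le_of_le_one_right (abs_nonneg (deriv φ (g y)))
        (Real.sqrt_le_one.2 (hsV y h h').1)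
      linarith [(hsV y h h').2, φ4 (g y)]
  have h1 := (hbar r p hr (min_le_left _ _)).2 fun y hy => by
    rw [φ2 _ (by linarith [(abs_le.1 (hnear p y hy)).2])]
    linarith [abs_nonneg (2 * c - B)]
  have h2 := (hbar r q hr (min_le_left _ _)).1 fun y hy => by
    rw [φ3 _ (by linarith [(abs_le.1 (hnear q y hy)).1])]
    linarith [abs_nonneg (2 * c - B)]
  have h3 : Y ⊆ Upos 𝒰 u ∪ Upos 𝒰 fun j q => -u j q := fun y _ => by
    by_contra h
    exact (hS ▸ h : y ∈ (∅ : Set X))
  obtain ⟨y, -, hy⟩ := hY _ _ (isOpen_Upos 𝒰 u) (isOpen_Upos 𝒰 _) h3 ⟨q, hq, h2⟩ ⟨p, hp, h1⟩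
  exact Set.disjoint_left.1 (disjoint_Upos 𝒰 u) hy.1 hy.2

/-- the band inequality on one component -/
theorem band_comp [CompactSpace X] {M : Imm 2 ι X} (hM : Injective M.x) {V g : X → ℝ}
    (hV : Continuous V) (hf : M.Form V) (hg : M.Sm g)
    {a D s : ℝ} (hD : 0 < D) (hs : 4 * π ^ 2 < s * D ^ 2) {o p q : X}
    (hsV : ∀ y ∈ connectedComponent o, a < g y → g y < a + D → M.pre.gam g g y ≤ 1 ∧ s ≤ V y)
    (hp : p ∈ connectedComponent o) (hq : q ∈ connectedComponent o) (hpa : g p ≤ a) :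
    g q < a + D := by
  classical
  have := M.locallyConnected
  have ho : IsOpen (connectedComponent o) := isOpen_connectedComponent
  set g' : X → ℝ := (connectedComponent o).piecewise g fun _ => a
  have h1 : ∀ y ∈ connectedComponent o, g' =ᶠ[𝓝 y] g := fun y hy =>
    Eventually.mono (ho.mem_nhds hy) fun z hz => piecewise_eq_of_mem _ _ _ hz
  have h2 : ∀ y, y ∉ connectedComponent o → g' =ᶠ[𝓝 y] fun _ => a := fun y hy =>
    Eventually.mono (isClosed_connectedComponent.isOpen_compl.mem_nhds hy) fun z hz =>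
      piecewise_eq_of_notMem _ _ _ hz
  have h3 : M.Sm g' := sm_of_local fun y => (em _).elim (fun hy => ⟨g, hg, h1 y hy⟩)
    fun hy => ⟨_, sm_const a, h2 y hy⟩
  rw [← (h1 q hq).self_of_nhds]
  refine band hM hV hf h3 hD hs (fun y ha hb => ?_) isPreconnected_connectedComponent hp hq
    ((h1 p hp).self_of_nhds.trans_le hpa)
  have hy : y ∈ connectedComponent o := by
    by_contra hy
    exact ha.ne' (h2 y hy).self_of_nhds
  rw [(h1 y hy).self_of_nhds] at ha hb
  rw [gam_congr (h1 y hy) (h1 y hy)]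
  exact hsV y hy ha hb

end Crest.Agent.N228.Bd

end
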