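import Crest.Agent.N228.N3.Defs
import Crest.Agent.N222.F.Graph
import Crest.Agent.N222.F.Bump
import Crest.Agent.N228.N3.Band

-- ▼ part N228/N3/Main
section

/-!
# Row 228, dimension three (helper99): the assembly
-/

set_option autoImplicit false
open MeasureTheory Set Filter Topology Function

noncomputable section

namespace Crest.Agent.N228.N3
open Crest.Agent.N222 Crest.Agent.N222.Imm

variable {d : ℕ} {ι : Type} [Fintype ι] [DecidableEq ι] {X : Type}

theorem gam_aff [TopologicalSpace X] {M : Imm d ι X} {f : X → ℝ} (hf : M.Sm f) (a b : ℝ) (p : X) :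
    M.pre.gam (fun q => a * f q + b) (fun q => a * f q + b) p = a ^ 2 * M.pre.gam f f p := by
  have h : ∀ c, M.pre.D c (fun q => a * f q + b) p = a * M.pre.D c f p := fun c => by
    rw [D_add (((sm_const a).mul hf).diffAt p) ((sm_const b).diffAt p), D_const,
      D_const_mul a (hf.diffAt p), add_zero]
  simp only [gam_apply, h, Finset.mul_sum]
  exact Finset.sum_congr rfl fun _ _ => by ring

theorem Lip1.aff [TopologicalSpace X] {M : Imm d ι X} {O : Set X} {f : X → ℝ} (hf : Lip1 M O f)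
    {a : ℝ} (ha : a ^ 2 ≤ 1) (b : ℝ) : Lip1 M O fun q => a * f q + b :=
  ⟨((sm_const a).mul hf.1).add (sm_const b), fun p hp => by
    rw [gam_aff hf.1]
    exact mul_le_one₀ ha (gam_self_nonneg _ _) (hf.2 p hp)⟩

/-- a preconnected set does not jump over a value -/
theorem lt_of_ne [TopologicalSpace X] {c : Set X} (hc : IsPreconnected c) {U : X → ℝ}
    (hU : Continuous U) {s : ℝ} (h : ∀ p ∈ c, U p ≠ s) {p q : X} (hp : p ∈ c) (hq : q ∈ c)
    (h1 : U p < s) : U q < s := by
  by_contra h2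
  obtain ⟨z, hz, e⟩ := hc.intermediate_value hp hq hU.continuousOn ⟨h1.le, not_lt.1 h2⟩
  exact h z hz e

/-- absorption -/
theorem absorb [TopologicalSpace X] [T2Space X] (hCL : CLStmt) {c A : Set X}
    (hc : IsPreconnected c) {U : X → ℝ} (hU : Continuous U) {a b D : ℝ}
    (hK : IsCompact (c ∩ {p | a ≤ U p ∧ U p ≤ b})) (hA : c ∩ {p | a ≤ U p ∧ U p ≤ b} ⊆ A)
    (hs : Small U A D) (hD : D < b - a) (hab : a < b) {p q : X} (hp : p ∈ c) (hq : q ∈ c)
    (h1 : U p ≤ a) : U q < b := by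
  by_contra h2
  obtain ⟨c', h3, h4, x, hx, y, hy, e1, e2⟩ :=
    hCL X c U a b hc hU hab hK ⟨p, hp, h1⟩ ⟨q, hq, not_lt.1 h2⟩
  have := hs c' (h3.trans hA) h4 y hy x hx
  linarith

theorem locate {t : ℕ → ℝ} (ht : ∀ k, t k + 80 ≤ t (k + 1)) :
    (∀ j k, j < k → t j + 80 ≤ t k) ∧ (∀ k : ℕ, t 0 + 80 * k ≤ t k) ∧
      ∀ s, t 0 ≤ s → ∃ k, t k ≤ s ∧ s < t (k + 1) := by
  have h1 : Monotone t := monotone_nat_of_le_succ fun k => by linarith [ht k]
  have h2 : ∀ k : ℕ, t 0 + 80 * k ≤ t k := fun k => by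
    induction k with
    | zero => simp
    | succ k ih => push_cast; linarith [ht k]
  refine ⟨fun j k h => (ht j).trans (h1 h), h2, fun s hs => ?_⟩
  have h3 : ∃ k, s < t (k + 1) := by
    obtain ⟨k, hk⟩ := exists_nat_gt (s - t 0)
    refine ⟨k, ?_⟩
    have := h2 (k + 1)
    push_cast at this
    linarith [Nat.cast_nonneg (α := ℝ) k]
  classical
  refine ⟨Nat.find h3, ?_, Nat.find_spec h3⟩
  rcases h : Nat.find h3 with _ | k
  · exact hs
  · exact not_lt.1 (Nat.find_min h3 (by omega))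

theorem n3_of (hApp : AppStmt) (hRad : RadStmt) (hPX : PieceXStmt) (hCL : CLStmt)
    (hCov : CoverStmt) (hS : SminStmt) : N3Stmt := by
  intro ι _ _ X _ _ _ _ _ M hinj hL hF
  have hlc := M.locallyConnected
  have happ : ∀ p : X, ∀ ε > 0, ∃ g, M.Sm g ∧ ∀ q, |g q - dist p q| ≤ ε ∧
      M.pre.gam g g q ≤ (1 + ε) ^ 2 := fun p ε hε =>
    hApp 3 ι X M hinj hL (dist p) ε hε fun q q' => by
      rw [dist_comm p q, dist_comm p q']; exact abs_dist_sub_le q q' p
  have hdist : ∀ (S : Set X) (D : ℝ), D ≤ 271 → (∀ f, Lip1 M univ f → Small f S D) →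
      ∀ c ⊆ S, IsPreconnected c → ∀ p ∈ c, ∀ q ∈ c, dist p q ≤ 498 := by
    intro S D hD h c hc h1 p hp q hq
    obtain ⟨g, hg, h2⟩ := happ p (1 / 2) (by norm_num)
    have h3 := h (fun x => 2 / 3 * g x + 0) ⟨((sm_const _).mul hg).add (sm_const _), fun x _ => by
      rw [gam_aff hg]; linarith [(h2 x).2]⟩ c hc h1 q hq p hp
    have h4 := abs_le.1 (h2 p).1
    have h5 := abs_le.1 (h2 q).1
    rw [dist_self] at h4
    simp only at h3
    linarith [h4.2, h5.1]
  obtain ⟨x0⟩ : Nonempty X := inferInstance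
  obtain ⟨ρ, hρ, hρ'⟩ := happ x0 1 one_pos
  obtain ⟨U, hU, t, hF1, hcpt, ht0, ht, hrad⟩ := hRad 3 ι X M rfl hinj hF ρ hρ
    (fun p => by linarith [(hρ' p).2]) fun c => (isCompact_closedBall x0 (c + 1)).of_isClosed_subset
      (isClosed_le hρ.continuous continuous_const) fun p (hp : ρ p ≤ c) => by
        rw [Metric.mem_closedBall, dist_comm]; linarith [(abs_le.1 (hρ' p).1).1]
  obtain ⟨t1, t2, t3⟩ := locate ht
  have cU := hU.continuous
  have cN : Continuous fun p => -U p := cU.neg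
  set G := M.graph U hU with hG
  have hUG : Lip1 G univ U := ⟨hU, fun p _ => by
    rw [hG, graph_pre, gS_gam_u]; linarith [sq_nonneg (M.vv U p)]⟩
  have hMG : ∀ {f O}, Lip1 M univ f → Lip1 G O f := fun hf => ⟨hf.1, fun p _ => by
    rw [hG, graph_pre]; exact (M.gS_gam_le U _ p).trans (hf.2 p (mem_univ p))⟩
  have hψ : ∀ k, ∃ ψ : X → ℝ, Out G ψ ∧ ∀ p, ψ p ≤ U p - t k + 30 ∧ ψ p ≤ t (k + 1) + 30 - U p ∧
      min (U p - t k + 30) (t (k + 1) + 30 - U p) - 1 ≤ ψ p := fun k => by
    have a1 := hUG.aff (a := 1) (by norm_num) (30 - t k)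
    have a2 := hUG.aff (a := -1) (by norm_num) (t (k + 1) + 30)
    obtain ⟨ψ, h1, h2⟩ := (hS 3 _ X G).1 _ _ a1.1 a2.1
    refine ⟨ψ, hPX 3 _ X G rfl (gx_injective hinj U) hF1 ψ
      ⟨h1, fun p _ => (h2 p).2.2.2 (a1.2 p (mem_univ p)) (a2.2 p (mem_univ p))⟩
      ((hcpt (t (k + 1) + 30)).of_isClosed_subset (isClosed_le continuous_const h1.continuous)
        fun p (hp : 0 ≤ ψ p) => show U p ≤ _ by linarith [(h2 p).2.1]), fun p => ?_⟩
    obtain ⟨b1, b2, b3, -⟩ := h2 p
    refine ⟨by linarith, by linarith, le_trans (le_of_eq ?_) b3⟩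
    congr 2 <;> ring
  choose ψ hO hψ using hψ
  choose A hA1 _ hA3 hA4 using hO
  let S : ℕ → Set X := fun k => {p | |U p - t k| ≤ 1} ∪ A k ∩ {p | t k ≤ U p ∧ U p ≤ t (k + 1)}
  have hZ : IsClosed (⋃ k, S k) := by
    refine LocallyFinite.isClosed_iUnion (fun p => ?_) fun k =>
      (isClosed_le (by fun_prop) continuous_const).union ((hA1 k).inter
        ((isClosed_le continuous_const cU).inter (isClosed_le cU continuous_const)))
    obtain ⟨n, hn⟩ := exists_nat_gt (U p + 2 - t 0)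
    refine ⟨{q | U q < U p + 1}, (isOpen_lt cU continuous_const).mem_nhds (lt_add_one (U p)),
      (finite_lt_nat n).subset fun k ⟨q, hq, (hq' : U q < _)⟩ => ?_⟩
    have h1 : t k - 1 ≤ U q := by
      rcases hq with h | h
      · linarith [(abs_le.1 (show |U q - t k| ≤ 1 from h)).1]
      · linarith [h.2.1]
    have h2 : (k : ℝ) < n := by linarith [t2 k, Nat.cast_nonneg (α := ℝ) k]
    exact_mod_cast h2
  -- points of `Z` strictly between two levels
  have hin : ∀ k, ∀ p ∈ ⋃ k, S k, t k + 1 < U p → U p < t (k + 1) - 1 → p ∈ A k := by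
    intro k p hp h1 h2
    obtain ⟨j, h | h⟩ := mem_iUnion.1 hp
    · have h3 := abs_le.1 (show |U p - t j| ≤ 1 from h)
      rcases lt_trichotomy j (k + 1) with h4 | h4 | h4
      · rcases (Nat.lt_succ_iff.1 h4).eq_or_lt with rfl | h5
        · linarith [h3.2]
        · linarith [h3.2, t1 _ _ h5]
      · subst h4; linarith [h3.1]
      · linarith [h3.1, t1 _ _ h4]
    · obtain ⟨h3, h4, h5⟩ := h
      rcases lt_trichotomy j k with h6 | rfl | h6
      · rcases (Nat.succ_le_of_lt h6).eq_or_lt with rfl | h7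
        · linarith
        · linarith [t1 _ _ h7]
      · exact h3
      · rcases (Nat.succ_le_of_lt h6).eq_or_lt with rfl | h7
        · linarith
        · linarith [t1 _ _ h7]
  -- preconnected sets which miss the radial necks
  have hloc : ∀ c : Set X, IsPreconnected c → (∀ k, ∀ p ∈ c, ¬ |U p - t k| ≤ 1) → ∀ p ∈ c,
      ∃ k, ∀ q ∈ c, t k + 1 < U q ∧ U q < t (k + 1) - 1 := by
    intro c hc h p hp
    obtain ⟨k, h1, h2⟩ := t3 (U p) (by linarith [ht0 p])
    have h3 : t k + 1 < U p := by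
      by_contra h3
      exact h k p hp (abs_le.2 ⟨by linarith, by linarith⟩)
    have h4 : U p < t (k + 1) - 1 := by
      by_contra h4
      exact h (k + 1) p hp (abs_le.2 ⟨by linarith, by linarith⟩)
    refine ⟨k, fun q hq => ⟨?_, lt_of_ne hc cU (fun z hz e => h (k + 1) z hz ?_) hp hq h4⟩⟩
    · have := lt_of_ne hc cN (s := -(t k + 1))
        (fun z hz e => h k z hz (abs_le.2 ⟨by linarith, by linarith⟩)) hp hq (by linarith)
      linarith
    · exact abs_le.2 ⟨by linarith, by linarith⟩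
  have h499 : (499 : ℝ) = 498 + 1 := by norm_num
  rw [h499]
  refine hCov X (⋃ k, S k) 498 hZ (hdist _ 11 (by norm_num) fun f hf => ?_)
    (hdist _ 271 le_rfl fun f hf c hc h1 p hp q hq => ?_)
  · refine small_of_closed hZ fun c hc h0 h1 p hp q hq => ?_
    by_cases h : ∃ k, ∃ z ∈ c, |U z - t k| ≤ 1
    · obtain ⟨k, z, hz, h2⟩ := h
      have h3 := abs_le.1 h2
      refine hrad k f hf c (fun y hy => show |U y - t k| ≤ 40 from abs_le.2 ⟨?_, ?_⟩) h1 p hp q hq
      · rcases k with _ | k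
        · linarith [ht0 y]
        · have := absorb hCL h1 cN (a := -(t (k + 1) - 2)) (b := -(t (k + 1) - 14)) (D := 11)
            (A := A k) ((hcpt (t (k + 1))).of_isClosed_subset (h0.inter
              ((isClosed_le continuous_const cN).inter (isClosed_le cN continuous_const)))
              fun x hx => show U x ≤ _ by linarith [hx.2.1])
            (fun x hx => hin k x (hc hx.1) (by linarith [hx.2.2, ht k]) (by linarith [hx.2.1]))
            (fun c' h4 h5 x hx x' hx' => by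
              have := hA3 k U (hUG.mono (subset_univ _)) c' h4 h5 x' hx' x hx
              linarith) (by linarith) (by linarith) hz hy (by linarith)
          linarith
      · have := absorb hCL h1 cU (a := t k + 2) (b := t k + 14) (D := 11) (A := A k)
          ((hcpt (t k + 14)).of_isClosed_subset (h0.inter
            ((isClosed_le continuous_const cU).inter (isClosed_le cU continuous_const)))
            fun x hx => hx.2.2)
          (fun x hx => hin k x (hc hx.1) (by linarith [hx.2.1]) (by linarith [hx.2.2, ht k]))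
          (hA3 k U (hUG.mono (subset_univ _))) (by linarith) (by linarith) hz hy (by linarith)
        linarith
    · obtain ⟨k, hk⟩ := hloc c h1 (fun k z hz h2 => h ⟨k, z, hz, h2⟩) p hp
      exact hA3 k f (hMG hf) c (fun y hy => hin k y (hc hy) (hk y hy).1 (hk y hy).2) h1 p hp q hq
  · obtain ⟨k, hk⟩ := hloc c h1 (fun k z hz h2 => hc hz (mem_iUnion.2 ⟨k, Or.inl h2⟩)) p hp
    have h2 : Small f {p | 0 < ψ k p ∧ ψ k p ≤ 60} 11 := by
      intro c' h3 h4 x hx x' hx'
      have h5 : ∀ y ∈ c', t k - 30 < U y ∧ U y < t (k + 1) + 30 ∧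
          (U y ≤ t k + 31 ∨ t (k + 1) - 31 ≤ U y) := fun y hy => by
        obtain ⟨b1, b2, b3⟩ := hψ k y
        obtain ⟨b4, b5⟩ := h3 hy
        refine ⟨by linarith, by linarith, ?_⟩
        rcases min_le_iff.1 (show min (U y - t k + 30) (t (k + 1) + 30 - U y) ≤ 61 by linarith)
          with h | h
        · left; linarith
        · right; linarith
      have h6 : ∀ y ∈ c', U y ≠ t k + 40 := fun y hy e => by
        rcases (h5 y hy).2.2 with h | h <;> linarith [ht k]
      by_cases h7 : U x < t k + 40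
      · exact hrad k f hf c' (fun y hy => show |U y - t k| ≤ 40 from abs_le.2
          ⟨by linarith [(h5 y hy).1], by linarith [lt_of_ne h4 cU h6 hx hy h7]⟩) h4 x hx x' hx'
      · refine hrad (k + 1) f hf c' (fun y hy => show |U y - t (k + 1)| ≤ 40 from abs_le.2
          ⟨?_, by linarith [(h5 y hy).2.1]⟩) h4 x hx x' hx'
        rcases (h5 y hy).2.2 with h | h
        · exact absurd (lt_of_ne h4 cU h6 hy hx (by linarith)) h7
        · linarith
    have h3 := hA4 k f (hMG hf) 11 le_rfl h2 c (fun y hy => ⟨?_, fun h => hc hy (mem_iUnion.2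
      ⟨k, Or.inr ⟨h, by linarith [(hk y hy).1], by linarith [(hk y hy).2]⟩⟩)⟩) h1 p hp q hq
    · linarith
    · have : 31 < min (U y - t k + 30) (t (k + 1) + 30 - U y) :=
        lt_min (by linarith [(hk y hy).1]) (by linarith [(hk y hy).2])
      change 30 < ψ k y
      linarith [(hψ k y).2.2]

end Crest.Agent.N228.N3

end
end

-- ▼ part N228/N3/NkLim

/-!
# Row 228, dimension three (helper62): the slabs of a weak sequence have small components
-/

set_option autoImplicit false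
set_option linter.unusedSectionVars false
open MeasureTheory Set Filter Topology Function Metric
open scoped ContDiff Real
open Crest.Agent.N222 Crest.Agent.N222.Imm

noncomputable section

namespace Crest.Agent.N228.N3

variable {ι : Type} [Fintype ι] [DecidableEq ι] {X : Type}
  [TopologicalSpace X] [T2Space X] [SecondCountableTopology X] [MeasurableSpace X] [BorelSpace X]

/-- the components of a closed surface which meet `11 ≤ ψ` are small -/
theorem surf_small [CompactSpace X] {N : Imm 2 ι X} (hN : Injective N.x) {V ψ f : X → ℝ}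
    (hV : Continuous V) (hf : N.Form V) (hψ : Lip1 N {p | 0 < ψ p} ψ)
    (hs : ∀ p, 0 < ψ p → 49 / 100 ≤ V p) (h : Lip1 N {p | 0 < ψ p} f) {p q : X}
    (hq : q ∈ connectedComponent p) (hp : 11 ≤ ψ p) : f p - f q ≤ 10 := by
  have hπ : 4 * π ^ 2 < 49 / 100 * 10 ^ 2 := by nlinarith [Real.pi_lt_d2, Real.pi_pos]
  have h1 : ∀ y ∈ connectedComponent p, 0 < ψ y := fun y hy => by
    by_contra! h0
    linarith [Bd.band_comp hN hV hf hψ.1 (a := 1) (by norm_num) hπ (fun z _ hz _ =>
      ⟨hψ.2 z (one_pos.trans hz), hs z (one_pos.trans hz)⟩) hy mem_connectedComponent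
      (h0.trans zero_le_one)]
  linarith [Bd.band_comp hN hV hf h.1 (a := f q) (by norm_num) hπ
    (fun z hz _ _ => ⟨h.2 z (h1 z hz), hs z (h1 z hz)⟩) hq mem_connectedComponent le_rfl]

theorem nkLim : NkLimStmt := by
  intro m ι _ _ X _ _ _ _ _ _ M F h Λ 𝒰 u τ s hM hF H hm ψ hψ hE T
  subst hm
  obtain ⟨N, -, hN⟩ := wLim 2 ι X M F h Λ 𝒰 u τ s hM hF H
  have hc : Continuous fun p => M.pre.EF F p + h p ^ 2 - 2 * √(M.pre.gam h h p) :=
    (hF.EF.continuous.add (H.smh.continuous.pow 2)).sub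
      (continuous_const.mul (H.smh.gam H.smh).continuous.sqrt)
  obtain ⟨G, hG, hG'⟩ := Gr.exists_sm_le M hc (δ := 1 / 100) (by norm_num)
  have h1 := hN G hG.continuous fun q => (hG' q).2.trans (by
    gcongr
    exact sub_le_self _ (gam_self_nonneg _ _))
  have h2 : M.Bad 𝒰 u = ∅ := Rz.empty_of_nets h1.nets (by norm_num)
  have h3 : M.Sig 𝒰 u = Sb 𝒰 u := by rw [Imm.Sig, h2, sdiff_empty]
  have : CompactSpace ↥(M.Sig 𝒰 u) :=
    isCompact_iff_compactSpace.1 (h3 ▸ (isClosed_Sb 𝒰 u).isCompact)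
  have hx : ∀ q : M.Sig 𝒰 u, N.x q = M.x q := h1.x
  have hl := Loc.of_cont (N := N) (M := M) continuous_subtype_val hx
  have hNi : Injective N.x := fun a b hab => Subtype.ext (hM (by rwa [← hx, ← hx]))
  have hfo : N.Form fun q => G q := Bd.form_of_slice hF hG h1
  have hres : ∀ f, Lip1 M {p | 0 < ψ p} f →
      Lip1 N {p | 0 < ψ p.1} fun p => f p.1 := fun f hf =>
    ⟨hf.1.res hl, fun p hp => ((hl p).gam_le (hf.1.diffAt _)).trans (hf.2 p hp)⟩
  have hsm : ∀ f, Lip1 M {p | 0 < ψ p} f → ∀ p q : M.Sig 𝒰 u, q ∈ connectedComponent p →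
      11 ≤ ψ p → f p - f q ≤ 10 := fun f hf p q hq hp =>
    surf_small hNi (hG.res hl).continuous hfo (hres ψ hψ)
      (fun y hy => by linarith [hE y hy, (hG' y).1]) (hres f hf) hq hp
  have := N.locallyConnected
  obtain ⟨r1, hr1, hsep⟩ := exists_lebesgue hNi isCompact_univ connectedComponent
    (fun _ => isOpen_connectedComponent) fun p _ => mem_iUnion.2 ⟨p, mem_connectedComponent⟩
  obtain ⟨r0, hr0, hmv⟩ := exists_mvt (F := ℝ) hM
  obtain ⟨L, hL, hLip⟩ := hψ.1.exists_lip hM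
  obtain ⟨r, hr, a0, a1, a2, a3⟩ : ∃ r : ℝ, 0 < r ∧ r ≤ r0 ∧ 2 * r ≤ r1 ∧ L * r ≤ 1 ∧ r ≤ 1 / 4 := by
    refine ⟨min (min r0 (r1 / 2)) (min (1 / L) (1 / 4)), by positivity,
      (min_le_left _ _).trans (min_le_left _ _), ?_, ?_, (min_le_right _ _).trans (min_le_right _ _)⟩
    · linarith [(min_le_left _ (min (1 / L) (1 / 4))).trans (min_le_right r0 (r1 / 2))]
    · exact (le_div_iff₀' hL).1 ((min_le_right _ _).trans (min_le_left _ _))
  -- tubes
  set tb : Set (M.Sig 𝒰 u) → Set X := fun A => ⋃ z ∈ A, {y | ‖M.x y - M.x z‖ < r} with htb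
  have ho : ∀ A, IsOpen (tb A) := fun A => isOpen_biUnion fun z _ =>
    isOpen_lt (M.continuous_x.sub continuous_const).norm continuous_const
  have hev : ∀ᶠ j in (𝒰 : Filter ℕ), ∀ y ∈ (tb univ)ᶜ, T < |u j y| := by
    refine (ho univ).isClosed_compl.isCompact.induction_on (p := fun K =>
      ∀ᶠ j in (𝒰 : Filter ℕ), ∀ y ∈ K, T < |u j y|) (by simp)
      (fun s t hst ht => ht.mono fun j hj y hy => hj y (hst hy))
      (fun s t hs ht => (hs.and ht).mono fun j hj y hy => hy.elim (hj.1 y) (hj.2 y)) fun y hy => ?_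
    obtain ⟨W, hW, hW'⟩ := (wCyl 2 ι X M F h Λ 𝒰 u τ s hM hF H).2 y (fun hy' => hy
      (mem_biUnion (mem_univ (⟨y, h3 ▸ hy'⟩ : M.Sig 𝒰 u)) (by simpa using hr))) T
    exact ⟨W, mem_nhdsWithin_of_mem_nhds hW, hW'⟩
  filter_upwards [hev] with j hj f hf c hc hcc p hp q hq
  have hin : c ⊆ tb univ := fun y hy => by
    by_contra h0
    exact (hj y h0).not_ge (hc hy).1
  have hnear : ∀ y ∈ c, ∀ z : X, ‖M.x y - M.x z‖ < r → 11 ≤ ψ z ∧ |f z - f y| ≤ 1 / 2 := by
    intro y hy z hz
    have b1 : 12 ≤ ψ y := (hc hy).2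
    have b2 : ∀ w, ‖M.x w - M.x y‖ < 2 * r → ψ y - ψ w ≤ L * ‖M.x w - M.x y‖ := fun w _ => by
      linarith [(abs_le.1 (hLip w y)).1]
    rw [norm_sub_rev] at hz
    have b3 := hmv f y z r 1 a0 hz fun w hw => ⟨hf.1.diffAt w, by
      rw [norm_td, ← sq_le_one_iff₀ (norm_nonneg _), ← gam_self_eq]
      exact hf.2 w (by
        have := b2 w hw
        have := mul_le_mul_of_nonneg_left hw.le hL.le
        change 0 < ψ w
        linarith)⟩
    refine ⟨?_, b3.trans (by linarith)⟩
    have := b2 z (by linarith)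
    have := mul_le_mul_of_nonneg_left hz.le hL.le
    linarith
  obtain ⟨z, -, hz⟩ := mem_iUnion₂.1 (hin hp)
  have hsub : c ⊆ tb (connectedComponent z) := by
    refine hcc.subset_left_of_subset_union (ho _) (ho (connectedComponent z)ᶜ)
      (Set.disjoint_left.2 fun y hy hy' => ?_) (fun y hy => ?_)
      ⟨p, hp, mem_biUnion mem_connectedComponent hz⟩
    · obtain ⟨a, ha, ha'⟩ := mem_iUnion₂.1 hy
      obtain ⟨b, hb, hb'⟩ := mem_iUnion₂.1 hy'
      obtain ⟨k, hk⟩ := hsep a (mem_univ a)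
      have c1 := hk a (by simpa using hr1)
      have c2 := hk b (by
        rw [hx, hx]
        have := norm_sub_le_norm_sub_add_norm_sub (M.x b) (M.x y) (M.x a)
        rw [norm_sub_rev (M.x b) (M.x y)] at this
        exact this.trans_lt (by linarith [mem_ofPred_eq ▸ ha', mem_ofPred_eq ▸ hb']))
      refine hb ?_
      rw [connectedComponent_eq ha, ← connectedComponent_eq c1]
      exact c2
    · obtain ⟨a, -, ha⟩ := mem_iUnion₂.1 (hin hy)
      exact (em (a ∈ connectedComponent z)).imp (mem_biUnion · ha) (mem_biUnion · ha)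
  obtain ⟨w, hw, hw'⟩ := mem_iUnion₂.1 (hsub hq)
  linarith [hsm f hf z w hw (hnear p hp z hz).1, abs_le.1 (hnear p hp z hz).2,
    abs_le.1 (hnear q hq w hw').2]

end Crest.Agent.N228.N3

end
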