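import Crest.Agent.N228.N3.Defs
import Crest.Agent.N228.Nk.Two
import Crest.Agent.N228.J.Per
import Crest.Agent.N228.J.Fam
import Crest.Agent.N228.Cf.Step
import Crest.Agent.N228.Nk.Pt
import Crest.Agent.N228.O.Defs
import Crest.Agent.N222.F.Res
import Crest.Agent.N222.F.Bump
import Crest.Agent.N222.F.Basic
import Crest.Agent.N228.Nk.Prof
import Crest.Agent.N228.Gr.Ims
import Crest.Agent.N228.Gr.Iso
import Crest.Agent.N222.F.Graph

-- ▼ part N228/N3/Neck
section

/-! # Row 228, dimension three (helper16): the neck -/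

set_option autoImplicit false
open MeasureTheory Set Filter Topology Function
open scoped ContDiff
open Crest.Agent.N222 Crest.Agent.N222.Imm Crest.Agent.N228.Nk

noncomputable section

namespace Crest.Agent.N228.N3

theorem neck (hP : ProfStmt) (hL : NkLimStmt) : NeckStmt := by
  intro d ι _ _ X _ _ _ _ _ _ M F hi hF hd φ ψ a T δ hφ ha hδ hψ hE
  subst hd
  obtain ⟨K, H⟩ := two (θp := fun p => 3 - φ p) (θm := fun p => 3 + φ p) hi hF
    ((sm_const _).sub hφ) ((sm_const _).add hφ) (fun p h => by linarith) hδ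
  obtain ⟨k, L, hk, k0, k1, k2, k3, k4⟩ := hP (K / a)
  have hK : K ≤ a * L := (div_le_iff₀' ha).1 k0
  have hh : M.Sm fun p => a * k (φ p) := (sm_const _).mul (hφ.comp hk)
  obtain ⟨Λ, 𝒰, u, τ, s, hs, hl, hb, hc⟩ := H (fun p => a * k (φ p)) (a * L) (a * -L) hh hK
    (by linarith) (fun p h => by rw [k1 _ (by linarith)]) fun p h => by rw [k2 _ (by linarith)]
  have key : ∀ p, M.pre.gam φ φ p ≤ a ^ 2 → -(12 * a ^ 2) ≤ (a * k (φ p)) ^ 2 -
      2 * √(M.pre.gam (fun p => a * k (φ p)) (fun p => a * k (φ p)) p) := by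
    intro p hp
    have h1 : √(M.pre.gam (fun p => a * k (φ p)) (fun p => a * k (φ p)) p) ≤
        a ^ 2 * |deriv k (φ p)| := by
      rw [I.gam_comp_self hφ ((hk.differentiable (by simp) _).hasDerivAt.const_mul a)]
      refine Real.sqrt_le_iff.2 ⟨by positivity, ?_⟩
      rw [mul_pow, mul_pow, sq_abs]
      nlinarith [mul_le_mul_of_nonneg_left hp (mul_nonneg (sq_nonneg a) (sq_nonneg (deriv k (φ p))))]
    nlinarith [mul_le_mul_of_nonneg_left (k4 (φ p)) (sq_nonneg a)]
  obtain ⟨j, j1, j2⟩ := ((hL 2 ι X M F _ Λ 𝒰 u τ s hi hF hs rfl ψ hψ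
    (fun p hp => by linarith [key p (hE p hp).1, (hE p hp).2]) T).and (hb (T + 1))).exists
  obtain ⟨lo, up, c1, c2⟩ := hc j
  obtain ⟨-, c4⟩ := c2 fun p => ⟨mul_le_mul_of_nonneg_left (abs_le.1 (k3 _)).1 ha.le,
    mul_le_mul_of_nonneg_left (abs_le.1 (k3 _)).2 ha.le⟩
  have hu := (hs.adm j).sm
  refine ⟨u j, fun p => F p + Real.log (M.vv (u j) p), min lo (-(T + 1)), max up (T + 1), hu,
    hF.add (hu.vv.log fun p => (M.vv_pos _ p).ne'), min_lt_of_right_lt (by linarith),
    lt_max_of_lt_right (lt_add_one T), fun p hp => ?_,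
    fun p => ⟨min_le_of_left_le (c4 p).1, le_max_of_le_left (c4 p).2⟩,
    fun p hp => by linarith [(j2 p).1 (by linarith)], fun p hp => by linarith [(j2 p).2 (by linarith)],
    fun p hp => ?_, fun p hp => ?_, j1⟩
  · have h1 := (hl j p).trans (gn_le_gain _ _ _ _)
    have h2 : -(12 * a ^ 2) ≤ min 0 ((a * k (φ p)) ^ 2 -
        2 * |M.pre.dir (M.Xf (u j)) (fun p => a * k (φ p)) p|) :=
      le_min (neg_nonpos.2 (by positivity))
        (by linarith [key p hp, abs_dir_le_sqrt M (u j) (fun p => a * k (φ p)) p])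
    have h3 : 0 ≤ (M.gS (u j)).gam (M.vv (u j)) (M.vv (u j)) p / M.vv (u j) p ^ 2 :=
      div_nonneg (graph_pre hu ▸ gam_self_nonneg (M := M.graph (u j) hu) _ _) (sq_nonneg _)
    rw [EF_graph hF hu]
    linarith
  · have h1 := (c1 p).1 (by linarith)
    rw [max_eq_left (h1 ▸ (j2 p).1 (by linarith)), h1]
  · have h1 := (c1 p).2 (by linarith)
    rw [min_eq_left (h1 ▸ (j2 p).2 (by linarith)), h1]

end Crest.Agent.N228.N3

end
end

-- ▼ part N228/J/Tw
section

/-!
# Row 228, solver layer (helper41): the twisted equation `Q (w + σ) = Φ (c, w, 1 / W (w + σ))`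

`σ` is a local primitive of a closed one-form, for example `T θ` with `θ` circle valued.
-/

set_option autoImplicit false
set_option linter.unusedSectionVars false
open Set Filter Topology Function
open scoped ContDiff
open Crest.Agent.N222

noncomputable section

namespace Crest.Agent.N228.J

variable {d : ℕ} {ι : Type} [Fintype ι] [DecidableEq ι] {X : Type} [TopologicalSpace X]
  {P : Type} [NormedAddCommGroup P] [NormedSpace ℝ P] {Φ : P × ℝ × ℝ → ℝ} {C : Set P}
  {M : Imm d ι X} {b : ι → X → ℝ} {c : X → P}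

/-- local primitives of a closed one-form -/
structure Coc (A : J.Atl d X) where
  V : X → Set X
  σ : X → X → ℝ
  op : ∀ p, IsOpen (V p)
  mem : ∀ p, p ∈ V p
  sm : ∀ p, A.SmOn (V p) (σ p)
  lc : ∀ p, ∀ q ∈ V p, ∃ k, σ p =ᶠ[𝓝 q] fun y => σ q y + k

/-- the shifted right hand side -/
def PhiT (Φ : P × ℝ × ℝ → ℝ) (z : (P × ℝ) × ℝ × ℝ) : ℝ := Φ (z.1.1, z.2.1 - z.1.2, z.2.2)

theorem good_PhiT (hΦ : J.Good Φ univ C) : J.Good (PhiT Φ) univ {z | z.1 ∈ C} := by
  refine ⟨isOpen_univ, ordConnected_univ, ContDiff.contDiffOn ?_, fun c hc t _ v hv => ?_⟩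
  · have h := hΦ.sm
    rw [univ_prod_univ, univ_prod_univ, contDiffOn_univ] at h
    exact h.comp (contDiff_fst.fst.prodMk ((contDiff_snd.fst.sub contDiff_fst.snd).prodMk
      contDiff_snd.snd))
  · have := deriv_comp_sub_const (fun s => Φ (c.1, s, v)) c.2 t
    simp only [PhiT]
    rw [this]
    exact hΦ.pos _ hc _ trivial v hv

theorem QQ_shift {u w : X → ℝ} {k : ℝ} {q : X} (h : u =ᶠ[𝓝 q] fun y => w y + k) :
    QQ M b u q = QQ M b w q ∧ M.vv u q = M.vv w q := by
  let _ : MeasurableSpace X := ⊥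
  exact ⟨by rw [QQ_congr h, QQ_add_const], by rw [Imm.vv_congr h, Imm.vv_add_const]⟩

theorem Sub.shift {σ1 σ2 v : X → ℝ} {k : ℝ} {q : X} (h : σ1 =ᶠ[𝓝 q] fun y => σ2 y + k)
    (H : Sub M b (PhiT Φ) (fun y => (c y, σ2 y)) (fun y => v y + σ2 y) q) :
    Sub M b (PhiT Φ) (fun y => (c y, σ1 y)) (fun y => v y + σ1 y) q := by
  rintro φ ⟨U, hU, hq, hφ⟩ hm
  have h1 := H (fun y => φ y + -k) ⟨U, hU, hq, fun p => (hφ p).add contDiffOn_const⟩
    (hm.congr (h.mono fun y hy => by simp only [hy]; ring))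
  obtain ⟨e1, e2⟩ := QQ_shift (M := M) (b := b) (EventuallyEq.refl (𝓝 q) fun y => φ y + -k)
  change Φ (c q, v q + σ2 q - σ2 q, M.vv _ q) ≤ QQ M b _ q at h1
  change Φ (c q, v q + σ1 q - σ1 q, M.vv _ q) ≤ QQ M b _ q
  rwa [e1, e2, add_sub_cancel_right, ← add_sub_cancel_right (v q) (σ1 q)] at h1

theorem smOn_add {A : J.Atl d X} {U : Set X} {f g : X → ℝ} (hf : A.SmOn U f) (hg : A.SmOn U g) :
    A.SmOn U fun y => f y + g y := fun p => (hf p).add (hg p)

/-- **TW**, general form -/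
theorem exists_tw [T2Space X] [FiniteDimensional ℝ P] (hb : ∀ a, M.Sm (b a))
    (hΦ : J.Good Φ univ C) (hc : M.Sm c) (hC : ∀ p, c p ∈ C) (Z : Coc M.atl) {s t : ℝ} (hst : s ≤ t)
    (h1 : ∀ p, Φ (c p, s, M.vv (Z.σ p) p) ≤ QQ M b (Z.σ p) p)
    (h2 : ∀ p, QQ M b (Z.σ p) p ≤ Φ (c p, t, M.vv (Z.σ p) p)) :
    ∃ w, M.Sm w ∧ ∀ p, QQ M b (fun y => w y + Z.σ p y) p =
      Φ (c p, w p, M.vv (fun y => w y + Z.σ p y) p) ∧ s ≤ w p ∧ w p ≤ t := by
  have hJ := M.jop_on hb M.atl rfl
  let S : Set (X → ℝ) := {v | Continuous v ∧ (∀ q, Sub M b (PhiT Φ) (fun y => (c y, Z.σ q y))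
    (fun y => v y + Z.σ q y) q) ∧ ∀ q, s ≤ v q ∧ v q ≤ t}
  have hN : ∀ (r : ℝ) p, ∀ q ∈ Z.V p, M.atl.SmN (fun y => r + Z.σ p y) q := fun r p q hq =>
    ⟨_, Z.op p, hq, smOn_add (fun _ => contDiffOn_const) (Z.sm p)⟩
  have hQ : ∀ (r : ℝ) p, ∀ q ∈ Z.V p, QQ M b (fun y => r + Z.σ p y) q = QQ M b (Z.σ q) q ∧
      M.vv (fun y => r + Z.σ p y) q = M.vv (Z.σ q) q := fun r p q hq => by
    obtain ⟨k, hk⟩ := Z.lc p q hq
    exact QQ_shift (k := k + r) (hk.mono fun y hy => by simp only [hy]; ring)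
  have h0 : (fun _ => s) ∈ S := ⟨continuous_const, fun q =>
    J.vsub_of_sm isOpen_univ hJ (mem_univ q) (hN s q q (Z.mem q)) (by
      change Φ (c q, s + Z.σ q q - Z.σ q q, M.vv _ q) ≤ QQ M b _ q
      rw [(hQ s q q (Z.mem q)).1, (hQ s q q (Z.mem q)).2, add_sub_cancel_right]
      exact h1 q), fun _ => ⟨le_rfl, hst⟩⟩
  have hbd : ∀ q, BddAbove ((fun v => v q) '' S) := fun q =>
    ⟨t, by rintro _ ⟨v, hv, rfl⟩; exact (hv.2.2 q).2⟩
  let w : X → ℝ := fun q => sSup ((fun v => v q) '' S)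
  have hw : ∀ q, IsLUB ((fun v => v q) '' S) (w q) := fun q => isLUB_csSup ⟨_, _, h0, rfl⟩ (hbd q)
  have key : ∀ p, J.Solves M.atl (M.jop b) (PhiT Φ) (fun y => (c y, Z.σ p y)) (Z.V p)
      fun y => w y + Z.σ p y := fun p => by
    have hσ := (Z.sm p).continuousOn (Z.op p)
    refine J.perron2 (c := fun y => (c y, Z.σ p y)) (wm := fun y => s + Z.σ p y)
      (wp := fun y => t + Z.σ p y)
      (S := (fun v y => v y + Z.σ p y) '' S) (Z.op p) (hJ.mono (Z.op p) (subset_univ _))
      ((good_PhiT hΦ).mono (by rintro _ ⟨q, -, rfl⟩; exact hC q))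
      (fun q => ((((M.smOn_univ (A := M.atl) rfl).2 hc).mono (subset_univ _)) q).prodMk (Z.sm p q))
      (continuousOn_const.add hσ) (continuousOn_const.add hσ) (fun _ _ => ⟨trivial, trivial⟩)
      (fun q hq => J.vsup_of_sm isOpen_univ hJ (mem_univ q) (hN t p q hq) ?_) ?_ ⟨_, h0, rfl⟩ ?_ ?_
      fun q _ => ?_
    · change QQ M b _ q ≤ Φ (c q, t + Z.σ p q - Z.σ p q, M.vv _ q)
      rw [(hQ t p q hq).1, (hQ t p q hq).2, add_sub_cancel_right]
      exact h2 q
    · rintro _ ⟨v, hv, rfl⟩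
      refine ⟨hv.1.continuousOn.add hσ, fun q hq => ?_, fun q _ => add_le_add_left (hv.2.2 q).1 _,
        fun q _ => add_le_add_left (hv.2.2 q).2 _⟩
      obtain ⟨k, hk⟩ := Z.lc p q hq
      exact (hv.2.1 q).shift hk
    · rintro _ ⟨v, hv, rfl⟩ _ ⟨v', hv', rfl⟩
      refine ⟨fun y => max (v y) (v' y), ⟨hv.1.max hv'.1, fun q => ?_, fun q =>
        ⟨(hv.2.2 q).1.trans (le_max_left _ _), max_le (hv.2.2 q).2 (hv'.2.2 q).2⟩⟩,
        funext fun y => (max_add_add_right _ _ _).symm⟩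
      exact ((hv.2.1 q).max (hv'.2.1 q)).congr
        (Eventually.of_forall fun y => max_add_add_right _ _ _)
    · rintro _ ⟨v, hv, rfl⟩ v' hv' ⟨K, hK, hKc, H⟩
      have he : ∀ q, q ∉ Z.V p → v =ᶠ[𝓝 q] fun y => v' y - Z.σ p y := fun q hq => by
        filter_upwards [hKc.isOpen_compl.mem_nhds fun h => hq (hK h)] with y hy
        rw [H y hy, add_sub_cancel_right]
      refine ⟨fun y => v' y - Z.σ p y, ⟨continuous_iff_continuousAt.2 fun q => ?_, fun q => ?_,
        fun q => ?_⟩, funext fun y => sub_add_cancel _ _⟩ <;> by_cases hq : q ∈ Z.V p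
      · exact (hv'.cont.sub hσ).continuousAt ((Z.op p).mem_nhds hq)
      · exact hv.1.continuousAt.congr (he q hq)
      · obtain ⟨k, hk⟩ := Z.lc p q hq
        refine Sub.shift (σ2 := Z.σ p) (k := -k) (hk.mono fun y hy => by simp only [hy]; ring) ?_
        exact Sub.congr (hv'.sub q hq) (Eventually.of_forall fun y => (sub_add_cancel _ _).symm)
      · exact (hv.2.1 q).congr ((he q hq).mono fun y hy => by simp only [hy])
      · exact ⟨le_sub_iff_add_le.2 (hv'.lo q hq), sub_le_iff_le_add.2 (hv'.hi q hq)⟩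
      · simpa only [(he q hq).eq_of_nhds] using hv.2.2 q
    · refine ⟨?_, fun r hr => ?_⟩
      · rintro _ ⟨_, ⟨v, hv, rfl⟩, rfl⟩
        exact add_le_add_left ((hw q).1 ⟨v, hv, rfl⟩) _
      · refine le_sub_iff_add_le.1 ((hw q).2 ?_)
        rintro _ ⟨v, hv, rfl⟩
        exact le_sub_iff_add_le.2 (hr ⟨_, ⟨v, hv, rfl⟩, rfl⟩)
  refine ⟨w, (M.smOn_univ (A := M.atl) rfl).1 (J.Atl.smOn_of_local fun p _ => ⟨_, Z.op p, Z.mem p,
    fun q => (((key p).1 q).sub (Z.sm p q)).congr fun y _ => (add_sub_cancel_right _ _).symm⟩),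
    fun p => ⟨?_, (hw p).1 ⟨_, h0, rfl⟩, (hw p).2 (by rintro _ ⟨v, hv, rfl⟩; exact (hv.2.2 p).2)⟩⟩
  have := (key p).2 p (Z.mem p)
  change QQ M b _ p = Φ (c p, w p + Z.σ p p - Z.σ p p, M.vv _ p) at this
  rwa [add_sub_cancel_right] at this

/-- the twisted operator at `w = 0` is bounded -/
theorem Coc.bound [CompactSpace X] (hb : ∀ a, M.Sm (b a)) (Z : Coc M.atl) :
    ∃ K, ∀ p, |QQ M b (Z.σ p) p| ≤ K := by
  have h : Continuous fun p => QQ M b (Z.σ p) p := continuous_iff_continuousAt.2 fun p => by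
    have hF := Fm.fixed (A := M.atl) (Λ := Unit) M rfl (Z.op p)
    have h1 := JC.fixed (Λ := Unit) (Z.op p) (Z.sm p)
    have h2 := ((hF.pj.hb (Y := fun _ => b) (fun a => JC.of_sm rfl (Z.op p) (hb a)) h1
      (hF.vv h1)).smOn ()).continuousOn (Z.op p)
    refine (h2.continuousAt ((Z.op p).mem_nhds (Z.mem p))).congr ?_
    filter_upwards [(Z.op p).mem_nhds (Z.mem p)] with q hq
    obtain ⟨k, hk⟩ := Z.lc p q hq
    exact (QQ_shift hk).1
  obtain ⟨K, hK⟩ := isCompact_univ.exists_bound_of_continuousOn h.continuousOn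
  exact ⟨K, fun p => hK p trivial⟩

/-! ### circle valued functions -/

open Real

/-- `th` lifts the circle valued function `(co, si)` near `p` -/
def IsLift (co si th : X → ℝ) (p : X) : Prop :=
  ContinuousAt th p ∧ ∀ᶠ q in 𝓝 p, cos (2 * π * th q) = co q ∧ sin (2 * π * th q) = si q

variable {co si th th' : X → ℝ} {p : X}

/-- two lifts differ locally by an integer -/
theorem IsLift.shift (h : IsLift co si th p) (h' : IsLift co si th' p) :
    ∃ k : ℤ, th =ᶠ[𝓝 p] fun y => th' y + k := by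
  have h1 : ∀ᶠ q in 𝓝 p, ∃ k : ℤ, th q - th' q = k := by
    filter_upwards [h.2, h'.2] with q hq hq'
    have : cos (2 * π * th q - 2 * π * th' q) = 1 := by
      rw [cos_sub, hq'.1, hq'.2, ← hq.1, ← hq.2, ← sq, ← sq, cos_sq_add_sin_sq]
    obtain ⟨k, hk⟩ := (cos_eq_one_iff _).1 this
    exact ⟨k, mul_left_cancel₀ two_pi_pos.ne' (by linarith)⟩
  obtain ⟨k, hk⟩ := h1.self_of_nhds
  refine ⟨k, ?_⟩
  filter_upwards [h1, Metric.tendsto_nhds.1 (h.1.sub h'.1) 1 one_pos] with q ⟨m, hm⟩ hq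
  rw [Real.dist_eq, Pi.sub_apply, Pi.sub_apply, hm, hk, ← Int.cast_sub, ← Int.cast_abs, ← Int.cast_one, Int.cast_lt,
    Int.abs_lt_one_iff, sub_eq_zero] at hq
  rw [← hq]; linarith

/-- smooth local lifts exist -/
theorem exists_lift {A : J.Atl d X} (hc : A.SmOn univ co) (hs : A.SmOn univ si)
    (h : ∀ p, co p ^ 2 + si p ^ 2 = 1) (p : X) : ∃ V th, IsOpen V ∧ p ∈ V ∧ A.SmOn V th ∧
      ∀ q ∈ V, cos (2 * π * th q) = co q ∧ sin (2 * π * th q) = si q := by
  obtain ⟨α, h1, h2⟩ : ∃ α, cos α = co p ∧ sin α = si p := by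
    have hn : ‖(⟨co p, si p⟩ : ℂ)‖ = 1 := by
      rw [Complex.norm_eq_sqrt_sq_add_sq, h p, sqrt_one]
    refine ⟨Complex.arg ⟨co p, si p⟩, ?_, ?_⟩
    · rw [Complex.cos_arg (norm_ne_zero_iff.1 (by rw [hn]; exact one_ne_zero)), hn, div_one]
    · rw [Complex.sin_arg, hn, div_one]
  have hcc := continuousOn_univ.1 (hc.continuousOn isOpen_univ)
  have hsc := continuousOn_univ.1 (hs.continuousOn isOpen_univ)
  have e : ∀ q, (si q * co p - co q * si p) ^ 2 = 1 - (co q * co p + si q * si p) ^ 2 := fun q => by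
    have : (co q ^ 2 + si q ^ 2) * (co p ^ 2 + si p ^ 2) = 1 := by rw [h, h, one_mul]
    linarith
  have e2 : ∀ q, 0 < co q * co p + si q * si p → |si q * co p - co q * si p| < 1 := fun q hq => by
    rw [← sq_lt_one_iff_abs_lt_one, e]; nlinarith
  refine ⟨{q | 0 < co q * co p + si q * si p},
    fun q => (α + arcsin (si q * co p - co q * si p)) / (2 * π),
    isOpen_lt continuous_const (by fun_prop), by simp only [mem_ofPred_eq]; nlinarith [h p],
    fun r y hy => ?_, fun q hq => ?_⟩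
  · have h3 := abs_lt.1 (e2 _ hy.2)
    refine ContDiffWithinAt.div_const (contDiffWithinAt_const.add ?_) _
    exact ContDiffAt.comp_contDiffWithinAt (g := arcsin) y (contDiffAt_arcsin h3.1.ne' h3.2.ne)
      ((((hs r y ⟨hy.1, trivial⟩).mul contDiffWithinAt_const).sub
        ((hc r y ⟨hy.1, trivial⟩).mul contDiffWithinAt_const)).mono (A.tg_mono (subset_univ _) r))
  · have h3 := abs_lt.1 (e2 _ hq)
    rw [mul_div_cancel₀ _ two_pi_pos.ne', cos_add, sin_add, sin_arcsin h3.1.le h3.2.le, cos_arcsin,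
      e, sub_sub_cancel, sqrt_sq (le_of_lt hq), h1, h2]
    constructor
    · linear_combination co q * h p
    · linear_combination si q * h p

/-- the cocycle of `T θ` -/
theorem exists_coc {A : J.Atl d X} (hc : A.SmOn univ co) (hs : A.SmOn univ si)
    (h : ∀ p, co p ^ 2 + si p ^ 2 = 1) (T : ℝ) : ∃ Z : Coc A, ∀ p th, IsLift co si th p →
      ∃ k, (fun y => T * th y) =ᶠ[𝓝 p] fun y => Z.σ p y + k := by
  choose V θ h1 h2 h3 h4 using exists_lift hc hs h
  have hL : ∀ p, ∀ q ∈ V p, IsLift co si (θ p) q := fun p q hq =>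
    ⟨((h3 p).continuousOn (h1 p)).continuousAt ((h1 p).mem_nhds hq),
      mem_of_superset ((h1 p).mem_nhds hq) (h4 p)⟩
  have hk : ∀ p th, IsLift co si th p → ∃ k, (fun y => T * th y) =ᶠ[𝓝 p]
      fun y => T * θ p y + k := fun p th hth => by
    obtain ⟨k, hk⟩ := hth.shift (hL p p (h2 p))
    exact ⟨T * k, hk.mono fun y hy => by simp only [hy]; ring⟩
  exact ⟨⟨V, fun p y => T * θ p y, h1, h2, fun p q => contDiffOn_const.mul (h3 p q),
    fun p q hq => hk q _ (hL p q hq)⟩, hk⟩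

/-- **TW** for a circle valued `θ = (co, si)` on a compact manifold: `u = w + T θ` -/
theorem exists_tw_circ [T2Space X] [CompactSpace X] [FiniteDimensional ℝ P] (hb : ∀ a, M.Sm (b a))
    (hΦ : J.Good Φ univ C) (hc : M.Sm c) (hC : ∀ p, c p ∈ C) (hco : M.Sm co) (hsi : M.Sm si)
    (h : ∀ p, co p ^ 2 + si p ^ 2 = 1) (T : ℝ)
    (hK : ∀ K, ∃ s t, s ≤ t ∧ ∀ p, ∀ v ∈ Icc (0 : ℝ) 1, Φ (c p, s, v) ≤ -K ∧ K ≤ Φ (c p, t, v)) :
    ∃ w, M.Sm w ∧ ∀ p th, IsLift co si th p → QQ M b (fun y => w y + T * th y) p =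
      Φ (c p, w p, M.vv (fun y => w y + T * th y) p) := by
  obtain ⟨Z, hZ⟩ := exists_coc ((M.smOn_univ (A := M.atl) rfl).2 hco)
    ((M.smOn_univ (A := M.atl) rfl).2 hsi) h T
  obtain ⟨K, H⟩ := Z.bound hb
  obtain ⟨s, t, hst, H'⟩ := hK K
  obtain ⟨w, hw, h1⟩ := exists_tw hb hΦ hc hC Z hst
    (fun p => (H' p _ (vv_mem M _ p)).1.trans (abs_le.1 (H p)).1)
    fun p => (abs_le.1 (H p)).2.trans (H' p _ (vv_mem M _ p)).2
  refine ⟨w, hw, fun p th hth => ?_⟩
  obtain ⟨k, hk⟩ := hZ p th hth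
  obtain ⟨e1, e2⟩ := QQ_shift (M := M) (b := b) (u := fun y => w y + T * th y)
    (w := fun y => w y + Z.σ p y) (k := k) (hk.mono fun y hy => by simp only [hy]; ring)
  rw [e1, e2, (h1 p).1]

/-- **TW**, linear right hand side: `Q (w + T θ) = τ w` -/
theorem exists_tw_lin [T2Space X] [CompactSpace X] (hb : ∀ a, M.Sm (b a)) (hco : M.Sm co)
    (hsi : M.Sm si) (h : ∀ p, co p ^ 2 + si p ^ 2 = 1) (T : ℝ) {τ : ℝ} (hτ : 0 < τ) :
    ∃ w, M.Sm w ∧ ∀ p th, IsLift co si th p → QQ M b (fun y => w y + T * th y) p = τ * w p := by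
  refine exists_tw_circ (Φ := fun z : ℝ × ℝ × ℝ => τ * z.2.1) (C := univ) (c := fun _ => 0) hb
    ⟨isOpen_univ, ordConnected_univ, by fun_prop, fun _ _ t _ _ _ => by simpa using hτ⟩
    (Imm.sm_const 0) (fun _ => trivial) hco hsi h T fun K => ⟨-(|K| / τ), |K| / τ, ?_, fun _ _ _ => ?_⟩
  · have : 0 ≤ |K| / τ := by positivity
    linarith
  · simp only [mul_neg, mul_div_cancel₀ _ hτ.ne', neg_le_neg_iff, and_self]
    exact le_abs_self K

end Crest.Agent.N228.J

end
end

-- ▼ part N228/J/Circ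
section

/-!
# Row 228, solver layer (helper41): CIRC, one graph step along a circle valued function
-/

set_option autoImplicit false
set_option linter.unusedSectionVars false
open Set Filter Topology Function Real
open scoped ContDiff InnerProductSpace RealInnerProductSpace
open Crest.Agent.N222 Crest.Agent.N222.Imm

noncomputable section

namespace Crest.Agent.N228.J

variable {d : ℕ} {ι : Type} [Fintype ι] [DecidableEq ι] {X : Type} [TopologicalSpace X]
  {M : Imm d ι X} {co si u th : X → ℝ} {p : X} {R : ℝ}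

/-- the graph of a map to the circle of radius `R` -/
def curl (M : Imm d ι X) (R : ℝ) (hc : M.Sm co) (hs : M.Sm si) : Imm d (Option (Option ι)) X :=
  (M.graph (fun p => R * si p) ((sm_const R).mul hs)).graph (fun p => R * co p)
    ((sm_const R).mul hc)

theorem sm_cos (hu : M.Sm u) (κ : ℝ) : M.Sm fun p => cos (κ * u p) :=
  ((sm_const κ).mul hu).comp contDiff_cos

theorem sm_sin (hu : M.Sm u) (κ : ℝ) : M.Sm fun p => sin (κ * u p) :=
  ((sm_const κ).mul hu).comp contDiff_sin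

theorem curl_rel (hu : M.Sm u) (hR : R ≠ 0) :
    Cf.CfRel (M.graph u hu) (curl M R (sm_cos hu R⁻¹) (sm_sin hu R⁻¹)) fun _ => 0 := by
  refine ⟨rfl, sm_const 0, fun p z hz => ?_⟩
  have he := M.isChart p
  have hs := (sm_const R).mul (sm_sin hu R⁻¹)
  have h1 := (((hu p).contDiffAt ((M.ch p).open_target.mem_nhds hz)).differentiableAt
    (by simp)).hasFDerivAt
  have h2 := ((h1.const_mul R⁻¹).cos.const_mul R).fderiv
  have h3 := ((h1.const_mul R⁻¹).sin.const_mul R).fderiv
  have h4 : ∀ w, fderiv ℝ ((curl M R (sm_cos hu R⁻¹) (sm_sin hu R⁻¹)).x ∘ (M.ch p).symm) z w =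
      up (-sin (R⁻¹ * u ((M.ch p).symm z)) * fderiv ℝ (u ∘ (M.ch p).symm) z w)
        (up (cos (R⁻¹ * u ((M.ch p).symm z)) * fderiv ℝ (u ∘ (M.ch p).symm) z w)
          (fderiv ℝ (M.x ∘ (M.ch p).symm) z w)) := fun w => by
    refine (Cf.fderiv_graph _ ((M.graph _ hs).isChart p) hz w).trans ?_
    rw [show (M.graph _ hs).ch p = M.ch p from rfl, Cf.fderiv_graph hs he hz]
    congr 1
    · refine (congrArg (fun T : E (Fin d) →L[ℝ] ℝ => T w) h2).trans ?_
      simp only [smul_apply, smul_eq_mul, comp_apply]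
      field_simp
    · congr 1
      refine (congrArg (fun T : E (Fin d) →L[ℝ] ℝ => T w) h3).trans ?_
      simp only [smul_apply, smul_eq_mul, comp_apply]
      field_simp
  ext i j
  change ⟪fderiv ℝ ((curl M R (sm_cos hu R⁻¹) (sm_sin hu R⁻¹)).x ∘ (M.ch p).symm) z (ee i),
    fderiv ℝ ((curl M R (sm_cos hu R⁻¹) (sm_sin hu R⁻¹)).x ∘ (M.ch p).symm) z (ee j)⟫ =
    exp (2 * 0) * ⟪fderiv ℝ ((M.graph u hu).x ∘ (M.ch p).symm) z (ee i),
      fderiv ℝ ((M.graph u hu).x ∘ (M.ch p).symm) z (ee j)⟫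
  rw [h4, h4, Cf.fderiv_graph hu he hz, Cf.fderiv_graph hu he hz, inner_up, inner_up, inner_up,
    mul_zero, exp_zero, one_mul]
  linear_combination (fderiv ℝ (u ∘ (M.ch p).symm) z (ee i) * fderiv ℝ (u ∘ (M.ch p).symm) z (ee j))
    * sin_sq_add_cos_sq (R⁻¹ * u ((M.ch p).symm z))

section Loc

variable (hc : M.Sm co) (hs : M.Sm si) (hu : M.Sm u) (hR : R ≠ 0)
  (h : ∀ᶠ q in 𝓝 p, cos (R⁻¹ * u q) = co q ∧ sin (R⁻¹ * u q) = si q)

include h

theorem curl_loc : Loc (curl M R hc hs) (curl M R (sm_cos hu R⁻¹) (sm_sin hu R⁻¹)) id p :=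
  h.mono fun q hq => ⟨continuousAt_id, by
    change up (R * co q) (up (R * si q) (M.x q)) = up (R * cos _) (up (R * sin _) (M.x q))
    rw [id, hq.1, hq.2]⟩

include hu hR

theorem curl_gam (f g : X → ℝ) : (curl M R hc hs).pre.gam f g p = (M.gS u).gam f g p := by
  let _ : MeasurableSpace X := ⊥
  refine ((curl_loc hc hs hu h).gam_iso f g).trans ?_
  rw [(curl_rel hu hR).gam_eq, graph_pre, mul_zero, neg_zero, exp_zero, one_mul, id]

theorem curl_EF {F : X → ℝ} (hF : M.Sm F) : (curl M R hc hs).pre.EF F p = (M.gS u).EF F p := by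
  let _ : MeasurableSpace X := ⊥
  have h0 : ∀ f : X → ℝ, (M.graph u hu).pre.gam (fun _ => 0) f p = 0 := fun f => by
    simp [gam_apply, D_const]
  have h1 : (M.graph u hu).pre.lap (fun _ => 0) p = 0 := by
    have : ∀ a, (M.graph u hu).pre.D a (fun _ => 0) = fun _ => 0 := fun a =>
      funext fun q => D_const _ _ _
    simp [lap_apply, this, D_const]
  have h2 : (curl M R hc hs).pre.lap F p = _ := (curl_loc hc hs hu h).lap_iso F
  rw [← graph_pre hu, EF_apply, EF_apply, curl_gam hc hs hu hR h, graph_pre hu,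
    (curl_loc hc hs hu h).scal_iso, (curl_rel hu hR).scal_eq, h2, (curl_rel hu hR).lap_eq hF, id,
    h0, h0, h1, graph_pre hu]
  simp

omit hR in
theorem gam_circ : M.pre.gam co co p + M.pre.gam si si p = R⁻¹ ^ 2 * M.pre.gam u u p := by
  have e1 : co =ᶠ[𝓝 p] fun q => cos (R⁻¹ * u q) := h.mono fun _ hq => hq.1.symm
  have e2 : si =ᶠ[𝓝 p] fun q => sin (R⁻¹ * u q) := h.mono fun _ hq => hq.2.symm
  have h1 := ((sm_const R⁻¹).mul hu).diffAt p
  simp only [gam_apply, D_congr e1, D_congr e2, D_comp h1 (hasDerivAt_cos _),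
    D_comp h1 (hasDerivAt_sin _), D_const_mul _ (hu.diffAt p), Finset.mul_sum,
    ← Finset.sum_add_distrib]
  exact Finset.sum_congr rfl fun a _ => by
    linear_combination (R⁻¹ ^ 2 * (M.pre.D a u p * M.pre.D a u p)) * sin_sq_add_cos_sq (R⁻¹ * u p)

end Loc

/-- lifts that are restrictions of global smooth functions -/
theorem exists_lift_sm [T2Space X] [SecondCountableTopology X] (hc : M.Sm co) (hs : M.Sm si)
    (h : ∀ p, co p ^ 2 + si p ^ 2 = 1) (p : X) : ∃ th, M.Sm th ∧ IsLift co si th p := by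
  obtain ⟨V, th, hV, hp, h1, h2⟩ := exists_lift ((M.smOn_univ (A := M.atl) rfl).2 hc)
    ((M.smOn_univ (A := M.atl) rfl).2 hs) h p
  obtain ⟨g, hg, e⟩ := SmOn.exists_sm_at (M := M) (f := th) (fun q hq => (h1 q).contDiffAt
    ((M.atl.isOpen_tg hV q).mem_nhds (M.atl.mem_tg_self hq))) hV hp
  refine ⟨g, hg, hg.continuous.continuousAt, ?_⟩
  filter_upwards [e, hV.mem_nhds hp] with q e1 e2
  rw [e1]; exact h2 q e2

theorem IsLift.eventually (h : IsLift co si th p) (hc : ∀ᶠ q in 𝓝 p, ContinuousAt th q) :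
    ∀ᶠ q in 𝓝 p, IsLift co si th q := hc.and h.2.eventually_nhds

/-- rotation of a circle valued function by the angle `2 π ψ` -/
def rotC (co si ψ : X → ℝ) (p : X) : ℝ := co p * cos (2 * π * ψ p) - si p * sin (2 * π * ψ p)

/-- rotation of a circle valued function by the angle `2 π ψ` -/
def rotS (co si ψ : X → ℝ) (p : X) : ℝ := si p * cos (2 * π * ψ p) + co p * sin (2 * π * ψ p)

theorem IsLift.rot {ψ : X → ℝ} (h : IsLift co si th p) (hψ : ContinuousAt ψ p) :
    IsLift (rotC co si ψ) (rotS co si ψ) (fun q => th q + ψ q) p :=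
  ⟨h.1.add hψ, h.2.mono fun q hq => by
    rw [mul_add, cos_add, sin_add, hq.1, hq.2]; exact ⟨rfl, rfl⟩⟩

theorem sm_rotC {ψ : X → ℝ} (hc : M.Sm co) (hs : M.Sm si) (hψ : M.Sm ψ) : M.Sm (rotC co si ψ) :=
  (hc.mul (sm_cos hψ _)).sub (hs.mul (sm_sin hψ _))

theorem sm_rotS {ψ : X → ℝ} (hc : M.Sm co) (hs : M.Sm si) (hψ : M.Sm ψ) : M.Sm (rotS co si ψ) :=
  (hs.mul (sm_cos hψ _)).add (hc.mul (sm_sin hψ _))


theorem dir_sq_le (M : Imm d ι X) (hu : M.Sm u) (f : X → ℝ) (p : X) :
    M.pre.dir (M.Xf u) f p ^ 2 ≤ M.pre.gam f f p := by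
  let _ : MeasurableSpace X := ⊥
  have := gam_self_nonneg (M := M.graph u hu) f p
  rw [graph_pre, gS_gam] at this
  linarith

/-- **CIRC** -/
theorem circ [T2Space X] [SecondCountableTopology X] [CompactSpace X] {F : X → ℝ} (hF : M.Sm F)
    (hc : M.Sm co) (hs : M.Sm si) (h : ∀ p, co p ^ 2 + si p ^ 2 = 1) {ε : ℝ} (hε : 0 < ε) :
    ∃ (M' : Imm d (Option (Option ι)) X) (F' ψ : X → ℝ), M'.ch = M.ch ∧ M.Sm F' ∧ M.Sm ψ ∧
      (∀ p a, M'.x p (some (some a)) = M.x p a) ∧
      (∀ f p, M'.pre.gam f f p ≤ M.pre.gam f f p) ∧ (∀ p, M.pre.EF F p - ε ≤ M'.pre.EF F' p) ∧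
      ∀ p th, IsLift co si th p →
        M'.pre.gam (fun q => th q + ψ q) (fun q => th q + ψ q) p ≤ ε := by
  let _ : MeasurableSpace X := ⊥
  obtain ⟨K, hK⟩ := isCompact_univ.exists_bound_of_continuousOn
    ((hc.gam hc).add (hs.gam hs)).continuous.continuousOn
  set T := 1 + 1 / ε with hT
  have hT1 : 1 ≤ T := by rw [hT]; linarith [one_div_pos.2 hε]
  have hT0 : 0 < T := by linarith
  set τ := ε / (T * (|K| + 1)) with hτ
  have hτ0 : 0 < τ := by positivity
  obtain ⟨w, hw, he⟩ := exists_tw_lin (fun a => hF.D a) hc hs h T hτ0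
  have hψ : M.Sm fun q => T⁻¹ * w q := (sm_const _).mul hw
  have hc' := sm_rotC hc hs hψ
  have hs' := sm_rotS hc hs hψ
  set R := T / (2 * π) with hR
  have hR0 : R ≠ 0 := by positivity
  choose θ hθ hL using exists_lift_sm hc hs h
  have hL' := fun p => (hL p).eventually (Eventually.of_forall fun q =>
    (hθ p).continuous.continuousAt)
  have hu : ∀ p, M.Sm fun q => w q + T * θ p q := fun p => hw.add ((sm_const T).mul (hθ p))
  have hl : ∀ p, ∀ᶠ q in 𝓝 p, cos (R⁻¹ * (w q + T * θ p q)) = rotC co si (fun q => T⁻¹ * w q) q ∧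
      sin (R⁻¹ * (w q + T * θ p q)) = rotS co si (fun q => T⁻¹ * w q) q := fun p =>
    ((hL p).rot hψ.continuous.continuousAt).2.mono fun q hq => by
      rwa [show R⁻¹ * (w q + T * θ p q) = 2 * π * (θ p q + T⁻¹ * w q) by rw [hR]; field_simp; ring]
  have hg := (sm_const 1).add ((sm_const (R ^ 2)).mul ((hc'.gam hc').add (hs'.gam hs')))
  have hg0 := fun q => add_pos_of_pos_of_nonneg one_pos (mul_nonneg (sq_nonneg R) (add_nonneg
    (gam_self_nonneg (M := M) (rotC co si fun q => T⁻¹ * w q) q)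
    (gam_self_nonneg (M := M) (rotS co si fun q => T⁻¹ * w q) q)))
  have hW := fun q => (sqrt_pos.2 (hg0 q)).ne'
  have hF' := hF.add (((hg.sqrt fun q => (hg0 q).ne').inv hW).log fun q => inv_ne_zero (hW q))
  refine ⟨curl M R hc' hs', _, _, rfl, hF', hψ, fun _ _ => rfl, fun f p => ?_, fun p => ?_,
    fun p th hth => ?_⟩
  · rw [curl_gam hc' hs' (hu p) hR0 (hl p)]
    exact gS_gam_le _ _ _ _
  · set u := fun q => w q + T * θ p q with hud
    have hu' : M.Sm u := hu p
    have e1 : (fun q => F q + log (√(1 + R ^ 2 * (M.pre.gam (rotC co si fun q => T⁻¹ * w q)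
        (rotC co si fun q => T⁻¹ * w q) q + M.pre.gam (rotS co si fun q => T⁻¹ * w q)
        (rotS co si fun q => T⁻¹ * w q) q)))⁻¹) =ᶠ[𝓝 p] fun q => F q + log (M.vv u q) := by
      filter_upwards [(hl p).eventually_nhds] with q hq
      rw [gam_circ (hu p) hq, ← mul_assoc, ← mul_pow, mul_inv_cancel₀ hR0, one_pow, one_mul]
      rfl
    have e2 : M.hF F u =ᶠ[𝓝 p] fun q => τ * u q - τ * T * θ p q := by
      filter_upwards [hL' p] with q hq
      rw [← QQ_grad, he q _ hq, hud]; ring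
    have e3 : M.pre.dir (M.Xf u) (M.hF F u) p =
        τ * (M.vv u p * M.pre.gam u u p) - τ * T * M.pre.dir (M.Xf u) (θ p) p := by
      rw [← dir_Xf]
      simp only [dir_apply, D_congr e2, D_sub (((sm_const τ).mul hu').diffAt p)
        (((sm_const (τ * T)).mul (hθ p)).diffAt p), D_const_mul _ (hu'.diffAt p),
        D_const_mul _ ((hθ p).diffAt p), Finset.mul_sum, ← Finset.sum_sub_distrib]
      exact Finset.sum_congr rfl fun a _ => by ring
    have e4 := gam_circ (R := (2 * π)⁻¹) (hθ p) (by simpa only [inv_inv] using (hL p).2)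
    have e5 := dir_sq_le M hu' (θ p) p
    have e6 : M.pre.gam (θ p) (θ p) p * 4 ≤ |K| := by
      have h1 := (le_abs_self _).trans ((hK p trivial).trans (le_abs_self K))
      rw [e4, inv_inv] at h1
      refine le_trans ?_ h1
      rw [mul_comm]
      exact mul_le_mul_of_nonneg_right (by nlinarith [pi_gt_three]) (gam_self_nonneg _ _)
    have e7 : 2 * M.pre.dir (M.Xf u) (θ p) p ≤ |K| + 1 := by
      nlinarith [sq_nonneg (2 * M.pre.dir (M.Xf u) (θ p) p - 1)]
    have e8 : τ * T * (|K| + 1) = ε := by rw [hτ]; field_simp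
    have e9 := mul_le_mul_of_nonneg_left e7 (mul_pos hτ0 hT0).le
    have e10 := mul_nonneg hτ0.le (mul_nonneg (M.vv_pos u p).le (gam_self_nonneg (M := M) u p))
    have e11 := div_nonneg (gam_self_nonneg (M := M.graph u (hu p)) (M.vv u) p)
      (sq_nonneg (M.vv u p))
    rw [curl_EF hc' hs' hu' hR0 (hl p) hF', ← graph_pre hu', EF_apply (M := M.graph u hu'),
      lap_congr e1, gam_congr e1 e1, ← EF_apply, graph_pre, Nk.EF_graph hF hu', Nk.gain, e3]
    rw [graph_pre] at e11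
    linarith [sq_nonneg (M.hF F u p), M.a2_nonneg u p]
  · obtain ⟨k, hk⟩ := hth.shift (hL p)
    have e1 : (fun q => th q + T⁻¹ * w q) =ᶠ[𝓝 p] fun q => T⁻¹ * (w q + T * θ p q) + k :=
      hk.mono fun q hq => by simp only [hq]; field_simp; ring
    have h1 : (M.graph _ (hu p)).Sm fun q => w q + T * θ p q := hu p
    have e2 := gS_gam_u M (fun q => w q + T * θ p q) p
    rw [gam_congr e1 e1, curl_gam hc' hs' (hu p) hR0 (hl p), ← graph_pre (hu p)]
    rw [← graph_pre (hu p), gam_apply] at e2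
    simp only [gam_apply, D_add_const, D_const_mul _ (h1.diffAt p), mul_mul_mul_comm T⁻¹,
      ← Finset.mul_sum, e2]
    have e3 : T⁻¹ ≤ ε := inv_le_of_inv_le₀ hε (by rw [hT, one_div]; linarith)
    have e4 : T⁻¹ ≤ 1 := inv_le_one_of_one_le₀ hT1
    have e5 := inv_pos.2 hT0
    nlinarith [sq_nonneg (M.vv (fun q => w q + T * θ p q) p), mul_pos e5 e5]

end Crest.Agent.N228.J

end
end

-- ▼ part N228/N3/Circ
section

/-!
# Row 228, dimension three: CIRC (helper41)
-/

set_option autoImplicit false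
open Set Filter Topology Function Real
open scoped ContDiff

noncomputable section

namespace Crest.Agent.N228.N3
open Crest.Agent.N222

theorem circ : CircStmt := by
  intro d ι _ _ X _ _ _ _ _ _ M F hi hF z ε hz hε
  have hc : M.Sm fun p => (z p : ℂ).re := hz.comp Complex.reCLM.contDiff
  have hs : M.Sm fun p => (z p : ℂ).im := hz.comp Complex.imCLM.contDiff
  have h1 : ∀ p, (z p : ℂ).re ^ 2 + (z p : ℂ).im ^ 2 = 1 := fun p => by
    rw [← Circle.normSq_coe (z p), Complex.normSq_apply]; ring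
  obtain ⟨N, F', ψ, e1, hF', hψ, e2, e3, e4, e5⟩ := J.circ hF hc hs h1 (ε := ε / 64) (by positivity)
  have hL : Later M F N F' ε := ⟨e1, fun p q h => hi (by ext a; rw [← e2, ← e2, h]), hF',
    fun f _ p => e3 f p, fun p => by linarith [e4 p]⟩
  refine ⟨_, inferInstance, inferInstance, N, F', hL, fun q => z q * Circle.exp (2 * π * ψ q), ?_,
    fun O ⟨g, g1, g2⟩ => ⟨fun q => g q - 2 * π * ψ q, g1.sub (by
      have := hψ.continuous; fun_prop), fun q hq => ?_⟩, fun p => ?_⟩
  · have h2 : M.Sm fun q => Complex.exp (((2 * π * ψ q : ℝ) : ℂ) * Complex.I) :=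
      ((Imm.sm_const (2 * π)).mul hψ).comp (g := fun t : ℝ => Complex.exp ((t : ℂ) * Complex.I))
        (Complex.ofRealCLM.contDiff.mul contDiff_const).cexp
    intro p
    simpa only [comp_def, Circle.coe_mul, Circle.coe_exp] using (hz p).mul (h2 p)
  · rw [Circle.exp_sub, ← g2 q hq, mul_div_cancel_right]
  · obtain ⟨th, t1, t2⟩ := J.exists_lift_sm hc hs h1 p
    have h2 := J.gam_circ (M := N) (R := (2 * π)⁻¹) (hL.sm_iff.2 (t1.add hψ))
      (by simpa only [inv_inv] using (t2.rot hψ.continuous.continuousAt).2)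
    have h3 : (fun q => ((z q * Circle.exp (2 * π * ψ q) : Circle) : ℂ).im) =
        J.rotS (fun p => (z p : ℂ).re) (fun p => (z p : ℂ).im) ψ := funext fun q => by
      rw [Circle.coe_mul, Circle.coe_exp, Complex.mul_im, Complex.exp_ofReal_mul_I_im,
        Complex.exp_ofReal_mul_I_re, J.rotS, add_comm]
    have h4 := mul_le_mul (show (2 * π) ^ 2 ≤ 64 by nlinarith [pi_le_four, pi_pos]) (e5 p th t2)
      (Imm.gam_self_nonneg _ _) (by norm_num)
    rw [inv_inv] at h2
    rw [h3]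
    linarith [Imm.gam_self_nonneg (M := N)
      (J.rotC (fun p => (z p : ℂ).re) (fun p => (z p : ℂ).im) ψ) p]

end Crest.Agent.N228.N3

end
end

-- ▼ part N228/N3/Cover
section

/-!
# Row 228, dimension three: the cover from small components (`CoverStmt` from `SepStmt`)
-/

set_option autoImplicit false
open Set Filter Topology Metric

namespace Crest.Agent.N228.N3

namespace Cv

variable {X : Type} [MetricSpace X]

/-- a small relatively clopen part of `Z` -/
def Good (Z : Set X) (D : ℝ) (B : Set X) : Prop :=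
  B ⊆ Z ∧ IsClosed B ∧ IsClosed (Z \ B) ∧ ∀ p ∈ B, ∀ q ∈ B, dist p q ≤ D

lemma step1 [ProperSpace X] (hS : SepStmt) {Z : Set X} {C : ℝ} (hZ : IsClosed Z)
    (h : ∀ c ⊆ Z, IsPreconnected c → ∀ p ∈ c, ∀ q ∈ c, dist p q ≤ C) {z : X} (hz : z ∈ Z) :
    ∃ B, Good Z (C + 1 / 2) B ∧ z ∈ B := by
  have hA := h _ (connectedComponentIn_subset Z z) isPreconnected_connectedComponentIn
  have hzA := mem_connectedComponentIn hz
  have hc : IsClosed (connectedComponentIn Z z) := closure_subset_iff_isClosed.1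
    (isPreconnected_connectedComponentIn.closure.subset_connectedComponentIn (subset_closure hzA)
      (hZ.closure_subset_iff.2 (connectedComponentIn_subset Z z)))
  obtain ⟨Z1, Z2, c1, c2, hd, hu, s1, s2⟩ := hS X (Z ∩ closedBall z (C + 1))
    (connectedComponentIn Z z)
    ((Z ∩ closedBall z (C + 1)) \ thickening (1 / 4) (connectedComponentIn Z z))
    ((isCompact_closedBall _ _).inter_left hZ) hc
    ((hZ.inter isClosed_closedBall).sdiff isOpen_thickening)
    (fun p hp => ⟨connectedComponentIn_subset Z z hp, (hA p hp z hzA).trans (by linarith)⟩)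
    sdiff_subset fun c hcZ hcp ⟨p, hp⟩ ⟨q, hq⟩ => hq.2.2 (self_subset_thickening (by norm_num) _ (by
      rw [connectedComponentIn_eq hp.2]
      exact hcp.subset_connectedComponentIn hp.1 (hcZ.trans inter_subset_left) hq.1))
  have h1 : ∀ p ∈ Z1, ∃ a ∈ connectedComponentIn Z z, dist p a < 1 / 4 := fun p hp =>
    mem_thickening_iff.1 (by_contra fun hn =>
      disjoint_left.1 hd hp (s2 ⟨hu ▸ subset_union_left hp, hn⟩))
  refine ⟨Z1, ⟨fun p hp => (hu ▸ subset_union_left hp : p ∈ Z ∩ _).1, c1.isClosed, ?_,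
    fun p hp q hq => ?_⟩, s1 hzA⟩
  · have : Z \ Z1 = Z2 ∪ Z ∩ (ball z (C + 1))ᶜ := by
      refine Subset.antisymm (fun p hp => ?_) ?_
      · by_cases hb : p ∈ ball z (C + 1)
        · exact Or.inl ((hu.ge ⟨hp.1, ball_subset_closedBall hb⟩).resolve_left hp.2)
        · exact Or.inr ⟨hp.1, hb⟩
      · rintro p (hp | hp)
        · exact ⟨(hu ▸ subset_union_right hp : p ∈ Z ∩ _).1, disjoint_right.1 hd hp⟩
        · refine ⟨hp.1, fun h' => hp.2 ?_⟩
          obtain ⟨a, ha, hpa⟩ := h1 p h'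
          rw [mem_ball]
          linarith [hA a ha z hzA, dist_triangle p a z]
    rw [this]
    exact c2.isClosed.union (hZ.inter isOpen_ball.isClosed_compl)
  · obtain ⟨a, ha, hpa⟩ := h1 p hp
    obtain ⟨b, hb, hqb⟩ := h1 q hq
    linarith [hA a ha b hb, dist_triangle4 p a b q, dist_comm q b]

lemma step2 [ProperSpace X] {Z : Set X} {D : ℝ} (hZ : IsClosed Z)
    (h : ∀ z ∈ Z, ∃ B, Good Z D B ∧ z ∈ B) :
    ∃ W : ℕ → Set X, (∀ n, Good Z D (W n)) ∧ (∀ z ∈ Z, ∃ n, z ∈ W n) ∧
      (∀ n m, n ≠ m → Disjoint (W n) (W m)) ∧ LocallyFinite W := by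
  choose! f hf hz using h
  obtain ⟨t, ht, hc, hu⟩ := TopologicalSpace.countable_cover_nhdsWithin (f := f) (s := Z)
    fun z h => mem_nhdsWithin.2 ⟨(Z \ f z)ᶜ, (hf z h).2.2.1.isOpen_compl, fun h' => h'.2 (hz z h),
      fun p hp => by_contra fun hn => hp.1 ⟨hp.2, hn⟩⟩
  obtain ⟨B, hB⟩ := ((hc.image f).insert ∅).exists_eq_range (insert_nonempty _ _)
  have hG : ∀ n, Good Z D (B n) := fun n => by
    rcases hB.ge (mem_range_self n) with e | ⟨z, hz, e⟩
    · rw [e]
      exact ⟨empty_subset _, isClosed_empty, by simpa using hZ, by simp⟩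
    · exact e ▸ hf z (ht hz)
  have hcov : ∀ z ∈ Z, ∃ n, z ∈ B n := fun z hz => by
    obtain ⟨y, hy, hzy⟩ := mem_iUnion₂.1 (hu hz)
    obtain ⟨n, hn⟩ := hB.le (Or.inr ⟨y, hy, rfl⟩)
    exact ⟨n, hn ▸ hzy⟩
  have hU : ∀ n, IsClosed (⋃ m ∈ Iio n, B m) := fun n =>
    (finite_lt_nat n).isClosed_biUnion fun m _ => (hG m).2.1
  refine ⟨fun n => B n \ ⋃ m ∈ Iio n, B m, fun n => ⟨sdiff_subset.trans (hG n).1, ?_, ?_,
    fun p hp q hq => (hG n).2.2.2 p hp.1 q hq.1⟩, fun z hz => ?_, fun n m hnm => ?_, fun x => ?_⟩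
  · have : B n \ ⋃ m ∈ Iio n, B m = B n ∩ ⋂ m ∈ Iio n, Z \ B m := by
      ext p
      simp only [Set.mem_sdiff, mem_iUnion, mem_inter_iff, mem_iInter, not_exists]
      exact and_congr_right fun hp => ⟨fun h m hm => ⟨(hG n).1 hp, h m hm⟩, fun h m hm => (h m hm).2⟩
    beta_reduce
    rw [this]
    exact (hG n).2.1.inter (isClosed_biInter fun m _ => (hG m).2.2.1)
  · rw [Set.sdiff_sdiff_right, inter_eq_right.2 (iUnion₂_subset fun m _ => (hG m).1)]
    exact (hG n).2.2.1.union (hU n)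
  · classical
    exact ⟨Nat.find (hcov z hz), Nat.find_spec (hcov z hz), fun h' =>
      let ⟨m, hm, h''⟩ := mem_iUnion₂.1 h'
      Nat.find_min (hcov z hz) hm h''⟩
  · refine disjoint_left.2 fun p hp hq => ?_
    rcases lt_or_gt_of_ne hnm with l | l
    · exact hq.2 (mem_biUnion l hp.1)
    · exact hp.2 (mem_biUnion l hq.1)
  · by_cases hx : x ∈ Z
    · obtain ⟨n, hn⟩ := hcov x hx
      refine ⟨(Z \ B n)ᶜ, (hG n).2.2.1.isOpen_compl.mem_nhds fun h' => h'.2 hn,
        (finite_le_nat n).subset fun m ⟨p, hp, hp'⟩ =>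
          (not_lt.1 fun l : n < m => hp.2 (mem_biUnion l ?_) : m ≤ n)⟩
      exact by_contra fun h' => hp' ⟨(hG m).1 hp.1, h'⟩
    · exact ⟨Zᶜ, hZ.isOpen_compl.mem_nhds hx, finite_empty.subset fun m ⟨p, hp, hp'⟩ =>
        hp' ((hG m).1 hp.1)⟩

lemma step3 [ProperSpace X] {Z : Set X} {D : ℝ} {W : ℕ → Set X} (hG : ∀ n, Good Z D (W n))
    (hc : ∀ z ∈ Z, ∃ n, z ∈ W n) (hd : ∀ n m, n ≠ m → Disjoint (W n) (W m))
    (hl : LocallyFinite W) :
    ∃ (A : ℕ → Set X) (U : Set X), (∀ n, IsClosed (A n)) ∧ LocallyFinite A ∧ IsOpen U ∧ Z ⊆ U ∧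
      (∀ p ∈ U, ∃ n, p ∈ A n) ∧ (∀ n m p, p ∈ A n → p ∈ A m → n = m) ∧
      ∀ n, ∀ p ∈ A n, ∀ q ∈ A n, dist p q ≤ D + 1 / 2 := by
  have c1 : ∀ n, Continuous fun x => infEDist x (W n) + infEDist x (W n) := fun n =>
    continuous_infEDist.add continuous_infEDist
  have h1 : ∀ n p, p ∈ cthickening (1 / 8) (W n) → ∃ a ∈ W n, dist p a < 1 / 4 := fun n p hp =>
    mem_thickening_iff.1 (cthickening_subset_thickening' (by norm_num) (by norm_num) _ hp)
  refine ⟨fun n => cthickening (1 / 8) (W n) ∩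
      {x | infEDist x (W n) + infEDist x (W n) ≤ infEDist x (Z \ W n)},
    ⋃ n, thickening (1 / 8) (W n) ∩ {x | infEDist x (W n) + infEDist x (W n) < infEDist x (Z \ W n)},
    fun n => isClosed_cthickening.inter (isClosed_le (c1 n) continuous_infEDist), fun x => ?_,
    isOpen_iUnion fun n => isOpen_thickening.inter (isOpen_lt (c1 n) continuous_infEDist),
    fun z hz => ?_, fun p hp => ?_, fun n m p hn hm => by_contra fun hnm => ?_,
    fun n p hp q hq => ?_⟩
  · refine ⟨ball x 1, ball_mem_nhds _ one_pos,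
      (hl.finite_nonempty_inter_compact (isCompact_closedBall x 2)).subset
        fun n ⟨p, hp, hp'⟩ => ?_⟩
    obtain ⟨a, ha, hpa⟩ := h1 n p hp.1
    refine ⟨a, ha, ?_⟩
    rw [mem_ball] at hp'
    rw [mem_closedBall]
    linarith [dist_triangle_left a x p]
  · obtain ⟨n, hn⟩ := hc z hz
    refine mem_iUnion.2 ⟨n, self_subset_thickening (by norm_num) _ hn, ?_⟩
    rw [mem_ofPred_eq, infEDist_zero_of_mem hn, add_zero, infEDist_pos_iff_notMem_closure,
      (hG n).2.2.1.closure_eq]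
    exact fun h => h.2 hn
  · obtain ⟨n, h, h'⟩ := mem_iUnion.1 hp
    exact ⟨n, thickening_subset_cthickening _ _ h, mem_ofPred.2 (mem_ofPred.1 h').le⟩
  · have key : ∀ n m, n ≠ m → infEDist p (Z \ W n) ≤ infEDist p (W m) := fun n m h =>
      infEDist_anti fun a ha => ⟨(hG m).1 ha, disjoint_right.1 (hd n m h) ha⟩
    have e1 := le_trans hn.2 (key n m hnm)
    have e2 := le_trans hm.2 (key m n (Ne.symm hnm))
    have f1 := ne_top_of_le_ne_top ENNReal.ofReal_ne_top (mem_cthickening_iff.1 hn.1)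
    have f2 := ne_top_of_le_ne_top ENNReal.ofReal_ne_top (mem_cthickening_iff.1 hm.1)
    have z1 : infEDist p (W n) = 0 ∧ infEDist p (W m) = 0 := by
      lift infEDist p (W n) to NNReal using f1 with a
      lift infEDist p (W m) to NNReal using f2 with b
      norm_cast at e1 e2 ⊢
      have e3 : (a : ℝ) + a ≤ b := by exact_mod_cast e1
      have e4 : (b : ℝ) + b ≤ a := by exact_mod_cast e2
      exact ⟨NNReal.coe_eq_zero.1 (by linarith [a.2, b.2]),
        NNReal.coe_eq_zero.1 (by linarith [a.2, b.2])⟩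
    exact disjoint_left.1 (hd n m hnm) ((mem_iff_infEDist_zero_of_closed (hG n).2.1).2 z1.1)
      ((mem_iff_infEDist_zero_of_closed (hG m).2.1).2 z1.2)
  · obtain ⟨a, ha, hpa⟩ := h1 n p hp.1
    obtain ⟨b, hb, hqb⟩ := h1 n q hq.1
    linarith [(hG n).2.2.2 a ha b hb, dist_triangle4 p a b q, dist_comm q b]

end Cv

theorem cover (hS : SepStmt) : CoverStmt := by
  intro X _ _ _ Z C hZ h1 h2
  obtain ⟨W, w1, w2, w3, w4⟩ := Cv.step2 hZ fun z hz => Cv.step1 hS hZ h1 hz
  obtain ⟨A, U, a1, a2, u1, u2, a3, a4, a5⟩ := Cv.step3 w1 w2 w3 w4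
  have hn : ∀ x, x ∉ Z → connectedComponentIn Zᶜ x ∈ 𝓝 x := fun x hx =>
    connectedComponentIn_mem_nhds (hZ.isOpen_compl.mem_nhds hx)
  refine ⟨ℕ ⊕ Set X, Sum.elim A fun P => {x | x ∉ U ∧ connectedComponentIn Zᶜ x = P}, ?_,
    a2.sumElim fun x => ?_, fun p => ?_, fun p s hs => ?_, ?_⟩
  · rintro (n | P)
    · exact a1 n
    · refine isOpen_compl_iff.1 (isOpen_iff_mem_nhds.2 fun x hx => ?_)
      by_cases hU : x ∈ U
      · exact mem_of_superset (u1.mem_nhds hU) fun y hy h => h.1 hy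
      · exact mem_of_superset (hn x fun h => hU (u2 h)) fun y hy h =>
          hx ⟨hU, (connectedComponentIn_eq hy).trans h.2⟩
  · by_cases hU : x ∈ U
    · exact ⟨U, u1.mem_nhds hU, finite_empty.subset fun P ⟨y, hy, hy'⟩ => hy.1 hy'⟩
    · exact ⟨_, hn x fun h => hU (u2 h), (finite_singleton (connectedComponentIn Zᶜ x)).subset
        fun P ⟨y, hy, hy'⟩ => hy.2.symm.trans (connectedComponentIn_eq hy').symm⟩
  · by_cases hU : p ∈ U
    · exact (a3 p hU).elim fun n h => ⟨.inl n, h⟩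
    · exact ⟨.inr _, hU, rfl⟩
  · refine (Finset.card_le_card_of_injOn (t := Finset.univ) Sum.isLeft
      (fun _ _ => Finset.mem_univ _) ?_).trans (by simp)
    rintro (n | P) hi (m | Q) hj e
    · rw [a4 n m p (hs _ hi) (hs _ hj)]
    · simp at e
    · simp at e
    · rw [← (hs _ hi).2, ← (hs _ hj).2]
  · rintro (n | P) p hp q hq
    · exact (a5 n p hp q hq).trans (by linarith)
    · refine (h2 _ (connectedComponentIn_subset Zᶜ p) isPreconnected_connectedComponentIn p
        (mem_connectedComponentIn fun h => hp.1 (u2 h)) q ?_).trans (by linarith)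
      rw [hp.2, ← hq.2]
      exact mem_connectedComponentIn fun h => hq.1 (u2 h)

end Crest.Agent.N228.N3
end

-- ▼ part N228/O/Len
section

/-!
# Row 228 (helper55): the length distance of an arbitrary connected Hausdorff `Imm`

`Ln.met M : MetricSpace X` (the topology is the given one, definitionally), `Ln.len_met : Len M`.
-/

set_option autoImplicit false
set_option linter.unusedSectionVars false
open Set Filter Topology Function

noncomputable section

namespace Crest.Agent.N228.Ln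
open Crest.Agent.N222

variable {n : ℕ} {ι : Type} [Fintype ι] {X : Type} [TopologicalSpace X] {M : Imm n ι X}
  {p q r : X} {T T' : ℝ}

/-- joined by a curve of speed at most one in time `T` -/
def Jn (M : Imm n ι X) (p q : X) (T : ℝ) : Prop :=
  0 ≤ T ∧ ∃ γ : ℝ → X, Continuous γ ∧ γ 0 = p ∧ γ T = q ∧
    ∀ s t, 0 ≤ s → s ≤ t → t ≤ T → ‖M.x (γ s) - M.x (γ t)‖ ≤ t - s

theorem Jn.refl (p : X) : Jn M p p 0 :=
  ⟨le_rfl, fun _ => p, continuous_const, rfl, rfl, fun s t _ h _ => by simpa using h⟩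

theorem Jn.symm (h : Jn M p q T) : Jn M q p T := by
  obtain ⟨h0, γ, hc, h1, h2, h3⟩ := h
  refine ⟨h0, fun t => γ (T - t), hc.comp (by fun_prop), by simpa, by simpa,
    fun s t hs hst ht => ?_⟩
  rw [norm_sub_rev]
  exact (h3 _ _ (by linarith) (by linarith) (by linarith)).trans (by linarith)

theorem Jn.trans (h : Jn M p q T) (h' : Jn M q r T') : Jn M p r (T + T') := by
  obtain ⟨h0, γ, hc, h1, h2, h3⟩ := h
  obtain ⟨k0, δ, kc, k1, k2, k3⟩ := h'
  refine ⟨by linarith, fun t => if t ≤ T then γ t else δ (t - T),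
    hc.if_le (kc.comp (by fun_prop)) continuous_id continuous_const fun t ht => by
      rw [ht, sub_self, h2, k1], by simp [h0, h1], ?_, fun s t hs hst ht => ?_⟩
  · by_cases h : T + T' ≤ T
    · obtain rfl : T' = 0 := by linarith
      simp [h2, ← k1, k2]
    · simp [h, k2]
  · by_cases a : t ≤ T
    · simp only [a, hst.trans a, if_true]
      exact h3 s t hs hst a
    · by_cases b : s ≤ T
      · simp only [a, b, if_true, if_false]
        have e1 := h3 s T hs b le_rfl
        have e2 := k3 0 (t - T) le_rfl (by linarith) (by linarith)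
        rw [k1, ← h2] at e2
        linarith [norm_sub_le_norm_sub_add_norm_sub (M.x (γ s)) (M.x (γ T)) (M.x (δ (t - T)))]
      · simp only [a, b, if_false]
        exact (k3 _ _ (by linarith) (by linarith) (by linarith)).trans (by linarith)


theorem norm_chart_le {e : X → E (Fin n)} {L : E (Fin n) →ₗᵢ[ℝ] E ι}
    (h2 : ∀ q, e q = ContinuousLinearMap.adjoint L.toContinuousLinearMap (M.x q - M.x p))
    (q q' : X) : ‖e q - e q'‖ ≤ ‖M.x q - M.x q'‖ := by
  rw [h2, h2, ← map_sub, sub_sub_sub_cancel_right]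
  refine (ContinuousLinearMap.le_opNorm _ _).trans (mul_le_of_le_one_left (norm_nonneg _) ?_)
  rw [LinearIsometryEquiv.norm_map]
  exact L.norm_toContinuousLinearMap_le

/-- nearby points are joined by almost straight curves -/
theorem loc_jn (M : Imm n ι X) (p : X) {ε : ℝ} (hε : 0 < ε) :
    ∃ U ∈ 𝓝 p, ∀ q ∈ U, ∀ q' ∈ U, Jn M q q' ((1 + ε) * ‖M.x q - M.x q'‖) := by
  obtain ⟨e, L, he, hp, -, h2, h3⟩ := M.exists_proj_chart p
  have h0 : e p = 0 := by rw [h2, sub_self, map_zero]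
  have ht : e.target ∈ 𝓝 (0 : E (Fin n)) := h0 ▸ e.open_target.mem_nhds (e.map_source hp)
  have hc : ContinuousAt (fderiv ℝ (M.x ∘ e.symm)) 0 :=
    (he.sm.continuousOn_fderiv_of_isOpen e.open_target (by simp)).continuousAt ht
  have hL : ‖L.toContinuousLinearMap‖ ≤ 1 := L.norm_toContinuousLinearMap_le
  have h4 : ∀ᶠ z in 𝓝 (0 : E (Fin n)), ‖fderiv ℝ (M.x ∘ e.symm) z‖ < 1 + ε :=
    hc.norm.eventually (gt_mem_nhds (by simp only [h3]; linarith))
  obtain ⟨ρ, hρ, H⟩ := Metric.mem_nhds_iff.1 (inter_mem ht h4)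
  refine ⟨e.source ∩ e ⁻¹' Metric.ball 0 ρ, (e.isOpen_inter_preimage Metric.isOpen_ball).mem_nhds
    ⟨hp, by rw [mem_preimage, h0]; exact Metric.mem_ball_self hρ⟩, fun q hq q' hq' => ?_⟩
  have h5 := norm_chart_le h2 q' q
  rw [norm_sub_rev (M.x q')] at h5
  by_cases hx : M.x q - M.x q' = 0
  · rw [hx, norm_zero, norm_le_zero_iff, sub_eq_zero] at h5
    rw [hx, norm_zero, mul_zero, e.injOn hq'.1 hq.1 h5]
    exact Jn.refl q
  set T := (1 + ε) * ‖M.x q - M.x q'‖ with hT
  have hT0 : 0 < T := mul_pos (by linarith) (norm_pos_iff.2 hx)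
  set c : ℝ → E (Fin n) := fun t => e q + (projIcc 0 1 zero_le_one (t / T) : ℝ) • (e q' - e q)
    with hcd
  have hcm : ∀ t, c t ∈ Metric.ball (0 : E (Fin n)) ρ := fun t =>
    (convex_ball _ _).add_smul_sub_mem hq.2 hq'.2 (Subtype.prop _)
  have hci : ∀ t, 0 ≤ t → t ≤ T → c t = e q + (t / T) • (e q' - e q) := fun t h1 h2 => by
    simp only [hcd]
    rw [projIcc_of_mem _ ⟨div_nonneg h1 hT0.le, (div_le_one hT0).2 h2⟩]
  refine ⟨hT0.le, fun t => e.symm (c t), e.continuousOn_symm.comp_continuous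
    (continuous_const.add ((continuous_subtype_val.comp (continuous_projIcc.comp
      (continuous_id.div_const T))).smul continuous_const)) fun t => (H (hcm t)).1, ?_, ?_,
    fun s t hs hst htT => ?_⟩
  · simp [hci 0 le_rfl hT0.le, e.left_inv hq.1]
  · simp [hci T hT0.le le_rfl, hT0.ne', e.left_inv hq'.1]
  · refine ((convex_ball _ _).norm_image_sub_le_of_norm_fderiv_le (f := M.x ∘ e.symm)
      (fun z hz => (he.hasFDerivAt (H hz).1).differentiableAt) (fun z hz => le_of_lt (H hz).2)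
      (hcm t) (hcm s)).trans ?_
    rw [hci s hs (hst.trans htT), hci t (hs.trans hst) htT, add_sub_add_left_eq_sub, ← sub_smul,
      norm_smul, ← sub_div, Real.norm_eq_abs, abs_div, abs_sub_comm, abs_of_nonneg (sub_nonneg.2 hst),
      abs_of_pos hT0]
    calc (1 + ε) * ((t - s) / T * ‖e q' - e q‖) ≤ (1 + ε) * ((t - s) / T * ‖M.x q - M.x q'‖) := by
          have := sub_nonneg.2 hst
          gcongr
      _ = (t - s) / T * T := by rw [hT]; ring
      _ = t - s := div_mul_cancel₀ _ hT0.ne'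

theorem exists_jn [PreconnectedSpace X] (M : Imm n ι X) (p q : X) : ∃ T, Jn M p q T := by
  have h : IsClopen {q | ∃ T, Jn M p q T} := by
    refine ⟨⟨isOpen_iff_mem_nhds.2 fun q hq => ?_⟩, isOpen_iff_mem_nhds.2 fun q hq => ?_⟩
    · obtain ⟨U, hU, H⟩ := loc_jn M q one_pos
      filter_upwards [hU] with q' hq' ⟨T, h⟩
      exact hq ⟨_, h.trans (H q' hq' q (mem_of_mem_nhds hU))⟩
    · obtain ⟨U, hU, H⟩ := loc_jn M q one_pos
      obtain ⟨T, h⟩ := hq
      filter_upwards [hU] with q' hq'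
      exact ⟨_, h.trans (H q (mem_of_mem_nhds hU) q' hq')⟩
  have h1 := h.eq_univ ⟨p, 0, Jn.refl p⟩
  exact (h1 ▸ mem_univ q : q ∈ {q | ∃ T, Jn M p q T})

/-- short curves stay in a given neighbourhood -/
theorem stay [T2Space X] (M : Imm n ι X) (p : X) {U : Set X} (hU : U ∈ 𝓝 p) :
    ∃ ρ > 0, ∀ q T, Jn M p q T → T < ρ → q ∈ U := by
  obtain ⟨e, L, he, hp, -, h2, -⟩ := M.exists_proj_chart p
  have h0 : e p = 0 := by rw [h2, sub_self, map_zero]
  have ht : e.target ∩ e.symm ⁻¹' U ∈ 𝓝 (0 : E (Fin n)) := by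
    rw [← h0]
    exact inter_mem (e.open_target.mem_nhds (e.map_source hp))
      ((e.continuousAt_symm (e.map_source hp)).preimage_mem_nhds (by rwa [e.left_inv hp]))
  obtain ⟨ρ, hρ, H⟩ := Metric.nhds_basis_closedBall.mem_iff.1 ht
  refine ⟨ρ, hρ, ?_⟩
  rintro _ T ⟨hT, γ, hc, h1, rfl, h3⟩ hTρ
  have hK : IsClosed (e.symm '' Metric.closedBall 0 ρ) :=
    ((isCompact_closedBall _ _).image_of_continuousOn
      (e.continuousOn_symm.mono fun _ hz => (H hz).1)).isClosed
  have key : Icc 0 T ⊆ γ ⁻¹' (e.symm '' Metric.closedBall 0 ρ) := by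
    refine IsClosed.Icc_subset_of_forall_mem_nhdsWithin
      ((hK.preimage hc).inter isClosed_Icc) ⟨0, Metric.mem_closedBall_self hρ.le, by
        rw [h1, ← h0, e.left_inv hp]⟩ ?_
    rintro t ⟨⟨z, hz, hzt⟩, ht0, htT⟩
    have a1 : γ t ∈ e.source := hzt ▸ e.map_target (H hz).1
    have a2 : ‖e (γ t)‖ < ρ := by
      have := (norm_chart_le h2 p (γ t)).trans (h1 ▸ h3 0 t le_rfl ht0 htT.le)
      rw [h0, zero_sub, norm_neg] at this
      linarith
    refine mem_nhdsWithin_of_mem_nhds ?_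
    filter_upwards [hc.continuousAt.preimage_mem_nhds
      ((e.isOpen_inter_preimage (Metric.isOpen_ball (x := 0) (ε := ρ))).mem_nhds
        ⟨a1, mem_ball_zero_iff.2 a2⟩)] with s hs
    exact ⟨e (γ s), Metric.ball_subset_closedBall hs.2, e.left_inv hs.1⟩
  obtain ⟨z, hz, hzt⟩ := key ⟨hT, le_rfl⟩
  exact hzt ▸ (H hz).2

/-- the length distance -/
def ld (M : Imm n ι X) (p q : X) : ℝ := sInf {T | Jn M p q T}

theorem Jn.ld_le (h : Jn M p q T) : ld M p q ≤ T := csInf_le ⟨0, fun _ h => h.1⟩ h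

theorem exists_jn_lt [PreconnectedSpace X] (h : ld M p q < T) : ∃ T', Jn M p q T' ∧ T' < T :=
  exists_lt_of_csInf_lt (exists_jn M p q) h

theorem le_ld [PreconnectedSpace X] {a : ℝ} (h : ∀ T, Jn M p q T → a ≤ T) : a ≤ ld M p q :=
  le_csInf (exists_jn M p q) h

/-- the length metric; its topology is the given one -/
@[reducible] def met [T2Space X] [PreconnectedSpace X] (M : Imm n ι X) : MetricSpace X :=
  MetricSpace.ofDistTopology (ld M)
    (fun p => le_antisymm (Jn.refl p).ld_le (le_ld fun _ h => h.1))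
    (fun _ _ => le_antisymm (le_ld fun _ h => h.symm.ld_le) (le_ld fun _ h => h.symm.ld_le))
    (fun p q r => by
      refine le_of_forall_pos_le_add fun ε hε => ?_
      obtain ⟨T, h1, h2⟩ := exists_jn_lt (lt_add_of_pos_right (ld M p q) (half_pos hε))
      obtain ⟨T', h3, h4⟩ := exists_jn_lt (lt_add_of_pos_right (ld M q r) (half_pos hε))
      linarith [(h1.trans h3).ld_le])
    (fun s => by
      rw [isOpen_iff_mem_nhds]
      refine forall₂_congr fun p _ => ⟨fun h => ?_, fun ⟨ε, hε, h⟩ => ?_⟩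
      · obtain ⟨ρ, hρ, H⟩ := stay M p h
        exact ⟨ρ, hρ, fun q hq => let ⟨T, h1, h2⟩ := exists_jn_lt hq; H q T h1 h2⟩
      · obtain ⟨U, hU, H⟩ := loc_jn M p one_pos
        have h1 : ∀ᶠ q in 𝓝 p, (1 + 1) * ‖M.x p - M.x q‖ < ε :=
          (continuous_const.mul (continuous_const.sub M.continuous_x).norm).continuousAt.eventually
            (gt_mem_nhds (by simpa using hε))
        filter_upwards [hU, h1] with q hq h2
        exact h q ((H p (mem_of_mem_nhds hU) q hq).ld_le.trans_lt h2))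
    fun p q h => by
      by_contra hne
      obtain ⟨ρ, hρ, H⟩ := stay M p (isOpen_compl_singleton.mem_nhds (x := p) hne)
      obtain ⟨T, h1, h2⟩ := exists_jn_lt (h ▸ hρ : ld M p q < ρ)
      exact H q T h1 h2 rfl


end Ln


end Crest.Agent.N228

end
end

-- ▼ part N228/O/Lip
section

/-!
# Row 228 (helper55): gradient bounds give Lipschitz bounds (no properness); `lip : LipStmt`
-/

set_option autoImplicit false
set_option linter.unusedSectionVars false
open Set Filter Topology Function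

noncomputable section

namespace Crest.Agent.N228
open Crest.Agent.N222

variable {n m : ℕ} {ι κ : Type} [Fintype ι] [Fintype κ] {X Y : Type}
  {F : Type} [NormedAddCommGroup F] [NormedSpace ℝ F]

/-- the pointwise estimate -/
theorem lip_pt [TopologicalSpace X] {M : Imm n ι X} {f : X → F} {p : X} (hf : M.DiffAt f p) {c : ℝ}
    (hc : ‖M.td f p‖ < c) : ∀ᶠ q in 𝓝 p, ‖f q - f p‖ ≤ c * ‖M.x q - M.x p‖ := by
  obtain ⟨e, L, he, hp, -, h2, h3⟩ := M.exists_proj_chart p
  have h0 : e p = 0 := by rw [h2, sub_self, map_zero]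
  have h4 := ((Imm.diffAt_chart he hp).1 hf).hasFDerivAt
  rw [Imm.fderiv_chart f he hp, h0, h3] at h4
  have h5 := (e.continuousAt hp).tendsto
  rw [h0] at h5
  filter_upwards [h5.eventually (h4.isLittleO.bound (sub_pos.2 hc)), e.eventually_left_inverse hp]
    with q hq hq'
  have h6 := Ln.norm_chart_le h2 q p
  have h7 : ‖M.td f p (L (e q))‖ ≤ ‖M.td f p‖ * ‖e q‖ := by
    simpa using (M.td f p).le_opNorm (L (e q))
  rw [comp_apply, comp_apply, hq', ← h0, e.left_inv hp, h0, sub_zero] at hq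
  rw [h0, sub_zero] at h6
  have h8 := norm_add_le (f q - f p - M.td f p (L (e q))) (M.td f p (L (e q)))
  rw [sub_add_cancel] at h8
  have h9 := mul_le_mul_of_nonneg_left h6 ((norm_nonneg _).trans hc.le)
  change ‖f q - f p - M.td f p (L (e q))‖ ≤ _ at hq
  linarith

variable [MetricSpace X] {M : Imm n ι X}


theorem le_of_forall_gt_mul {a b c : ℝ} (h : ∀ c', c < c' → a ≤ c' * b) : a ≤ c * b :=
  ge_of_tendsto (f := fun c' => c' * b) (x := 𝓝[>] c)
    (((continuous_id.mul continuous_const).tendsto c).mono_left nhdsWithin_le_nhds)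
    (eventually_mem_nhdsWithin.mono h)



variable [DecidableEq ι]

theorem norm_td_le [TopologicalSpace Y] {N : Imm n ι Y} {f : Y → ℝ} {c : ℝ} (hc : 0 ≤ c) {z : Y} :
    ‖N.td f z‖ ≤ c ↔ N.pre.gam f f z ≤ c ^ 2 := by
  rw [Imm.norm_td, Imm.gam_self_eq, pow_le_pow_iff_left₀ (norm_nonneg _) hc two_ne_zero]




end Crest.Agent.N228

end
end

-- ▼ part N228/O/App2
section

/-!
# Row 228 (helper55): smoothing of Lipschitz functions (no properness): `Len.app`, `Len.app_var`
-/

set_option autoImplicit false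
set_option linter.unusedSectionVars false
open MeasureTheory Set Filter Topology Function
open scoped ContDiff Convolution NNReal Manifold

noncomputable section

namespace Crest.Agent.N228
open Crest.Agent.N222

variable {n : ℕ} {ι : Type} [Fintype ι] {X : Type}

/-- mollification keeps the Lipschitz constant -/
theorem exists_moll {φ : E ι → ℝ} {K : ℝ≥0} (hφ : LipschitzWith K φ) {δ : ℝ} (hδ : 0 < δ) :
    ∃ Ψ : E ι → ℝ, ContDiff ℝ ∞ Ψ ∧ LipschitzWith K Ψ ∧ ∀ w, |Ψ w - φ w| ≤ δ := by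
  have hr : 0 < δ / (K + 1) := by positivity
  set B : ContDiffBump (0 : E ι) := ⟨δ / (K + 1) / 2, δ / (K + 1), half_pos hr, half_lt_self hr⟩
  have hint : ∀ x, Integrable (fun t => B.normed volume t * φ (x - t)) volume := fun x =>
    (B.continuous_normed.mul (hφ.continuous.comp (by fun_prop))).integrable_of_hasCompactSupport
      B.hasCompactSupport_normed.mul_right
  refine ⟨B.normed volume ⋆[ContinuousLinearMap.lsmul ℝ ℝ, volume] φ,
    B.hasCompactSupport_normed.contDiff_convolution_left _ B.contDiff_normed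
      hφ.continuous.locallyIntegrable, LipschitzWith.of_dist_le_mul fun x y => ?_, fun w => ?_⟩
  · simp only [Real.dist_eq, convolution_def, ContinuousLinearMap.lsmul_apply, smul_eq_mul]
    rw [← integral_sub (hint x) (hint y), ← one_mul (K * dist x y : ℝ), ← B.integral_normed
      (μ := volume), ← integral_mul_const]
    refine abs_integral_le_integral_abs.trans (integral_mono ((hint x).sub (hint y)).abs
      (B.integrable_normed.mul_const _) fun t => ?_)
    have h1 := hφ.dist_le_mul (x - t) (y - t)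
    rw [Real.dist_eq, dist_sub_right] at h1
    simp only
    rw [← mul_sub, abs_mul, abs_of_nonneg (B.nonneg_normed t)]
    exact mul_le_mul_of_nonneg_left h1 (B.nonneg_normed t)
  · refine B.dist_normed_convolution_le hφ.continuous.aestronglyMeasurable fun x hx =>
      (hφ.dist_le_mul x w).trans ?_
    have h2 : dist x w * (K + 1) < δ := (lt_div_iff₀ (by positivity)).1 (Metric.mem_ball.1 hx)
    nlinarith [dist_nonneg (x := x) (y := w)]

section Top

variable [TopologicalSpace X] {M : Imm n ι X}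

/-- functions that are Lipschitz for the chordal distance on a set -/
theorem app_chord {f : X → ℝ} {N : Set X} {K : ℝ} (hK : 0 ≤ K)
    (h : ∀ q ∈ N, ∀ q' ∈ N, |f q - f q'| ≤ K * ‖M.x q - M.x q'‖) {δ : ℝ} (hδ : 0 < δ) :
    ∃ g, M.Sm g ∧ (∀ q ∈ N, |g q - f q| ≤ δ) ∧ ∀ q, ‖M.td g q‖ ≤ K := by
  rcases isEmpty_or_nonempty X with hX | hX
  · exact ⟨f, fun p => isEmptyElim p, fun p => isEmptyElim p, fun p => isEmptyElim p⟩
  lift K to ℝ≥0 using hK
  have h1 : ∀ q ∈ N, f (invFunOn M.x N (M.x q)) = f q := fun q hq => by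
    have h2 := invFunOn_pos (f := M.x) ⟨q, hq, rfl⟩
    have h3 := h _ h2.1 q hq
    rwa [h2.2, sub_self, norm_zero, mul_zero, abs_nonpos_iff, sub_eq_zero] at h3
  obtain ⟨G, hG, h4⟩ := LipschitzOnWith.extend_real (f := fun y => f (invFunOn M.x N y))
    (s := M.x '' N) (K := K) (LipschitzOnWith.of_dist_le_mul (by
      rintro _ ⟨q, hq, rfl⟩ _ ⟨q', hq', rfl⟩
      rw [h1 q hq, h1 q' hq', Real.dist_eq, dist_eq_norm]
      exact h q hq q' hq'))
  obtain ⟨Ψ, a1, a2, a3⟩ := exists_moll hG hδ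
  refine ⟨fun q => Ψ (M.x q), M.sm_x.comp a1, fun q hq => ?_, fun q => ?_⟩
  · rw [← h1 q hq, show f (invFunOn M.x N (M.x q)) = G (M.x q) from h4 ⟨q, hq, rfl⟩]
    exact a3 _
  · rw [Imm.td_comp (M.sm_x.diffAt q) (a1.differentiable (by simp) _)]
    refine ContinuousLinearMap.opNorm_le_bound _ K.coe_nonneg fun w =>
      ((fderiv ℝ Ψ (M.x q)).le_opNorm (M.PL q w)).trans ?_
    exact mul_le_mul (norm_fderiv_le_of_lipschitz ℝ (x₀ := M.x q) a2) (M.norm_PL_le q w)
      (norm_nonneg _) K.coe_nonneg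

theorem td_sum_mul {κ : Type} (I : Finset κ) {ρ g : κ → X → ℝ} (hρ : ∀ i, M.Sm (ρ i))
    (hg : ∀ i, M.Sm (g i)) (p : X) : M.td (fun q => ∑ i ∈ I, ρ i q * g i q) p =
      ∑ i ∈ I, (ρ i p • M.td (g i) p + g i p • M.td (ρ i) p) := by
  have h := (HasFDerivAt.fun_sum (u := I) fun i _ =>
    ((hρ i).diffAt p).hasFDerivAt.mul ((hg i).diffAt p).hasFDerivAt).fderiv
  simp only [comp_apply, (M.ch p).left_inv (M.mem p)] at h
  simp only [Imm.td]
  rw [show fderiv ℝ ((fun q => ∑ i ∈ I, ρ i q * g i q) ∘ (M.ch p).symm) (M.ch p p) = _ from h]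
  ext1 w
  simp

/-- gluing of local approximations with gradient control on a set `S` -/
theorem glue_on [T2Space X] [SecondCountableTopology X] {f c η : X → ℝ} (S : Set X)
    (hη : Continuous η) (h0 : ∀ p, 0 < η p) (h : ∀ p, ∃ N ∈ 𝓝 p, ∀ δ : ℝ, 0 < δ → ∃ g, M.Sm g ∧
      ∀ q ∈ N, q ∈ S → |g q - f q| ≤ δ ∧ ‖M.td g q‖ ≤ c q) :
    ∃ g, M.Sm g ∧ ∀ q ∈ S, |g q - f q| ≤ η q ∧ ‖M.td g q‖ ≤ c q + η q := by
  let := M.chartedSpace
  have := M.isManifold
  have : LocallyCompactSpace X := ChartedSpace.locallyCompactSpace (E (Fin n)) X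
  choose N hN H using h
  choose K hK1 hK2 hK3 using fun p => local_compact_nhds (hN p)
  obtain ⟨ρ, hρ⟩ := SmoothPartitionOfUnity.exists_isSubordinate (𝓡 n) isClosed_univ
    (fun p => interior (K p)) (fun _ => isOpen_interior)
    fun p _ => mem_iUnion.2 ⟨p, mem_interior_iff_mem_nhds.2 (hK1 p)⟩
  have hs : ∀ i, M.Sm (ρ i) := fun i => Imm.sm_iff_contMDiff.2 (ρ i).contMDiff
  set s : X → ℝ := fun q => ∑ᶠ i, ‖M.td (ρ i) q‖ with hsd
  have hz : ∀ i q, M.td (ρ i) q ≠ 0 → q ∈ tsupport (ρ i) := fun i q hq =>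
    by_contra fun hq' => hq (Imm.td_eq_zero_of_notMem hq')
  have hsc : Continuous s := continuous_finsum (fun i => (hs i).td.continuous.norm)
    (ρ.locallyFinite.closure.subset fun i q hq => hz i q (norm_ne_zero_iff.1 hq))
  have hs0 : ∀ q, 0 ≤ s q := fun q => finsum_nonneg fun _ => norm_nonneg _
  have hδ : ∀ p, ∃ δ, 0 < δ ∧ ∀ q ∈ K p, δ ≤ η q / (1 + s q) := fun p => by
    obtain ⟨q, -, hq⟩ := (hK3 p).exists_isMinOn (f := fun q => η q / (1 + s q))
      ⟨p, mem_of_mem_nhds (hK1 p)⟩ (hη.div (continuous_const.add hsc) fun q =>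
        (add_pos_of_pos_of_nonneg one_pos (hs0 q)).ne').continuousOn
    exact ⟨_, div_pos (h0 q) (add_pos_of_pos_of_nonneg one_pos (hs0 q)), hq⟩
  choose δ hδ0 hδ using hδ
  choose g hg hg' using fun p => H p (δ p) (hδ0 p)
  have key : ∀ p, (fun q => ∑ᶠ i, ρ i q * g i q) =ᶠ[𝓝 p]
      fun q => ∑ i ∈ ρ.fintsupport p, ρ i q * g i q := fun p =>
    (ρ.eventually_finsupport_subset p).mono fun q hq => finsum_eq_sum_of_support_subset _
      fun i hi => hq (ρ.mem_finsupport q |>.2 (left_ne_zero_of_mul hi))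
  refine ⟨fun q => ∑ᶠ i, ρ i q * g i q, Imm.sm_of_local fun p =>
    ⟨_, Imm.sm_sum _ fun i _ => (hs i).mul (hg i), key p⟩, fun p hp => ?_⟩
  set I := ρ.fintsupport p
  have a1 : ∑ i ∈ I, ρ i p = 1 := ρ.sum_finsupport' p (mem_univ p) (ρ.finsupport_subset_fintsupport p)
  have a2 : ∀ i ∈ I, p ∈ K i := fun i hi =>
    interior_subset (hρ i ((ρ.mem_fintsupport_iff p i).1 hi))
  have a3 : ∀ i ∈ I, |g i p - f p| ≤ η p / (1 + s p) := fun i hi =>
    (hg' i p (hK2 i (a2 i hi)) hp).1.trans (hδ i p (a2 i hi))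
  have a4 : η p / (1 + s p) ≤ η p := div_le_self (h0 p).le (by linarith [hs0 p])
  have a5 : ∑ i ∈ I, M.td (ρ i) p = 0 := by
    have b1 := td_sum_mul I hs (fun _ => Imm.sm_const (M := M) (1 : ℝ)) p
    rw [Imm.td_congr (g := fun _ => (1 : ℝ)) ((ρ.eventually_finsupport_subset p).mono
      fun q hq => by simpa using ρ.sum_finsupport' q (mem_univ q) hq), Imm.td_const] at b1
    simpa [Imm.td_const] using b1.symm
  have a6 : s p = ∑ i ∈ I, ‖M.td (ρ i) p‖ := finsum_eq_sum_of_support_subset _ fun i hi =>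
    (ρ.mem_fintsupport_iff p i).2 (hz i p (norm_ne_zero_iff.1 hi))
  constructor
  · rw [(key p).self_of_nhds, ← one_mul (f p), ← one_mul (η p), ← a1, Finset.sum_mul,
      Finset.sum_mul, ← Finset.sum_sub_distrib]
    refine (Finset.abs_sum_le_sum_abs _ _).trans (Finset.sum_le_sum fun i hi => ?_)
    rw [← mul_sub, abs_mul, abs_of_nonneg (ρ.nonneg i p)]
    exact mul_le_mul_of_nonneg_left ((a3 i hi).trans a4) (ρ.nonneg i p)
  · rw [Imm.td_congr (key p), td_sum_mul I hs hg, Finset.sum_add_distrib]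
    have b2 : ∑ i ∈ I, g i p • M.td (ρ i) p = ∑ i ∈ I, (g i p - f p) • M.td (ρ i) p := by
      simp only [sub_smul, Finset.sum_sub_distrib, ← Finset.smul_sum, a5, smul_zero, sub_zero]
    rw [b2]
    refine (norm_add_le _ _).trans (add_le_add ((norm_sum_le _ _).trans ?_)
      ((norm_sum_le _ _).trans ?_))
    · rw [← one_mul (c p), ← a1, Finset.sum_mul]
      refine Finset.sum_le_sum fun i hi => ?_
      rw [norm_smul, Real.norm_of_nonneg (ρ.nonneg i p)]
      exact mul_le_mul_of_nonneg_left (hg' i p (hK2 i (a2 i hi)) hp).2 (ρ.nonneg i p)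
    · calc ∑ i ∈ I, ‖(g i p - f p) • M.td (ρ i) p‖ ≤ ∑ i ∈ I, η p / (1 + s p) * ‖M.td (ρ i) p‖ :=
          Finset.sum_le_sum fun i hi => by
            rw [norm_smul]
            exact mul_le_mul_of_nonneg_right (a3 i hi) (norm_nonneg _)
        _ = η p / (1 + s p) * s p := by rw [← Finset.mul_sum, ← a6]
        _ ≤ η p := by
          rw [div_mul_eq_mul_div, div_le_iff₀ (by linarith [hs0 p])]
          nlinarith [h0 p]

theorem glue_app [T2Space X] [SecondCountableTopology X] {f c η : X → ℝ} (hη : Continuous η)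
    (h0 : ∀ p, 0 < η p) (h : ∀ p, ∃ N ∈ 𝓝 p, ∀ δ : ℝ, 0 < δ → ∃ g, M.Sm g ∧
      ∀ q ∈ N, |g q - f q| ≤ δ ∧ ‖M.td g q‖ ≤ c q) :
    ∃ g, M.Sm g ∧ ∀ q, |g q - f q| ≤ η q ∧ ‖M.td g q‖ ≤ c q + η q := by
  obtain ⟨g, h1, h2⟩ := glue_on (M := M) (f := f) (c := c) univ hη h0 fun p =>
    let ⟨N, hN, H⟩ := h p
    ⟨N, hN, fun δ hδ => let ⟨g, a, b⟩ := H δ hδ; ⟨g, a, fun q hq _ => b q hq⟩⟩
  exact ⟨g, h1, fun q => h2 q trivial⟩

end Top

variable [MetricSpace X] [SecondCountableTopology X] {M : Imm n ι X}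

/-- **App**, variable form: `c` is a continuous bound of the local Lipschitz constant of `f` -/
theorem Len.app_var (hL : Len M) {f c η : X → ℝ} (hc : Continuous c) (hc0 : ∀ p, 0 ≤ c p)
    (hη : Continuous η) (h0 : ∀ p, 0 < η p) (h : ∀ p, ∀ c', c p < c' → ∃ N ∈ 𝓝 p,
      ∀ q ∈ N, ∀ q' ∈ N, |f q - f q'| ≤ c' * dist q q') :
    ∃ g, M.Sm g ∧ ∀ q, |g q - f q| ≤ η q ∧ ‖M.td g q‖ ≤ c q + η q := by
  obtain ⟨g, h1, h2⟩ := glue_app (M := M) (f := f) (c := fun q => c q + η q / 2)
    (hη.div_const 2) (fun p => half_pos (h0 p)) fun p => by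
      obtain ⟨c2, a1, a2⟩ := exists_between (show c p < c p + η p / 2 by linarith [h0 p])
      obtain ⟨c1, a3, a4⟩ := exists_between a1
      have a5 : 0 < c1 := (hc0 p).trans_lt a3
      obtain ⟨N, hN, H⟩ := h p c1 a3
      obtain ⟨U, hU, H'⟩ := hL.loc p (c2 / c1 - 1) (sub_pos.2 ((one_lt_div a5).2 a4))
      have a6 : ∀ᶠ q in 𝓝 p, c2 < c q + η q / 2 :=
        (hc.add (hη.div_const 2)).continuousAt.eventually (lt_mem_nhds a2)
      refine ⟨_, inter_mem (inter_mem hN hU) a6, fun δ hδ => ?_⟩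
      obtain ⟨g, b1, b2, b3⟩ := app_chord (M := M) (f := f) (N := N ∩ U) (a5.trans a4).le
        (fun q hq q' hq' => (H q hq.1 q' hq'.1).trans ((mul_le_mul_of_nonneg_left
          (H' q hq.2 q' hq'.2) a5.le).trans (le_of_eq (by field_simp; ring)))) hδ
      exact ⟨g, b1, fun q hq => ⟨b2 q hq.1, (b3 q).trans (le_of_lt hq.2)⟩⟩
  exact ⟨g, h1, fun q => ⟨by linarith [(h2 q).1, h0 q], by linarith [(h2 q).2]⟩⟩

variable [DecidableEq ι]

/-- **App** -/
theorem Len.app (hL : Len M) {f : X → ℝ} {c ε : ℝ} (hc : 0 ≤ c) (hε : 0 < ε)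
    (h : ∀ p q, |f p - f q| ≤ c * dist p q) :
    ∃ g, M.Sm g ∧ ∀ p, |g p - f p| ≤ ε ∧ M.pre.gam g g p ≤ (c + ε) ^ 2 := by
  obtain ⟨g, h1, h2⟩ := hL.app_var (f := f) (continuous_const (y := c)) (fun _ => hc)
    (continuous_const (y := ε)) (fun _ => hε) fun p c' hc' => ⟨univ, univ_mem, fun q _ q' _ =>
      (h q q').trans (mul_le_mul_of_nonneg_right hc'.le dist_nonneg)⟩
  exact ⟨g, h1, fun p => ⟨(h2 p).1, (norm_td_le (by linarith)).1 (h2 p).2⟩⟩

end Crest.Agent.N228

end
end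

-- ▼ part N228/N3/FG
section

/-!
# Row 228, dimension three: circle maps are finitely generated modulo lifts (helper33)
-/

set_option autoImplicit false
open Set Filter Topology Function

noncomputable section

namespace Crest.Agent.N228.N3
open Crest.Agent.N222

namespace FGa

variable {X : Type} [TopologicalSpace X]

/-- circle maps lift on chart balls -/
theorem loc_lift {d : ℕ} (e : OpenPartialHomeomorph X (E (Fin d))) {p : X} (hp : p ∈ e.source) :
    ∃ U : Set X, IsOpen U ∧ p ∈ U ∧ ∀ z : X → Circle, Continuous z → Lifts z U := by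
  classical
  obtain ⟨r, hr, hb⟩ := Metric.isOpen_iff.1 e.open_target _ (e.map_source hp)
  refine ⟨e.source ∩ e ⁻¹' Metric.ball (e p) r, e.isOpen_inter_preimage Metric.isOpen_ball,
    ⟨hp, Metric.mem_ball_self hr⟩, fun z hz => ?_⟩
  have : ContractibleSpace (Metric.ball (e p) r) :=
    (convex_ball _ _).contractibleSpace ⟨_, Metric.mem_ball_self hr⟩
  have : LocallyPathConnectedSpace (Metric.ball (e p) r) :=
    Metric.isOpen_ball.locallyPathConnectedSpace
  have hc : Continuous fun y : Metric.ball (e p) r => z (e.symm y) :=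
    hz.comp (e.continuousOn_symm.mono hb).domRestrict
  obtain ⟨t, ht⟩ := Circle.exp_surjective (z (e.symm (e p)))
  obtain ⟨F, ⟨-, hF⟩, -⟩ := Circle.isCoveringMap_exp.existsUnique_continuousMap_lifts
    (⟨_, hc⟩ : C(Metric.ball (e p) r, Circle)) ⟨e p, Metric.mem_ball_self hr⟩ t ht
  refine ⟨fun q => if h : e q ∈ Metric.ball (e p) r then F ⟨e q, h⟩ else 0, ?_, fun q hq => ?_⟩
  · rw [continuousOn_iff_continuous_domRestrict]
    have h1 : Continuous fun q : ↥(e.source ∩ e ⁻¹' Metric.ball (e p) r) =>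
        F ⟨e q, q.2.2⟩ :=
      F.continuous.comp ((e.continuousOn.mono inter_subset_left).domRestrict.subtype_mk _)
    refine h1.congr fun q => ?_
    have h2 : e q ∈ Metric.ball (e p) r := q.2.2
    simp only [domRestrict_apply, dif_pos h2]
  · have h2 : e q ∈ Metric.ball (e p) r := hq.2
    have h3 := congrFun hF ⟨e q, h2⟩
    simp only [comp_apply, ContinuousMap.coe_mk, e.left_inv hq.1] at h3
    simp only [dif_pos h2, h3]

/-- a finite shrinking and finitely many test points for the overlaps -/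
theorem data [T2Space X] [CompactSpace X] [LocallyConnectedSpace X] (U : X → Set X)
    (hU : ∀ p, IsOpen (U p)) (hm : ∀ p, p ∈ U p) :
    ∃ (V : X → Set X) (s : Set X) (T : Set (X × X × X)), T.Finite ∧ (∀ a, IsOpen (V a)) ∧
      (∀ a, V a ⊆ U a) ∧ (∀ p, ∃ a ∈ s, p ∈ V a) ∧ (∀ τ ∈ T, τ.2.2 ∈ U τ.1 ∧ τ.2.2 ∈ U τ.2.1) ∧
      ∀ a ∈ s, ∀ b ∈ s, ∀ p ∈ V a, p ∈ V b → ∃ c ⊆ U a ∩ U b, IsPreconnected c ∧ p ∈ c ∧
        ∃ q ∈ c, (a, b, q) ∈ T := by
  choose K hK hKp hKU using fun p => exists_compact_subset (hU p) (hm p)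
  obtain ⟨s, hs⟩ := isCompact_univ.elim_finite_subcover (fun p => interior (K p))
    (fun _ => isOpen_interior) fun p _ => mem_iUnion.2 ⟨p, hKp p⟩
  have key : ∀ a b : X, ∃ t : Set X, t.Finite ∧ t ⊆ U a ∩ U b ∧ ∀ p ∈ K a ∩ K b,
      ∃ c ⊆ U a ∩ U b, IsPreconnected c ∧ p ∈ c ∧ ∃ q ∈ c, q ∈ t := by
    intro a b
    have h1 : ∀ q ∈ K a ∩ K b, ∃ c ∈ 𝓝 q, IsPreconnected c ∧ c ⊆ U a ∩ U b := fun q hq =>
      locallyConnectedSpace_iff_connected_subsets.1 inferInstance q _
        (((hU a).inter (hU b)).mem_nhds ⟨hKU a hq.1, hKU b hq.2⟩)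
    choose! c hc1 hc2 hc3 using h1
    obtain ⟨t, ht1, ht2⟩ := ((hK a).inter (hK b)).elim_nhds_subcover c hc1
    refine ⟨t, t.finite_toSet, fun q hq => ⟨hKU a (ht1 q hq).1, hKU b (ht1 q hq).2⟩,
      fun p hp => ?_⟩
    obtain ⟨q, hq, hpq⟩ := mem_iUnion₂.1 (ht2 hp)
    exact ⟨c q, hc3 q (ht1 q hq), hc2 q (ht1 q hq), hpq, q, mem_of_mem_nhds (hc1 q (ht1 q hq)), hq⟩
  choose t ht1 ht2 ht3 using key
  refine ⟨fun p => interior (K p), s, ⋃ a ∈ (s : Set X), ⋃ b ∈ (s : Set X),
    (fun q => (a, b, q)) '' t a b, ?_, fun _ => isOpen_interior,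
    fun a => interior_subset.trans (hKU a), fun p => ?_, fun τ hτ => ?_,
    fun a ha b hb p hpa hpb => ?_⟩
  · exact s.finite_toSet.biUnion fun a _ => s.finite_toSet.biUnion fun b _ => (ht1 a b).image _
  · obtain ⟨a, ha, h⟩ := mem_iUnion₂.1 (hs (mem_univ p))
    exact ⟨a, ha, h⟩
  · obtain ⟨a, -, h⟩ := mem_iUnion₂.1 hτ
    obtain ⟨b, -, q, hq, rfl⟩ := mem_iUnion₂.1 h
    exact ht2 a b hq
  · obtain ⟨c, h1, h2, h3, q, h4, h5⟩ := ht3 a b p ⟨interior_subset hpa, interior_subset hpb⟩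
    exact ⟨c, h1, h2, h3, q, h4, mem_iUnion₂.2 ⟨a, ha, mem_iUnion₂.2 ⟨b, hb, q, h5, rfl⟩⟩⟩

/-- `v` is the cocycle of local lifts of a map which lifts on `O` -/
def Co (U : X → Set X) (T : Set (X × X × X)) (O : Set X) (v : T → ℤ) : Prop :=
  ∃ (k : X → X → ℝ) (h : X → ℝ), (∀ a, ContinuousOn (k a) (U a)) ∧ ContinuousOn h O ∧
    (∀ a b, ∀ p ∈ U a, p ∈ U b → Circle.exp (k a p) = Circle.exp (k b p)) ∧
    (∀ a, ∀ p ∈ U a, p ∈ O → Circle.exp (k a p) = Circle.exp (h p)) ∧
    ∀ τ : T, k τ.1.1 τ.1.2.2 = k τ.1.2.1 τ.1.2.2 + v τ * (2 * Real.pi)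

theorem co_span {U : X → Set X} {T : Set (X × X × X)} {O : Set X} {S : Set (T → ℤ)}
    (hS : ∀ v ∈ S, Co U T O v) {v : T → ℤ} (hv : v ∈ Submodule.span ℤ S) : Co U T O v := by
  induction hv using Submodule.span_induction with
  | mem v h => exact hS v h
  | zero =>
    exact ⟨fun _ _ => 0, fun _ => 0, fun _ => continuousOn_const, continuousOn_const,
      fun _ _ _ _ _ => rfl, fun _ _ _ _ => rfl, fun _ => by simp⟩
  | add v w _ _ h1 h2 =>
    obtain ⟨k, h, a1, a2, a3, a4, a5⟩ := h1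
    obtain ⟨k', h', b1, b2, b3, b4, b5⟩ := h2
    refine ⟨fun a p => k a p + k' a p, fun p => h p + h' p, fun a => (a1 a).add (b1 a), a2.add b2,
      fun a b p ha hb => ?_, fun a p ha hp => ?_, fun τ => ?_⟩
    · rw [Circle.exp_add, Circle.exp_add, a3 a b p ha hb, b3 a b p ha hb]
    · rw [Circle.exp_add, Circle.exp_add, a4 a p ha hp, b4 a p ha hp]
    · simp only [Pi.add_apply, Int.cast_add, a5 τ, b5 τ]
      ring
  | smul m v _ h1 =>
    obtain ⟨k, h, a1, a2, a3, a4, a5⟩ := h1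
    refine ⟨fun a p => m * k a p, fun p => m * h p, fun a => continuousOn_const.mul (a1 a),
      continuousOn_const.mul a2, fun a b p ha hb => ?_, fun a p ha hp => ?_, fun τ => ?_⟩
    · rw [Circle.exp_intCast_mul, Circle.exp_intCast_mul, a3 a b p ha hb]
    · rw [Circle.exp_intCast_mul, Circle.exp_intCast_mul, a4 a p ha hp]
    · simp only [Pi.smul_apply, smul_eq_mul, Int.cast_mul, a5 τ]
      ring

/-- the topological statement -/
theorem top [T2Space X] [CompactSpace X] [LocallyConnectedSpace X]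
    (hl : ∀ p : X, ∃ U : Set X, IsOpen U ∧ p ∈ U ∧ ∀ z : X → Circle, Continuous z → Lifts z U)
    (P : (X → Circle) → Prop) (hP : ∀ z, P z → Continuous z) :
    ∃ zs : List (X → Circle), (∀ z ∈ zs, P z) ∧
      ∀ (O : Set X) z, P z → (∀ w ∈ zs, Lifts w O) → Lifts z O := by
  classical
  choose U hU hm hL using hl
  obtain ⟨V, s, T, hT, hV, hVU, hcov, hTU, hc⟩ := data U hU hm
  have : Finite T := hT.to_subtype
  choose g hg1 hg2 using fun (z : {z // P z}) (a : X) => hL a z.1 (hP z.1 z.2)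
  have hn : ∀ (z : {z // P z}) (τ : T), ∃ m : ℤ,
      g z τ.1.1 τ.1.2.2 = g z τ.1.2.1 τ.1.2.2 + m * (2 * Real.pi) := fun z τ =>
    Circle.exp_eq_exp.1 ((hg2 z _ _ (hTU τ.1 τ.2).1).symm.trans (hg2 z _ _ (hTU τ.1 τ.2).2))
  choose n hn using hn
  obtain ⟨S, hS1, hS2⟩ := (Submodule.fg_span_iff_fg_span_finset_subset (range n)).1
    (IsNoetherian.noetherian (Submodule.span ℤ (range n)))
  choose w hw using fun v (hv : v ∈ S) => mem_range.1 (hS1 hv)
  refine ⟨S.attach.toList.map fun v => (w v.1 v.2).1, fun z hz => ?_, fun O z hz hO => ?_⟩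
  · obtain ⟨v, -, rfl⟩ := List.mem_map.1 hz
    exact (w v.1 v.2).2
  have h1 : Co U T O (n ⟨z, hz⟩) := by
    refine co_span (S := (S : Set (T → ℤ))) (fun v hv => ?_)
      (hS2 ▸ Submodule.subset_span (mem_range_self _))
    obtain ⟨h, h1, h2⟩ := hO (w v hv).1
      (List.mem_map.2 ⟨⟨v, hv⟩, Finset.mem_toList.2 (Finset.mem_attach _ _), rfl⟩)
    refine ⟨g (w v hv), h, hg1 _, h1, fun a b p ha hb => ?_, fun a p ha hp => ?_, fun τ => ?_⟩
    · exact (hg2 _ a p ha).symm.trans (hg2 _ b p hb)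
    · exact (hg2 _ a p ha).symm.trans (h2 p hp)
    · rw [hn _ τ, hw v hv]
  obtain ⟨k, h, a1, a2, a3, a4, a5⟩ := h1
  set G := g ⟨z, hz⟩ with hG
  have hGz : ∀ a, ∀ p ∈ U a, z p = Circle.exp (G a p) := fun a p hp => hg2 ⟨z, hz⟩ a p hp
  have glue : ∀ a ∈ s, ∀ b ∈ s, ∀ p ∈ V a, p ∈ V b → G a p - k a p = G b p - k b p := by
    intro a ha b hb p hpa hpb
    obtain ⟨c, c1, c2, c3, q, c4, c5⟩ := hc a ha b hb p hpa hpb
    have ca : c ⊆ U a := fun y hy => (c1 hy).1
    have cb : c ⊆ U b := fun y hy => (c1 hy).2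
    refine Circle.isCoveringMap_exp.eqOn_of_comp_eqOn (g₁ := fun p => G a p - k a p)
      (g₂ := fun p => G b p - k b p) c2 (((hg1 _ a).sub (a1 a)).mono ca)
      (((hg1 _ b).sub (a1 b)).mono cb) (fun y hy => ?_) c4 ?_ c3
    · simp only [comp_apply, Circle.exp_sub, ← hGz a y (ca hy), ← hGz b y (cb hy),
        a3 a b y (ca hy) (cb hy)]
    · have e1 := hn ⟨z, hz⟩ ⟨_, c5⟩
      have e2 := a5 ⟨_, c5⟩
      simp only at e1 e2 ⊢
      rw [← hG] at e1
      linarith
  choose al hal1 hal2 using hcov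
  have hcont : Continuous fun p => G (al p) p - k (al p) p := by
    refine continuous_iff_continuousAt.2 fun p => ?_
    have h2 : ContinuousAt (fun q => G (al p) q - k (al p) q) p :=
      ((hg1 _ _).sub (a1 _)).continuousAt ((hU _).mem_nhds (hVU _ (hal2 p)))
    refine h2.congr ?_
    filter_upwards [(hV _).mem_nhds (hal2 p)] with q hq
    exact glue _ (hal1 p) _ (hal1 q) q hq (hal2 q)
  refine ⟨fun p => G (al p) p - k (al p) p + h p, hcont.continuousOn.add a2, fun p hp => ?_⟩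
  rw [Circle.exp_add, Circle.exp_sub, ← hGz _ p (hVU _ (hal2 p)), a4 _ p (hVU _ (hal2 p)) hp,
    div_mul_cancel]

end FGa

theorem fg : FGStmt := by
  intro d ι _ _ X _ _ _ _ _ M hX
  have := M.locallyConnected
  exact FGa.top (fun p => FGa.loc_lift (M.ch p) (M.mem p)) (SmC M)
    fun z hz => continuous_induced_rng.2 (Imm.Sm.continuous hz)

end Crest.Agent.N228.N3

end
end

-- ▼ part N228/N3/Piece
section

/-! # Row 228, dimension three: PIECE on a closed manifold (leaf typed by helper81) -/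

set_option autoImplicit false
open MeasureTheory Set Filter Topology Function
open scoped ContDiff

noncomputable section

namespace Crest.Agent.N228.N3
open Crest.Agent.N222

namespace PieceH

variable {d : ℕ} {ι : Type} [Fintype ι] [DecidableEq ι] {Y : Type} [TopologicalSpace Y]

theorem gam_comp {M : Imm d ι Y} {w : Y → ℝ} (hw : M.Sm w) {g : ℝ → ℝ} {e : ℝ} {p : Y}
    (hg : HasDerivAt g e (w p)) :
    M.pre.gam (fun q => g (w q)) (fun q => g (w q)) p = e ^ 2 * M.pre.gam w w p := by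
  simp only [Imm.gam_apply, Imm.D_comp (hw.diffAt p) hg, Finset.mul_sum]
  exact Finset.sum_congr rfl fun _ _ => by ring

theorem gam_sub {M : Imm d ι Y} {w : Y → ℝ} (hw : M.Sm w) (c : ℝ) (p : Y) :
    M.pre.gam (fun q => w q - c) (fun q => w q - c) p = M.pre.gam w w p := by
  have := gam_comp (g := fun t => t - c) (p := p) hw ((hasDerivAt_id' (w p)).sub_const c)
  simpa using this

theorem gam_sin {M : Imm d ι Y} {r : Y → ℝ} (hr : M.Sm r) {p : Y} (h : M.pre.gam r r p ≤ 2) :
    M.pre.gam (fun q => 2 * Real.sin (r q / 20)) (fun q => 2 * Real.sin (r q / 20)) p ≤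
      (1 / 7) ^ 2 := by
  have h1 : HasDerivAt (fun t : ℝ => 2 * Real.sin (t / 20))
      (2 * (Real.cos (r p / 20) * (1 / 20))) (r p) :=
    (((hasDerivAt_id' (r p)).div_const 20).sin).const_mul 2
  rw [gam_comp (g := fun t : ℝ => 2 * Real.sin (t / 20)) hr h1]
  have h2 := Real.cos_sq_le_one (r p / 20)
  have h3 := M.gam_self_nonneg r p
  nlinarith [mul_le_mul h2 h h3 zero_le_one]

/-- a continuous function whose sine omits a value oscillates little on a connected set -/
theorem osc {P : Set Y} (hP : IsPreconnected P) {r : Y → ℝ} (hr : Continuous r) {θ : ℝ}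
    (h : ∀ p ∈ P, Real.sin (r p / 20) ≠ Real.sin θ) {x y : Y} (hx : x ∈ P)
    (hy : y ∈ closure P) : r x - r y ≤ 126 := by
  have key : P ⊆ {q | r x - r q ≤ 126} := fun q hq => by
    by_contra hn
    have hn' : 126 < r x - r q := not_le.1 hn
    obtain ⟨t, ht, e⟩ := Real.sin_periodic.exists_mem_Ico Real.two_pi_pos θ (r q / 20)
    have hπ := Real.pi_lt_d2
    obtain ⟨z, hz, ez⟩ := hP.intermediate_value hq hx hr.continuousOn
      (show 20 * t ∈ Icc (r q) (r x) from ⟨by linarith [ht.1], by linarith [ht.2]⟩)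
    refine h z hz ?_
    rw [e, ez, mul_div_cancel_left₀ _ (by norm_num)]
  exact (isClosed_le (continuous_const.sub hr) continuous_const).closure_subset_iff.2 key hy

/-- the small set together with the level `30` has small components -/
theorem small_Z [T2Space Y] [CompactSpace Y] (CL : CLStmt) {ψ f : Y → ℝ} {A : Set Y} {D : ℝ}
    (hψ : Continuous ψ) (hA : IsClosed A) (hA12 : A ⊆ {p | 12 ≤ ψ p}) (h1 : Small ψ A 11)
    (h2 : Small f A 11) (hD : 11 ≤ D) (h3 : Small f {p | 0 < ψ p ∧ ψ p ≤ 60} D) :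
    Small f (A ∪ {p | ψ p = 30}) D := by
  refine small_of_closed (hA.union (isClosed_eq hψ continuous_const)) fun c hc hcl hpc => ?_
  by_cases h : ∃ p0 ∈ c, ψ p0 = 30
  · obtain ⟨p0, hp0, e0⟩ := h
    refine h3 c (fun p hp => ⟨?_, ?_⟩) hpc
    · rcases hc hp with h | h
      · exact lt_of_lt_of_le (by norm_num) (hA12 h)
      · rw [show ψ p = 30 from h]; norm_num
    · by_contra hn
      obtain ⟨c', hc', hpc', p', hp', q', hq', e1, e2⟩ := CL Y c ψ 31 43 hpc hψ (by norm_num)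
        (hcl.inter ((isClosed_le continuous_const hψ).inter
          (isClosed_le hψ continuous_const))).isCompact
        ⟨p0, hp0, by linarith⟩ ⟨p, hp, by linarith [not_le.1 hn]⟩
      have hsub : c' ⊆ A := fun z hz => by
        rcases hc (hc' hz).1 with h | h
        · exact h
        · have h4 : ψ z = 30 := h
          linarith [(hc' hz).2.1]
      linarith [h1 c' hsub hpc' q' hq' p' hp']
  · have hsub : c ⊆ A := fun z hz => (hc hz).resolve_right fun h4 => h ⟨z, hz, h4⟩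
    exact fun p hp q hq => (h2 c hsub hpc p hp q hq).trans hD

end PieceH

open PieceH in
theorem piece (FG : FGStmt) (Cuts : CutsStmt) (Dist : DistStmt) (Neck : NeckStmt)
    (Tree : TreeStmt) (CL : CLStmt) (Smin : SminStmt) : PieceStmt := by
  intro d ι _ _ X _ _ _ _ _ _ M F hinj hF hd ψ hψ hE
  obtain ⟨zs, hzs, hfg⟩ := FG d ι X M inferInstance
  obtain ⟨κ, _, _, N, F', m, hL, hm, hlift, habs⟩ := Cuts d ι X M F hinj hF hd zs ψ 14 (1 / 20) hzs
    (by norm_num) hψ fun p hp => le_trans (by norm_num) (hE p hp)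
  have hψN := hL.lip hψ
  have cψ : Continuous ψ := hψ.1.continuous
  have cm : Continuous m := hm.1.continuous
  obtain ⟨pd, spd, hpd⟩ := (Smin d κ X N).1 (fun p => ψ p - 14) (fun p => m p - 1)
    (hψN.1.sub (Imm.sm_const _)) (hm.1.sub (Imm.sm_const _))
  have cpd : Continuous pd := spd.continuous
  have hpos : {p | 0 < pd p} ⊆ {p | 0 < ψ p} := fun p hp => by
    have h1 : 0 < pd p := hp
    have h2 := (hpd p).1
    change 0 < ψ p
    linarith
  have lpd : Lip1 N {p | 0 < pd p} pd := ⟨spd, fun p hp => (hpd p).2.2.2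
    (by rw [gam_sub hψN.1]; exact hψN.2 p (hpos hp))
    (by rw [gam_sub hm.1]; exact hm.2 p (mem_univ p))⟩
  set O : Set X := {p | 12 < ψ p} ∩ {p | 0 < m p} with hO
  set K : Set X := {p | 0 ≤ pd p} with hK
  have hKO : K ⊆ O := fun p hp => by
    have h1 : 0 ≤ pd p := hp
    have h2 := (hpd p).1
    have h3 := (hpd p).2.1
    exact ⟨show 12 < ψ p by linarith, show 0 < m p by linarith⟩
  obtain ⟨r, b, sr, hr, hb, hγ⟩ := Dist d κ X N O K
    ((isOpen_lt continuous_const cψ).inter (isOpen_lt continuous_const cm))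
    (isClosed_le continuous_const cpd).isCompact hKO
  have sφ : N.Sm fun q => 2 * Real.sin (r q / 20) :=
    sr.comp (g := fun t : ℝ => 2 * Real.sin (t / 20)) (by fun_prop)
  obtain ⟨u, F'', lo, hi, su, -, -, -, -, -, hu1, hu2, -, -, hsm⟩ :=
    Neck d κ X N F' hL.inj (hL.sm_iff.2 hL.sm) hd (fun q => 2 * Real.sin (r q / 20)) pd (1 / 7) 1 1
      sφ (by norm_num) one_pos lpd fun p hp => ⟨gam_sin sr (hr p (le_of_lt hp)), by
        linarith [hL.E p, hE p (hpos hp)]⟩
  have cu : Continuous u := su.continuous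
  set B : Set X := {p | |u p| ≤ 1} ∩ {p | 12 ≤ pd p} with hB
  have hBc : IsClosed B :=
    (isClosed_le cu.abs continuous_const).inter (isClosed_le continuous_const cpd)
  have hB12 : B ⊆ {p | 12 ≤ ψ p} := fun p hp => by
    have h1 : 12 ≤ pd p := hp.2
    have h2 := (hpd p).1
    change 12 ≤ ψ p
    linarith
  have hA := habs B hBc hB12 fun f hf => hsm f (hf.mono hpos)
  set A : Set X := B ∪ {p | m p ≤ 14} ∩ {p | 12 ≤ ψ p} with hAdef
  have hAc : IsClosed A :=
    hBc.union ((isClosed_le cm continuous_const).inter (isClosed_le continuous_const cψ))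
  have hA12 : A ⊆ {p | 12 ≤ ψ p} := union_subset hB12 inter_subset_right
  refine ⟨A, hAc, hA12, hA, fun f hf D hD hfD => ?_⟩
  have hZ := small_Z CL cψ hAc hA12 (hA ψ hψ) (hA f hf) hD hfD
  set W : Set X := {p | 30 < ψ p} \ A with hW
  have hWo : IsOpen W := (isOpen_lt continuous_const cψ).sdiff hAc
  have hW12 : W ⊆ {p | 12 ≤ pd p} := fun p hp => by
    have h1 : 30 < ψ p := hp.1
    have h2 : 14 < m p := by
      by_contra hn
      exact hp.2 (Or.inr ⟨not_lt.1 hn, show 12 ≤ ψ p by linarith⟩)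
    have h3 := (hpd p).2.2.1
    have h4 : 13 ≤ min (ψ p - 14) (m p - 1) := le_min (by linarith) (by linarith)
    change 12 ≤ pd p
    linarith
  have hWK : closure W ⊆ K := (isClosed_le continuous_const cpd).closure_subset_iff.2
    fun p hp => le_trans (by norm_num) (show 12 ≤ pd p from hW12 hp)
  have hWZ : closure W ⊆ W ∪ (A ∪ {p | ψ p = 30}) := fun p hp => by
    have h1 : 30 ≤ ψ p := (isClosed_le continuous_const cψ).closure_subset_iff.2
      (fun q (hq : q ∈ W) => le_of_lt (show 30 < ψ q from hq.1)) hp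
    by_cases h2 : p ∈ A
    · exact Or.inr (Or.inl h2)
    · rcases h1.eq_or_lt with h3 | h3
      · exact Or.inr (Or.inr h3.symm)
      · exact Or.inl ⟨h3, h2⟩
  have hfN : Lip1 N O f := (hL.lip hf).mono fun p hp =>
    lt_trans (by norm_num) (show 12 < ψ p from hp.1)
  intro c hc hpc x hx x' hx'
  have hcK : c ⊆ K := hc.trans (subset_closure.trans hWK)
  have hcP : c ⊆ connectedComponentIn W x := hpc.subset_connectedComponentIn hx hc
  have hPW : connectedComponentIn W x ⊆ W := connectedComponentIn_subset W x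
  have hPc : IsPreconnected (connectedComponentIn W x) := isPreconnected_connectedComponentIn
  have hosc : ∀ p ∈ connectedComponentIn W x, ∀ y ∈ closure (connectedComponentIn W x),
      r p - r y ≤ 126 := by
    have h1 : ∀ p ∈ W, 1 < |u p| := fun p hp => by
      by_contra hn
      exact hp.2 (Or.inl ⟨not_lt.1 hn, hW12 hp⟩)
    have h2 : connectedComponentIn W x ⊆ {p | 0 < u p} ∪ {p | u p < 0} := fun p hp => by
      have h3 : u p ≠ 0 := fun h0 => by
        have := h1 p (hPW hp)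
        rw [h0, abs_zero] at this
        norm_num at this
      exact h3.lt_or_gt.symm
    rcases hPc.subset_or_subset (isOpen_lt continuous_const cu) (isOpen_lt cu continuous_const)
      (disjoint_left.2 fun p (h3 : 0 < u p) (h4 : u p < 0) => lt_asymm h3 h4) h2 with h3 | h3
    · refine fun p hp y hy => osc (θ := -(Real.pi / 2)) hPc sr.continuous (fun q hq e => ?_) hp hy
      rw [Real.sin_neg, Real.sin_pi_div_two] at e
      have h4 : 0 < u q := h3 hq
      linarith [hu2 q (by rw [e]; norm_num)]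
    · refine fun p hp y hy => osc (θ := Real.pi / 2) hPc sr.continuous (fun q hq e => ?_) hp hy
      rw [Real.sin_pi_div_two] at e
      have h4 : u q < 0 := h3 hq
      linarith [hu1 q (by rw [e]; norm_num)]
  obtain ⟨γ, cγ, e0, e1, hγ1⟩ := hγ x (hcK hx)
  obtain ⟨γ', cγ', e0', e1', hγ2⟩ := hγ x' (hcK hx')
  obtain ⟨s, hs, s', hs', hy, hy', hyy⟩ := Tree d ι X M inferInstance O W (A ∪ {p | ψ p = 30}) hWo
    (hAc.union (isClosed_eq cψ continuous_const)) hWZ (hWK.trans hKO)
    (fun z hz => hfg O z hz fun w hw => (hlift w hw).mono inter_subset_right) x γ γ' cγ cγ'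
    (e0 ▸ hcP hx) (e0' ▸ hcP hx') (by rw [e1, e1', hb c (hcK.trans hKO) hpc x hx x' hx'])
    fun s hs => ⟨(hγ1 s hs).1, (hγ2 s hs).1⟩
  have a1 := abs_le.1 ((hγ1 s hs).2 (hWK (closure_mono hPW hy)) f hfN)
  have a2 := abs_le.1 ((hγ2 s' hs').2 (hWK (closure_mono hPW hy')) f hfN)
  have a3 := hosc x (hcP hx) _ hy
  have a4 := hosc x' (hcP hx') _ hy'
  have a5 : f (γ s) - f (γ' s') ≤ D := by
    rcases hyy with e | ⟨C, hC, hCp, h1, h2⟩
    · rw [e]; linarith
    · exact hZ C hC hCp _ h1 _ h2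
  linarith [a1.2, a2.1]

end Crest.Agent.N228.N3

end
end

-- ▼ part N228/N3/Prof
section

/-!
# Row 228, dimension three: the profile and the smooth minimum (leaf N3-Prof)
-/

set_option autoImplicit false
open MeasureTheory Set Filter Topology Function
open scoped ContDiff

noncomputable section

namespace Crest.Agent.N228.N3
open Crest.Agent.N222

namespace Pf

/-- a smooth odd clamp -/
theorem exists_clamp {e : ℝ} (he : 0 < e) (he1 : e ≤ 1 / 4) : ∃ (k : ℝ → ℝ) (c : ℝ),
    ContDiff ℝ ∞ k ∧ 1 - 2 * e ≤ c ∧ c < 1 ∧ (∀ t, 1 ≤ t → k t = c) ∧ (∀ t, k (-t) = -k t) ∧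
    (∀ t, |k t| ≤ c) ∧ ∀ t, 0 ≤ deriv k t ∧ deriv k t ≤ 1 := by
  set k : ℝ → ℝ := fun s => Nk.prof 0 1 e (1 - 2 * e, s) with hk
  have ks : ContDiff ℝ ∞ k := Nk.contDiff_prof' 0 1 e _
  have kd : Differentiable ℝ k := ks.differentiable (by simp)
  have ko : ∀ t, k (-t) = -k t := Nk.prof_neg 0 1 e _
  have k1 : ∀ t, 0 ≤ deriv k t ∧ deriv k t ≤ 1 := fun t => by
    rw [hk, Nk.deriv_prof]
    have a1 := Real.smoothTransition.nonneg ((t - (1 - 2 * e)) / e)
    have a2 := Real.smoothTransition.nonneg ((-t - (1 - 2 * e)) / e)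
    have a3 := Real.smoothTransition.le_one ((t - (1 - 2 * e)) / e)
    have a4 := Real.smoothTransition.le_one ((-t - (1 - 2 * e)) / e)
    refine ⟨?_, by linarith⟩
    rcases le_total t 0 with h | h
    · have := Real.smoothTransition.zero_of_nonpos (x := (t - (1 - 2 * e)) / e)
        (div_nonpos_of_nonpos_of_nonneg (by linarith) he.le)
      linarith
    · have := Real.smoothTransition.zero_of_nonpos (x := (-t - (1 - 2 * e)) / e)
        (div_nonpos_of_nonpos_of_nonneg (by linarith) he.le)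
      linarith
  have km : Monotone k := monotone_of_deriv_nonneg kd fun t => (k1 t).1
  have ka : AntitoneOn k (Ici (1 - e)) :=
    antitoneOn_of_deriv_nonpos (convex_Ici _) ks.continuous.continuousOn kd.differentiableOn
      fun t ht => by
        have ht' : 1 - e ≤ t := interior_subset ht
        rw [hk, Nk.deriv_prof]
        have a1 := Real.smoothTransition.one_of_one_le (x := (t - (1 - 2 * e)) / e)
          ((one_le_div he).2 (by linarith))
        have a2 := Real.smoothTransition.nonneg ((-t - (1 - 2 * e)) / e)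
        linarith
  have kc : ∀ t, 1 - e ≤ t → k t = k (1 - e) := fun t ht =>
    le_antisymm (ka self_mem_Ici ht ht) (km ht)
  have kv : k (1 - e) = 1 - e - Nk.ramp e e := by
    have h0 : Nk.ramp e (-(1 - e) - (1 - 2 * e)) = 0 := Nk.ramp_eq_zero he (by linarith)
    have h1 : 1 - e - (1 - 2 * e) = e := by ring
    simp only [hk, Nk.prof, h0, h1]
    ring
  have hr := Nk.ramp_mem (x := e) he
  rw [max_eq_left he.le] at hr
  have kle : ∀ t, k t ≤ k (1 - e) := fun t =>
    (km (le_max_left t (1 - e))).trans (kc _ (le_max_right _ _)).le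
  refine ⟨k, k (1 - e), ks, by linarith, by linarith, fun t ht => kc t (by linarith), ko,
    fun t => abs_le.2 ⟨?_, kle t⟩, k1⟩
  linarith [kle (-t), ko t]

theorem hasDerivAt_h {s : ℝ} (hs : 1 - s ^ 2 ≠ 0) :
    HasDerivAt (fun s : ℝ => 6 * s / (1 - s ^ 2)) (6 * (1 + s ^ 2) / (1 - s ^ 2) ^ 2) s := by
  have h := ((hasDerivAt_id' s).const_mul 6).div ((hasDerivAt_pow 2 s).const_sub 1) hs
  refine h.congr_deriv ?_
  congr 1
  norm_num
  ring

end Pf

open Pf

theorem prof : ProfStmt := by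
  intro L
  obtain ⟨e, he, he1, heL⟩ : ∃ e : ℝ, 0 < e ∧ e ≤ 1 / 4 ∧ |L| * (4 * e) ≤ 1 := by
    have h0 : 0 < 4 * (|L| + 1) := by positivity
    refine ⟨1 / (4 * (|L| + 1)), by positivity, ?_, ?_⟩
    · exact one_div_le_one_div_of_le (by norm_num) (by linarith [abs_nonneg L])
    · rw [mul_one_div, ← mul_div_assoc, div_le_one h0]
      linarith
  obtain ⟨k, c, ks, c1, c2, kc, ko, kb, k1⟩ := exists_clamp he he1
  have kd : Differentiable ℝ k := ks.differentiable (by simp)
  have c0 : 1 / 2 ≤ c := by linarith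
  have hp : ∀ t, 0 < 1 - k t ^ 2 := fun t => by
    have := sq_le_sq' (abs_le.1 (kb t)).1 (abs_le.1 (kb t)).2
    nlinarith
  have hc : 0 < 1 - c ^ 2 := by nlinarith
  have hd : ∀ t, HasDerivAt (fun t => 6 * k t / (1 - k t ^ 2))
      (6 * (1 + k t ^ 2) / (1 - k t ^ 2) ^ 2 * deriv k t) t := fun t =>
    (hasDerivAt_h (hp t).ne').comp t (kd t).hasDerivAt
  have hm : Monotone fun t => 6 * k t / (1 - k t ^ 2) :=
    monotone_of_deriv_nonneg (fun t => (hd t).differentiableAt) fun t => by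
      rw [(hd t).deriv]
      exact mul_nonneg (by positivity) (k1 t).1
  have e1 : ∀ t, 1 ≤ t → 6 * k t / (1 - k t ^ 2) = 6 * c / (1 - c ^ 2) := fun t ht => by
    rw [kc t ht]
  have e2 : ∀ t, t ≤ -1 → 6 * k t / (1 - k t ^ 2) = -(6 * c / (1 - c ^ 2)) := fun t ht => by
    have : k t = -c := by linarith [ko t, kc (-t) (by linarith)]
    rw [this]
    ring
  refine ⟨fun t => 6 * k t / (1 - k t ^ 2), 6 * c / (1 - c ^ 2),
    (contDiff_const.mul ks).div (contDiff_const.sub (ks.pow 2)) fun t => (hp t).ne', ?_, e1, e2,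
    fun t => abs_le.2 ⟨?_, ?_⟩, fun t => ?_⟩
  · rw [le_div_iff₀ hc]
    have h1 : 1 - c ^ 2 ≤ 4 * e := by nlinarith
    have h2 : L * (1 - c ^ 2) ≤ |L| * (4 * e) :=
      mul_le_mul (le_abs_self L) h1 hc.le (abs_nonneg L)
    linarith
  · exact (e2 _ (min_le_right t (-1))).ge.trans (hm (min_le_left _ _))
  · exact (hm (le_max_left t 1)).trans (e1 _ (le_max_right _ _)).le
  · have h0 := hp t
    rw [(hd t).deriv, abs_of_nonneg (mul_nonneg (by positivity) (k1 t).1)]
    have h1 : 6 * (1 + k t ^ 2) / (1 - k t ^ 2) ^ 2 * deriv k t ≤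
        6 * (1 + k t ^ 2) / (1 - k t ^ 2) ^ 2 := mul_le_of_le_one_right (by positivity) (k1 t).2
    have h2 : (6 * k t / (1 - k t ^ 2)) ^ 2 + 12 - 2 * (6 * (1 + k t ^ 2) / (1 - k t ^ 2) ^ 2) =
        12 * k t ^ 4 / (1 - k t ^ 2) ^ 2 := by
      field_simp
      ring
    have h3 : 0 ≤ 12 * k t ^ 4 / (1 - k t ^ 2) ^ 2 := by positivity
    linarith

theorem smin : SminStmt := by
  intro d ι _ _ X _ _ _ _ _ M
  refine ⟨fun f g hf hg => ?_, fun f hf => ?_⟩
  · have hS : M.Sm fun p => Real.exp (-f p) + Real.exp (-g p) := hf.neg.exp.add hg.neg.exp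
    have h0 : ∀ p, 0 < Real.exp (-f p) + Real.exp (-g p) := fun p => by positivity
    refine ⟨fun p => -Real.log (Real.exp (-f p) + Real.exp (-g p)),
      (hS.log fun p => (h0 p).ne').neg, fun p => ⟨?_, ?_, ?_, fun h1 h2 => ?_⟩⟩
    · rw [neg_le, Real.le_log_iff_exp_le (h0 p)]
      linarith [Real.exp_pos (-g p)]
    · rw [neg_le, Real.le_log_iff_exp_le (h0 p)]
      linarith [Real.exp_pos (-f p)]
    · rw [le_neg, Real.log_le_iff_le_exp (h0 p), neg_sub, sub_eq_add_neg, Real.exp_add]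
      have a1 := Real.exp_le_exp.2 (neg_le_neg (min_le_left (f p) (g p)))
      have a2 := Real.exp_le_exp.2 (neg_le_neg (min_le_right (f p) (g p)))
      nlinarith [Real.add_one_le_exp 1, Real.exp_pos (-min (f p) (g p))]
    · obtain ⟨w, hw⟩ : ∃ w, w = Real.exp (-f p) / (Real.exp (-f p) + Real.exp (-g p)) := ⟨_, rfl⟩
      have w0 : 0 ≤ w := by rw [hw]; positivity
      have w1 : w ≤ 1 := by
        rw [hw, div_le_one (h0 p)]
        linarith [Real.exp_pos (-g p)]
      have hD : ∀ a, M.pre.D a (fun p => -Real.log (Real.exp (-f p) + Real.exp (-g p))) p =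
          w * M.pre.D a f p + (1 - w) * M.pre.D a g p := fun a => by
        rw [Imm.D_neg, Imm.D_comp (hS.diffAt p) (Real.hasDerivAt_log (h0 p).ne'),
          Imm.D_add (hf.neg.exp.diffAt p) (hg.neg.exp.diffAt p),
          Imm.D_comp (hf.neg.diffAt p) (Real.hasDerivAt_exp _),
          Imm.D_comp (hg.neg.diffAt p) (Real.hasDerivAt_exp _), Imm.D_neg, Imm.D_neg, hw]
        have := (h0 p).ne'
        field_simp
        ring
      calc _ ≤ w * M.pre.gam f f p + (1 - w) * M.pre.gam g g p := by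
            simp only [Imm.gam_apply, hD, Finset.mul_sum, ← Finset.sum_add_distrib]
            refine Finset.sum_le_sum fun a _ => ?_
            nlinarith [mul_nonneg (mul_nonneg w0 (sub_nonneg.2 w1))
              (sq_nonneg (M.pre.D a f p - M.pre.D a g p))]
        _ ≤ 1 := by nlinarith
  · have h0 : ∀ p, 0 < 1 + f p ^ 2 := fun p => by positivity
    have hS : M.Sm fun p => 1 + f p ^ 2 := (Imm.sm_const 1).add (hf.pow 2)
    refine ⟨fun p => √(1 + f p ^ 2) - 1, (hS.sqrt fun p => (h0 p).ne').sub (Imm.sm_const 1),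
      fun p => ⟨?_, ?_, ?_⟩⟩
    · rw [sub_le_iff_le_add]
      refine Real.sqrt_le_iff.2 ⟨by positivity, ?_⟩
      nlinarith [abs_nonneg (f p), sq_abs (f p)]
    · exact sub_le_sub_right (Real.abs_le_sqrt (by linarith)) 1
    · have hd : HasDerivAt (fun s : ℝ => √(1 + s ^ 2) - 1) (f p / √(1 + f p ^ 2)) (f p) := by
        have h := (((hasDerivAt_pow 2 (f p)).const_add 1).sqrt (h0 p).ne').sub_const 1
        refine h.congr_deriv ?_
        have := (Real.sqrt_pos.2 (h0 p)).ne'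
        norm_num
        field_simp
      have h1 : (f p / √(1 + f p ^ 2)) ^ 2 ≤ 1 := by
        rw [div_pow, Real.sq_sqrt (h0 p).le, div_le_one (h0 p)]
        linarith
      simp only [Imm.gam_apply, Imm.D_comp (hf.diffAt p) hd]
      refine Finset.sum_le_sum fun a _ => ?_
      nlinarith [mul_le_mul_of_nonneg_right h1 (sq_nonneg (M.pre.D a f p))]

end Crest.Agent.N228.N3

end
end

-- ▼ part N228/N3/Rad
section

/-!
# Row 228, dimension three: all radial necks at once
-/

set_option autoImplicit false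
set_option linter.unusedSectionVars false
open MeasureTheory Set Filter Topology Function
open scoped ContDiff Convolution NNReal

noncomputable section

namespace Crest.Agent.N228.N3
open Crest.Agent.N222

namespace Rad

/-- mollification of a Lipschitz function on the line -/
theorem moll {F : ℝ → ℝ} {K : ℝ≥0} (hF : LipschitzWith K F) {a : ℝ} (ha : 0 < a) :
    ∃ G : ℝ → ℝ, ContDiff ℝ ∞ G ∧ LipschitzWith K G ∧
      ∀ y, (∀ x ∈ Metric.ball y a, F x = F y) → G y = F y := by
  let φ : ContDiffBump (0 : ℝ) := ⟨a / 2, a, half_pos ha, half_lt_self ha⟩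
  have hc := hF.continuous
  refine ⟨φ.normed volume ⋆[ContinuousLinearMap.lsmul ℝ ℝ, volume] F,
    φ.hasCompactSupport_normed.contDiff_convolution_left _ φ.contDiff_normed hc.locallyIntegrable,
    LipschitzWith.of_dist_le_mul fun x y => ?_, fun y hy => φ.normed_convolution_eq_right hy⟩
  have hi : ∀ z : ℝ, Integrable fun t => φ.normed volume t * F (z - t) := fun z =>
    (φ.continuous_normed.mul (hc.comp (continuous_const.sub
      continuous_id))).integrable_of_hasCompactSupport φ.hasCompactSupport_normed.mul_right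
  simp only [convolution_def, ContinuousLinearMap.lsmul_apply, smul_eq_mul]
  rw [dist_eq_norm, ← integral_sub (hi x) (hi y)]
  refine (norm_integral_le_of_norm_le (φ.integrable_normed.mul_const (K * dist x y))
    (Eventually.of_forall fun t => ?_)).trans ?_
  · rw [← mul_sub, norm_mul, Real.norm_of_nonneg (φ.nonneg_normed t)]
    refine mul_le_mul_of_nonneg_left ?_ (φ.nonneg_normed t)
    have := hF.dist_le_mul (x - t) (y - t)
    rwa [dist_sub_right, dist_eq_norm] at this
  · rw [integral_mul_const, φ.integral_normed, one_mul]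

/-- a slow cut-off around a subset of the line -/
theorem exists_theta (A : Set ℝ) : ∃ Θ : ℝ → ℝ, ContDiff ℝ ∞ Θ ∧ (∀ s, |deriv Θ s| ≤ 1 / 210) ∧
    (∀ s, Metric.infDist s A < 125 → Θ s = 0) ∧ ∀ s, 345 < Metric.infDist s A → Θ s = 1 := by
  have h1 : LipschitzWith (⟨1 / 210, by norm_num⟩ : ℝ≥0)
      fun s => (Metric.infDist s A - 130) / 210 := by
    refine LipschitzWith.of_dist_le_mul fun x y => ?_
    have := (Metric.lipschitz_infDist_pt A).dist_le_mul x y
    rw [Real.dist_eq] at this ⊢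
    rw [← sub_div, sub_sub_sub_cancel_right, abs_div, abs_of_pos (by norm_num : (0 : ℝ) < 210)]
    show _ ≤ 1 / 210 * _
    simp only [NNReal.coe_one, one_mul] at this
    linarith
  obtain ⟨Θ, h2, h3, h4⟩ := moll ((h1.min_const 1).max_const 0) (a := 5) (by norm_num)
  have h5 : ∀ s x, x ∈ Metric.ball s 5 → |Metric.infDist x A - Metric.infDist s A| < 5 :=
    fun s x hx => by
      have := (Metric.lipschitz_infDist_pt A).dist_le_mul x s
      rw [Real.dist_eq, NNReal.coe_one, one_mul] at this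
      exact this.trans_lt hx
  have h0 : ∀ x, Metric.infDist x A ≤ 130 → max (min ((Metric.infDist x A - 130) / 210) 1) 0 = 0 :=
    fun x hx => max_eq_right ((min_le_left _ _).trans (by linarith))
  have h1' : ∀ x, 340 ≤ Metric.infDist x A → max (min ((Metric.infDist x A - 130) / 210) 1) 0 = 1 :=
    fun x hx => by rw [min_eq_right (by linarith), max_eq_left zero_le_one]
  refine ⟨Θ, h2, fun s => norm_deriv_le_of_lipschitz h3, fun s hs => ?_, fun s hs => ?_⟩
  · rw [h4 s fun x hx => ?_, h0 s (by linarith)]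
    rw [h0 s (by linarith), h0 x (by linarith [abs_lt.1 (h5 s x hx)])]
  · rw [h4 s fun x hx => ?_, h1' s (by linarith)]
    rw [h1' s (by linarith), h1' x (by linarith [abs_lt.1 (h5 s x hx)])]

variable {d : ℕ} {ι : Type} [Fintype ι] [DecidableEq ι] {X : Type} [TopologicalSpace X]
  [T2Space X] [SecondCountableTopology X] [MeasurableSpace X] [BorelSpace X] {M : Imm d ι X}

/-- the graph over a region where the function is locally constant -/
theorem formOn_const {U V : X → ℝ} (hU : M.Sm U) (h : M.Form V) {O : Set X}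
    (hO : ∀ p ∈ O, ∃ c, U =ᶠ[𝓝 p] fun _ => c) : Gr.FormOn (M.graph U hU) O V := by
  intro z hz hs
  rw [Imm.graph_mu, Imm.integral_gmu hU]
  refine (h z ⟨hz.sm, hz.cs⟩).trans_eq (integral_congr_ae (.of_forall fun p => ?_))
  show Gr.fd M V z p = _
  by_cases hp : p ∈ tsupport z
  · obtain ⟨c, hc⟩ := hO p (hs hp)
    have hl : Gr.LI (M.graph U hU) (M.pad c) id p := ⟨LinearIsometry.id, 0, hc.mono fun q hq =>
      ⟨continuousAt_id, by
        show up c (M.x q) = up (U q) (M.x q) + 0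
        rw [hq, add_zero]⟩⟩
    have h1 : M.vv U p = 1 := by
      simp [Imm.vv, Imm.gam_congr hc hc, Imm.gam_apply, Imm.D_const]
    have h2 := hl.gam z z
    have h3 := hl.scal
    rw [Imm.pad_gam] at h2
    rw [Imm.pad_scal] at h3
    simp only [id] at h2 h3
    simp only [Gr.fd, h1, h2, h3, inv_one, one_mul]
  · simp only [Gr.fd_zero hp, mul_zero]

/-- translation invariance of `E` of a graph -/
theorem EF_shift {U u F F' : X → ℝ} (hU : M.Sm U) (hu : M.Sm u) (hF : M.Sm F') {p : X} {c : ℝ}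
    (h : U =ᶠ[𝓝 p] fun q => u q + c) (h' : F =ᶠ[𝓝 p] F') :
    (M.graph U hU).pre.EF F p = (M.gS u).EF F' p := by
  have hl : Gr.LI (M.graph U hU) (M.graph u hu) id p := ⟨LinearIsometry.id, up (-c) 0,
    h.mono fun q hq => ⟨continuousAt_id, by
      show up (u q) (M.x q) = up (U q) (M.x q) + up (-c) 0
      rw [hq, up_add]
      simp⟩⟩
  rw [← Imm.graph_pre hu]
  exact hl.EF' hF h'

/-- locally finite sums -/
theorem sm_tsum {ρ : X → ℝ} (hρ : Continuous ρ) {R : ℕ → ℝ} (hR : Monotone R)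
    (hR' : ∀ s, ∃ n, s < R n) {g : ℕ → X → ℝ} (hg : ∀ k, M.Sm (g k))
    (h0 : ∀ k p, ρ p ≤ R k → g k p = 0) : M.Sm fun p => ∑' k, g k p := by
  refine Imm.sm_of_local fun p => ?_
  obtain ⟨n, hn⟩ := hR' (ρ p)
  refine ⟨_, Imm.sm_sum (Finset.range n) fun k _ => hg k, ?_⟩
  filter_upwards [(isOpen_lt hρ continuous_const).mem_nhds hn] with q hq
  exact tsum_eq_sum fun k hk => h0 k q (hq.le.trans (hR (not_lt.1 fun h => hk (Finset.mem_range.2 h))))

end Rad

open Rad in
theorem rad (H : RNeckStmt) : RadStmt := by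
  intro d ι _ _ X _ _ _ _ _ M hd hM hform ρ hρ hρ4 hρc
  choose u' F' lo' hi' h using H d ι X M hd hM hform ρ hρ hρ4 hρc
  have hc := hρ.continuous
  let R : ℕ → ℝ := fun k => 1000 * k
  have hR : ∀ {j k : ℕ}, j < k → R j + 1000 ≤ R k := fun {j k} hjk => by
    have : (j : ℝ) + 1 ≤ k := by exact_mod_cast hjk
    simp only [R]; linarith
  have hRs : ∀ k, R (k + 1) = R k + 1000 := fun k => by simp only [R]; push_cast; ring
  have hRm : Monotone R := monotone_nat_of_le_succ fun k => by rw [hRs]; linarith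
  have hRu : ∀ s : ℝ, ∃ n, s < R n := fun s => by
    obtain ⟨n, hn⟩ := exists_nat_gt (s / 1000)
    exact ⟨n, by simp only [R]; linarith⟩
  let u : ℕ → X → ℝ := fun k => u' (R k)
  let F : ℕ → X → ℝ := fun k => F' (R k)
  let lo : ℕ → ℝ := fun k => lo' (R k)
  let hi : ℕ → ℝ := fun k => hi' (R k)
  have hu : ∀ k, M.Sm (u k) := fun k => (h (R k)).1
  have hF : ∀ k, M.Sm (F k) := fun k => (h (R k)).2.1
  have hlo : ∀ k, lo k < -40 := fun k => (h (R k)).2.2.1
  have hhi : ∀ k, 40 < hi k := fun k => (h (R k)).2.2.2.1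
  have hE : ∀ k p, |ρ p - R k| < 350 → 24 / 25 ≤ (M.gS (u k)).EF (F k) p :=
    fun k => (h (R k)).2.2.2.2.1
  have hF0 : ∀ k p, 400 ≤ |ρ p - R k| → F k p = 0 := fun k => (h (R k)).2.2.2.2.2.1
  have hb : ∀ k p, lo k ≤ u k p ∧ u k p ≤ hi k := fun k => (h (R k)).2.2.2.2.2.2.1
  have huh : ∀ k p, R k + 120 ≤ ρ p → u k p = hi k := fun k => (h (R k)).2.2.2.2.2.2.2.1
  have hul : ∀ k p, ρ p ≤ R k - 120 → u k p = lo k := fun k => (h (R k)).2.2.2.2.2.2.2.2.1
  have hsm : ∀ k f, Lip1 M univ f → Small f {p | |u k p| ≤ 40} 11 :=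
    fun k => (h (R k)).2.2.2.2.2.2.2.2.2
  clear_value u F lo hi
  clear h
  let U : X → ℝ := fun p => ∑' k, (u k p - lo k)
  let G : X → ℝ := fun p => ∑' k, F k p
  let S : ℕ → ℝ := fun k => ∑ j ∈ Finset.range k, (hi j - lo j)
  have hU : M.Sm U := sm_tsum hc (R := fun k => R k - 120) (fun j k hjk => by linarith [hRm hjk])
    (fun s => (hRu (s + 120)).imp fun n hn => by linarith) (fun k => (hu k).sub (Imm.sm_const _))
    fun k p hp => by rw [hul k p hp, sub_self]
  have hG : M.Sm G := sm_tsum hc (R := fun k => R k - 400) (fun j k hjk => by linarith [hRm hjk])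
    (fun s => (hRu (s + 400)).imp fun n hn => by linarith) hF
    fun k p hp => hF0 k p (le_abs.2 (Or.inr (by linarith)))
  have hUn : ∀ n p, ρ p ≤ R n - 120 → U p = ∑ k ∈ Finset.range n, (u k p - lo k) := fun n p hp =>
    tsum_eq_sum fun k hk => by
      rw [hul k p (by linarith [hRm (not_lt.1 fun h => hk (Finset.mem_range.2 h))]), sub_self]
  have hSs : ∀ k, S (k + 1) = S k + (hi k - lo k) := fun k => Finset.sum_range_succ _ _
  have hUk : ∀ k p, |ρ p - R k| < 600 → U p = u k p + (S k - lo k) := fun k p hp => by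
    obtain ⟨h1, h2⟩ := abs_lt.1 hp
    rw [hUn (k + 1) p (by rw [hRs]; linarith), Finset.sum_range_succ,
      Finset.sum_congr rfl fun j hj => by
        rw [huh j p (by linarith [hR (Finset.mem_range.1 hj)])]]
    ring
  have hGk : ∀ k p, |ρ p - R k| < 600 → G p = F k p := fun k p hp => by
    obtain ⟨h1, h2⟩ := abs_lt.1 hp
    refine tsum_eq_single k fun j hj => hF0 j p (le_abs.2 ?_)
    rcases lt_or_gt_of_ne hj with h3 | h3
    · exact Or.inl (by linarith [hR h3])
    · exact Or.inr (by linarith [hR h3])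
  have hle : ∀ k p, ρ p ≤ R k - 120 → U p ≤ S k := fun k p hp => by
    rw [hUn k p hp]
    exact Finset.sum_le_sum fun j _ => by linarith [(hb j p).2]
  have hge' : ∀ k p, ∑ j ∈ Finset.range k, (u j p - lo j) ≤ U p := fun k p => by
    obtain ⟨n, hn⟩ := hRu (ρ p + 120)
    rw [hUn (max n k) p (by linarith [hRm (le_max_left n k)])]
    exact Finset.sum_le_sum_of_subset_of_nonneg (Finset.range_mono (le_max_right n k))
      fun j _ _ => by linarith [(hb j p).1]
  have hge : ∀ k p, R k + 120 ≤ ρ p → S (k + 1) ≤ U p := fun k p hp => by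
    refine le_trans (le_of_eq (Finset.sum_congr rfl fun j hj => ?_)) (hge' (k + 1) p)
    rw [huh j p (by linarith [hRm (Nat.lt_succ_iff.1 (Finset.mem_range.1 hj))])]
  have hU0 : ∀ p, 0 ≤ U p := fun p => by simpa using hge' 0 p
  have hS : ∀ k : ℕ, 80 * (k : ℝ) ≤ S k := fun k => by
    induction k with
    | zero => simp [S]
    | succ k ih => rw [hSs]; push_cast; linarith [hlo k, hhi k]
  refine ⟨U, hU, fun k => Nat.casesOn k (-41) fun k => S k - lo k, ?_, fun c => ?_,
    fun p => ?_, fun k => ?_, fun k f hf => ?_⟩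
  · -- the form
    obtain ⟨Θ, hΘ, hΘ', hΘ0, hΘ1⟩ := exists_theta (range R)
    have hD : Continuous fun p => Metric.infDist (ρ p) (range R) :=
      (Metric.continuous_infDist_pt _).comp hc
    have hθ : M.Sm fun p => Θ (ρ p) := hρ.comp hΘ
    have h1 : Gr.FormOn (M.graph U hU) {p | Metric.infDist (ρ p) (range R) < 350}
        fun _ => 24 / 25 := by
      refine Gr.formOn_of_EF (F := G) hG continuous_const fun p hp => ?_
      obtain ⟨_, ⟨k, rfl⟩, hk⟩ := (Metric.infDist_lt_iff (range_nonempty R)).1 hp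
      rw [Real.dist_eq] at hk
      have h2 : ∀ᶠ q in 𝓝 p, |ρ q - R k| < 600 :=
        (isOpen_lt (hc.sub continuous_const).abs continuous_const).mem_nhds
          (show |ρ p - R k| < 600 by linarith)
      rw [EF_shift hU (hu k) (hF k) (h2.mono (hUk k)) (h2.mono (hGk k))]
      exact hE k p hk
    have h2 : Gr.FormOn (M.graph U hU) {p | 120 < Metric.infDist (ρ p) (range R)} fun _ => 1 := by
      refine formOn_const hU hform fun p hp => ?_
      obtain ⟨n, hn⟩ := hRu (ρ p + 120)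
      have h3 : ∀ k, ∀ᶠ q in 𝓝 p, u k q = u k p := fun k => by
        have h4 : 120 < |ρ p - R k| :=
          lt_of_lt_of_le hp (Metric.infDist_le_dist_of_mem (mem_range_self k))
        rcases lt_abs.1 h4 with h5 | h5
        · filter_upwards [(isOpen_lt continuous_const hc).mem_nhds
            (show R k + 120 < ρ p by linarith)] with q hq
          rw [huh k q (le_of_lt hq), huh k p (by linarith)]
        · filter_upwards [(isOpen_lt hc continuous_const).mem_nhds
            (show ρ p < R k - 120 by linarith)] with q hq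
          rw [hul k q (le_of_lt hq), hul k p (by linarith)]
      refine ⟨∑ k ∈ Finset.range n, (u k p - lo k), ?_⟩
      filter_upwards [(isOpen_lt hc continuous_const).mem_nhds (show ρ p < R n - 120 by linarith),
        (eventually_all_finset (Finset.range n)).2 fun k _ => h3 k] with q hq hq'
      rw [hUn n q (le_of_lt hq)]
      exact Finset.sum_congr rfl fun k hk => by rw [hq' k hk]
    have s1 : tsupport (fun p => 1 - Θ (ρ p)) ⊆ {p | Metric.infDist (ρ p) (range R) < 350} := by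
      refine (closure_minimal (t := {p | Metric.infDist (ρ p) (range R) ≤ 345}) (fun p hp => ?_)
        (isClosed_le hD continuous_const)).trans fun p hp => ?_
      · by_contra h
        exact hp (by simp only [hΘ1 _ (not_le.1 h), sub_self])
      · exact lt_of_le_of_lt (b := (345 : ℝ)) hp (by norm_num : (345 : ℝ) < 350)
    have s2 : tsupport (fun p => Θ (ρ p)) ⊆ {p | 120 < Metric.infDist (ρ p) (range R)} := by
      refine (closure_minimal (t := {p | 125 ≤ Metric.infDist (ρ p) (range R)}) (fun p hp => ?_)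
        (isClosed_le continuous_const hD)).trans fun p hp => ?_
      · by_contra h
        exact hp (hΘ0 _ (not_le.1 h))
      · exact lt_of_lt_of_le (by norm_num : (120 : ℝ) < 125) hp
    have h3 := Gr.ims_cut (M := M.graph U hU) (θ := fun p => Θ (ρ p)) hθ h1 h2 s1 s2
      continuous_const continuous_const
    have hθc := hθ.continuous
    have hgc : Continuous ((M.graph U hU).pre.gam (fun p => Θ (ρ p)) fun p => Θ (ρ p)) :=
      (Imm.Sm.gam (M := M.graph U hU) hθ hθ).continuous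
    refine Gr.formOn_univ.1 ((Gr.formOn_of_form h3 univ).mono subset_rfl (by fun_prop)
      continuous_const fun p _ => ?_)
    have h4 : (M.graph U hU).pre.gam (fun p => Θ (ρ p)) (fun p => Θ (ρ p)) p ≤
        (1 / 210) ^ 2 * 4 := by
      rw [Imm.graph_pre]
      refine (M.gS_gam_le U _ p).trans ?_
      have h5 : M.pre.gam (fun p => Θ (ρ p)) (fun p => Θ (ρ p)) p =
          deriv Θ (ρ p) ^ 2 * M.pre.gam ρ ρ p := by
        simp only [Imm.gam_apply, Imm.D_comp (hρ.diffAt p)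
          (hΘ.differentiable (by simp) (ρ p)).hasDerivAt, Finset.mul_sum]
        exact Finset.sum_congr rfl fun _ _ => by ring
      rw [h5, ← sq_abs]
      exact mul_le_mul (pow_le_pow_left₀ (abs_nonneg _) (hΘ' _) 2) (hρ4 p)
        (Imm.gam_self_nonneg ρ p) (by positivity)
    have h6 : Real.pi ^ 2 ≤ 4 ^ 2 := pow_le_pow_left₀ Real.pi_pos.le Real.pi_le_four 2
    have h7 := mul_le_mul h6 h4 (Imm.gam_self_nonneg _ p) (by positivity)
    have h8 := Real.cos_sq_add_sin_sq (Real.pi / 2 * Θ (ρ p))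
    have h9 := sq_nonneg (Real.sin (Real.pi / 2 * Θ (ρ p)))
    linarith
  · obtain ⟨k, hk⟩ := exists_nat_gt (c / 80)
    refine (hρc (R k + 120)).of_isClosed_subset (isClosed_le hU.continuous continuous_const)
      fun p (hp : U p ≤ c) => ?_
    by_contra h
    have h1 := hge k p (not_le.1 h).le
    have h2 := hS (k + 1)
    push_cast at h2
    linarith
  · show (-41 : ℝ) + 40 < U p
    linarith [hU0 p]
  · cases k with
    | zero =>
      show (-41 : ℝ) + 80 ≤ S 0 - lo 0
      have := hS 0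
      simp only [Nat.cast_zero, mul_zero] at this
      linarith [hlo 0]
    | succ k =>
      show S k - lo k + 80 ≤ S (k + 1) - lo (k + 1)
      rw [hSs]
      linarith [hhi k, hlo (k + 1)]
  · cases k with
    | zero =>
      intro c hc' _ p hp
      have h1 : |U p - -41| ≤ 40 := hc' hp
      linarith [hU0 p, (abs_le.1 h1).2]
    | succ k =>
      refine (hsm k f hf).mono (fun p (hp : |U p - (S k - lo k)| ≤ 40) => ?_) le_rfl
      obtain ⟨h1, h2⟩ := abs_le.1 hp
      have h3 : R k - 120 < ρ p := not_le.1 fun h => by linarith [hle k p h, hlo k]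
      have h4 : ρ p < R k + 120 := not_le.1 fun h => by linarith [hge k p h, hSs k, hhi k]
      rw [hUk k p (abs_lt.2 ⟨by linarith, by linarith⟩), add_sub_cancel_right] at hp
      exact hp

end Crest.Agent.N228.N3

end
end

-- ▼ part N228/N3/Dist
section

/-!
# Row 228, dimension three (helper55): `dist : DistStmt`
-/

set_option autoImplicit false
set_option linter.unusedSectionVars false
open Set Filter Topology Function

noncomputable section

namespace Crest.Agent.N228.N3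
open Crest.Agent.N222 Crest.Agent.N228.Ln

variable {n : ℕ} {ι : Type} [Fintype ι] {X : Type} [TopologicalSpace X] {M : Imm n ι X}

/-- a gradient bound along a curve of speed at most one -/
theorem curve_lip {γ : ℝ → X} (hγ : Continuous γ) {T c : ℝ} (hT : 0 ≤ T) (hc : 0 ≤ c)
    (h : ∀ s t, 0 ≤ s → s ≤ t → t ≤ T → ‖M.x (γ s) - M.x (γ t)‖ ≤ t - s) {f : X → ℝ} (hf : M.Sm f)
    (hd : ∀ t ∈ Icc 0 T, ‖M.td f (γ t)‖ ≤ c) : |f (γ 0) - f (γ T)| ≤ c * T := by
  refine le_of_forall_gt_mul fun c' hc' => ?_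
  have h3 : Continuous fun t => |f (γ 0) - f (γ t)| :=
    (continuous_const.sub (hf.continuous.comp hγ)).abs
  have h4 : Icc 0 T ⊆ {t | |f (γ 0) - f (γ t)| ≤ c' * t} := by
    refine IsClosed.Icc_subset_of_forall_mem_nhdsWithin
      ((isClosed_le h3 (by fun_prop)).inter isClosed_Icc) (by simp) fun t ht => ?_
    filter_upwards [mem_nhdsWithin_of_mem_nhds (hγ.continuousAt.eventually (lip_pt (hf.diffAt _)
      ((hd t (Ico_subset_Icc_self ht.2)).trans_lt hc'))), Ioo_mem_nhdsGT ht.2.2] with s hs hs'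
    have a1 := mul_le_mul_of_nonneg_left (h t s ht.2.1 hs'.1.le hs'.2.le) (hc.trans hc'.le)
    have a2 : |f (γ 0) - f (γ t)| ≤ c' * t := ht.1
    rw [norm_sub_rev, norm_sub_rev (M.x _), Real.norm_eq_abs] at hs
    change |_| ≤ _
    linarith [abs_sub_le (f (γ 0)) (f (γ t)) (f (γ s))]
  exact h4 ⟨hT, le_rfl⟩

theorem jn_of_comp (M : Imm n ι X) {p q : X} (h : q ∈ connectedComponent p) : ∃ T, Jn M p q T := by
  have h1 : IsClopen {q | ∃ T, Jn M p q T} := by
    refine ⟨⟨isOpen_iff_mem_nhds.2 fun q hq => ?_⟩, isOpen_iff_mem_nhds.2 fun q hq => ?_⟩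
    · obtain ⟨U, hU, H⟩ := loc_jn M q one_pos
      filter_upwards [hU] with q' hq' ⟨T, h⟩
      exact hq ⟨_, h.trans (H q' hq' q (mem_of_mem_nhds hU))⟩
    · obtain ⟨U, hU, H⟩ := loc_jn M q one_pos
      obtain ⟨T, h⟩ := hq
      filter_upwards [hU] with q' hq'
      exact ⟨_, h.trans (H q (mem_of_mem_nhds hU) q' hq')⟩
  exact h1.connectedComponent_subset ⟨0, Jn.refl p⟩ h

/-- a base point in every component -/
def base (p : X) : X := surjInv ConnectedComponents.surjective_coe (p : ConnectedComponents X)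

theorem base_mem (p : X) : base p ∈ connectedComponent p :=
  ConnectedComponents.coe_eq_coe'.1 (surjInv_eq _ _)

theorem base_eq {c : Set X} (hc : IsPreconnected c) {p q : X} (hp : p ∈ c) (hq : q ∈ c) :
    base p = base q := by
  rw [base, ConnectedComponents.coe_eq_coe'.2 (hc.subset_connectedComponent hq hp)]
  rfl

theorem base_jn {p q : X} {T : ℝ} (h : Jn M p q T) : base p = base q := by
  obtain ⟨-, γ, hγ, rfl, rfl, -⟩ := h
  exact base_eq (isPreconnected_range hγ) ⟨_, rfl⟩ ⟨_, rfl⟩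

theorem ld_base_le {p q : X} {T : ℝ} (h : Jn M p q T) :
    ld M p (base p) ≤ ld M q (base q) + T := by
  rw [← sub_le_iff_le_add]
  refine le_csInf (jn_of_comp M (base_mem q)) fun T' hT' => ?_
  have := (h.trans hT').ld_le
  rw [base_jn h]
  linarith

theorem dist : DistStmt := by
  classical
  intro d ι _ _ X _ _ _ _ _ M O K hO hK hKO
  set N := M.opens O hO
  set ρ : X → ℝ := fun p => if h : p ∈ O then ld N ⟨p, h⟩ (base ⟨p, h⟩) else 0 with hρ
  have e1 : ∀ p : O, ρ p = ld N p (base p) := fun p => dif_pos p.2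
  obtain ⟨r, h1, h2⟩ := glue_on (M := M) (f := ρ) (c := fun _ => 1 + 1 / 10) (η := fun _ => 1 / 4) K
    continuous_const (fun _ => by norm_num) fun p => by
      by_cases hp : p ∈ K
      · obtain ⟨U, hU, H⟩ := loc_jn N ⟨p, hKO hp⟩ (ε := 1 / 10) (by norm_num)
        refine ⟨_, hO.isOpenEmbedding_subtypeVal.isOpenMap.image_mem_nhds hU, fun δ hδ => ?_⟩
        obtain ⟨g, a1, a2, a3⟩ := app_chord (M := M) (f := ρ) (N := Subtype.val '' U)
          (K := 1 + 1 / 10) (by norm_num) (by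
            rintro _ ⟨q, hq, rfl⟩ _ ⟨q', hq', rfl⟩
            have b1 := ld_base_le (H q hq q' hq')
            have b2 := ld_base_le (H q hq q' hq').symm
            rw [e1, e1, abs_le]
            exact ⟨by change -((1 + 1 / 10) * ‖N.x q - N.x q'‖) ≤ _; linarith,
              by change _ ≤ (1 + 1 / 10) * ‖N.x q - N.x q'‖; linarith⟩) hδ
        exact ⟨g, a1, fun q hq _ => ⟨a2 q hq, a3 q⟩⟩
      · exact ⟨Kᶜ, hK.isClosed.isOpen_compl.mem_nhds hp, fun _ _ =>
          ⟨fun _ => 0, Imm.sm_const 0, fun q hq hq' => absurd hq' hq⟩⟩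
  refine ⟨r, fun p => if h : p ∈ O then (base (⟨p, h⟩ : O)).1 else p, h1, fun p hp => ?_,
    fun c hc hcc p hp q hq => ?_, fun x hx => ?_⟩
  · exact ((norm_td_le (by norm_num)).1 (h2 p hp).2).trans (by norm_num)
  · simp only [dif_pos (hc hp), dif_pos (hc hq)]
    refine congrArg Subtype.val (base_eq (c := Subtype.val ⁻¹' c) (p := ⟨p, hc hp⟩)
      (q := ⟨q, hc hq⟩) ?_ hp hq)
    rwa [← IsInducing.subtypeVal.isPreconnected_image, Subtype.image_preimage_coe,
      inter_eq_right.2 hc]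
  · set y : O := ⟨x, hKO hx⟩
    obtain ⟨T, ⟨hT, γ, hγ, g0, g1, H⟩, hT'⟩ := exists_lt_of_csInf_lt (jn_of_comp N (base_mem y))
      (lt_add_of_pos_right (ld N y (base y)) (show (0 : ℝ) < 1 / 4 by norm_num))
    refine ⟨fun s => γ (T * s), continuous_subtype_val.comp (hγ.comp (by fun_prop)), by simp [g0, y],
      by simp only [mul_one, g1, dif_pos (hKO hx), y], fun s hs => ⟨(γ _).2, fun hs' f hf => ?_⟩⟩
    have a0 := mul_nonneg hT hs.1
    have a1 := mul_le_of_le_one_right hT hs.2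
    have a2 : |f (γ 0) - f (γ (T * s))| ≤ 1 * (T * s) :=
      curve_lip (M := M) (γ := fun t => γ t) (continuous_subtype_val.comp hγ) a0 zero_le_one
        (fun a b ha hab hb => H a b ha hab (hb.trans a1)) hf.1 fun t _ =>
          (norm_td_le zero_le_one).2 ((hf.2 _ (γ t).2).trans_eq (one_pow 2).symm)
    have a3 : Jn N (γ (T * s)) (base y) (T - T * s) :=
      ⟨by linarith, fun u => γ (T * s + u), hγ.comp (by fun_prop), by simp, by simpa,
        fun a b ha hab hb => (H _ _ (by linarith) (by linarith) (by linarith)).trans (by linarith)⟩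
    have a4 : base (γ (T * s)) = base y := by
      rw [← g0]; exact base_eq (isPreconnected_range hγ) ⟨_, rfl⟩ ⟨_, rfl⟩
    have a5 := a3.ld_le
    rw [← a4, ← e1] at a5
    have a6 := abs_le.1 (h2 x hx).1
    have a7 := abs_le.1 (h2 _ hs').1
    rw [g0] at a2
    rw [← e1] at hT'
    change |f x - _| ≤ _ at a2
    change T < ρ x + _ at hT'
    linarith [a6.1, a7.2]

end Crest.Agent.N228.N3

end
end

-- ▼ part N228/N3/RNeck
section

/-!
# Row 228, dimension three: one radial neck (helper25)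
-/

set_option autoImplicit false
set_option linter.unusedSectionVars false
open MeasureTheory Set Filter Topology Function
open scoped ContDiff

noncomputable section

namespace Crest.Agent.N228.N3
open Crest.Agent.N222 Crest.Agent.N222.Imm Crest.Agent.N228.Gr

namespace RN

/-- insertion of a zero coordinate -/
def ins (ι : Type) [Fintype ι] : E ι →ₗᵢ[ℝ] E (Option ι) where
  toFun y := up 0 y
  map_add' _ _ := by ext c; cases c <;> simp
  map_smul' _ _ := by ext c; cases c <;> simp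
  norm_map' y := by
    classical
    refine (sq_eq_sq₀ (norm_nonneg _) (norm_nonneg _)).1 ?_
    change ‖up 0 y‖ ^ 2 = _
    rw [norm_sq_up]; ring

/-- insertion of a zero coordinate at the second place -/
def ins2 (ι : Type) [Fintype ι] : E (Option ι) →ₗᵢ[ℝ] E (Option (Option ι)) where
  toFun w := up (w none) (up 0 (down w))
  map_add' _ _ := by
    ext c
    rcases c with _ | _ | c <;> simp
  map_smul' _ _ := by
    ext c
    rcases c with _ | _ | c <;> simp
  norm_map' w := by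
    classical
    refine (sq_eq_sq₀ (norm_nonneg _) (norm_nonneg _)).1 ?_
    change ‖up (w none) (up 0 (down w))‖ ^ 2 = _
    rw [norm_sq_up, norm_sq_up]
    conv_rhs => rw [← up_down w, norm_sq_up]
    ring

variable {d : ℕ} {ι : Type} [Fintype ι] [DecidableEq ι] {X Y : Type} [TopologicalSpace X]
  [TopologicalSpace Y] {M : Imm d ι X} {N : Imm d (Option ι) Y} {e : OpenPartialHomeomorph X Y}
  {c : ℝ}

theorem ins_add (c : ℝ) (y : E ι) : ins ι y + up c 0 = up c y := by
  change up 0 y + up c 0 = _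
  rw [up_add, zero_add, add_zero]

theorem li (hx : ∀ p ∈ e.source, N.x (e p) = up c (M.x p)) {p : X} (hp : p ∈ e.source) :
    LI M N e p := by
  refine ⟨ins ι, up c 0, ?_⟩
  filter_upwards [e.open_source.mem_nhds hp] with q hq
  exact ⟨e.continuousAt hq, by rw [hx q hq, ins_add]⟩

theorem li_graph (hx : ∀ p ∈ e.source, N.x (e p) = up c (M.x p)) {p : X} (hp : p ∈ e.source)
    {u : X → ℝ} {v : Y → ℝ} (hu : M.Sm u) (hv : N.Sm v) (h : u =ᶠ[𝓝 p] fun q => v (e q)) :
    LI (M.graph u hu) (N.graph v hv) e p := by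
  refine ⟨ins2 ι, up 0 (up c 0), ?_⟩
  filter_upwards [e.open_source.mem_nhds hp, h] with q hq h1
  refine ⟨e.continuousAt hq, ?_⟩
  change up (v (e q)) (N.x (e q)) = up (u q) (up 0 (down (up (u q) (M.x q)))) + _
  rw [hx q hq, ← h1, down_up, up_add, up_add, add_zero, zero_add, add_zero]

theorem sm_push [T2Space Y] (hx : ∀ p ∈ e.source, N.x (e p) = up c (M.x p)) {χ f : X → ℝ}
    (hχ : M.Tst χ) (hs : tsupport χ ⊆ e.source) (hf : M.Sm f) :
    N.Sm (push e fun p => χ p * f p) :=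
  (Tst.push (M := amap M (ins ι) (up c 0)) (fun p hp => (hx p hp).trans (ins_add c _).symm)
    ⟨hχ.sm.mul hf, hχ.cs.mul_right⟩ (tsupport_mul_subset_left.trans hs)).sm

theorem gam_comp {ρ : X → ℝ} (hρ : M.Sm ρ) {g : ℝ → ℝ} {g' : ℝ} {p : X}
    (hg : HasDerivAt g g' (ρ p)) :
    M.pre.gam (fun q => g (ρ q)) (fun q => g (ρ q)) p = g' ^ 2 * M.pre.gam ρ ρ p := by
  simp only [gam_apply, D_comp (hρ.diffAt p) hg, Finset.mul_sum]
  exact Finset.sum_congr rfl fun a _ => by ring

/-- the profile of the controlled region -/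
def pr (R s : ℝ) : ℝ := 100 - √(1 + ((s - R) / 2) ^ 2)

theorem pr_sm (R : ℝ) : ContDiff ℝ ∞ (pr R) := by
  unfold pr
  refine contDiff_const.sub (ContDiff.sqrt (by fun_prop) fun s => ?_)
  positivity

theorem pr_deriv (R s : ℝ) : ∃ g', HasDerivAt (pr R) g' s ∧ g' ^ 2 ≤ 1 / 4 := by
  have h0 : 0 < 1 + ((s - R) / 2) ^ 2 := by positivity
  have h1 : HasDerivAt (fun s => 1 + ((s - R) / 2) ^ 2) ((s - R) / 2) s := by
    have := ((((hasDerivAt_id s).sub_const R).div_const 2).pow 2).const_add 1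
    refine this.congr_deriv ?_
    simp
    ring
  refine ⟨_, (h1.sqrt h0.ne').const_sub 100, ?_⟩
  rw [neg_sq, div_pow, mul_pow, Real.sq_sqrt h0.le, div_le_iff₀ (by positivity)]
  nlinarith

theorem pr_pos {R s : ℝ} (h : 0 < pr R s) : |s - R| ≤ 400 := by
  have h1 : √(1 + ((s - R) / 2) ^ 2) < 100 := by unfold pr at h; linarith
  rw [Real.sqrt_lt' (by norm_num)] at h1
  exact abs_le.2 ⟨by nlinarith, by nlinarith⟩

theorem pr_ge {R s : ℝ} (h : |s - R| ≤ 80) : 12 ≤ pr R s := by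
  have h1 : √(1 + ((s - R) / 2) ^ 2) ≤ 88 := by
    rw [Real.sqrt_le_left (by norm_num)]
    have := abs_le.1 h
    nlinarith
  unfold pr
  linarith

end RN

open RN in
theorem rneck (hC : CloseInjStmt) (hN : NeckStmt) : RNeckStmt := by
  intro d ι _ _ X _ _ _ _ _ M hd hinj hF ρ hρ hg hc R
  have hρc := hρ.continuous
  have hab : Continuous fun p => |ρ p - R| := by fun_prop
  have hK : ∀ r : ℝ, IsCompact {p | |ρ p - R| ≤ r} := fun r =>
    (hc (R + r)).of_isClosed_subset (isClosed_le hab continuous_const) fun p hp => by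
      have := (abs_le.1 (show |ρ p - R| ≤ r from hp)).2
      change ρ p ≤ R + r
      linarith
  obtain ⟨Y, _, _, _, _, _, _, N, e, c, FY, hNi, hKe, hx, hFY, hE⟩ :=
    hC d ι X M hinj (fun _ => 1) _ (1 / 200) continuous_const hF (hK 400) (by norm_num)
  obtain ⟨χ, hχ, hχs, hχ01, hχ1⟩ := M.exists_bump (hK 400) e.open_source hKe
  have hev : ∀ (f : X → ℝ) p, |ρ p - R| ≤ 400 →
      f =ᶠ[𝓝 p] fun q => push e (fun p => χ p * f p) (e q) := by
    intro f p hp
    filter_upwards [e.open_source.mem_nhds (hKe hp), eventually_nhdsSet_iff_forall.1 hχ1 p hp]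
      with q h1 h2
    rw [push_apply _ h1, h2, one_mul]
  have hval : ∀ (f : X → ℝ) p, |ρ p - R| ≤ 400 → push e (fun p => χ p * f p) (e p) = f p :=
    fun f p hp => (hev f p hp).self_of_nhds.symm
  have hgam : ∀ (f : X → ℝ) p, |ρ p - R| ≤ 400 →
      N.pre.gam (push e fun p => χ p * f p) (push e fun p => χ p * f p) (e p) = M.pre.gam f f p :=
    fun f p hp => ((li hx (hKe hp)).gam' (hev f p hp) (hev f p hp)).symm
  set φ : Y → ℝ := push e fun p => χ p * ((ρ p - R) / 40) with hφ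
  set ψ : Y → ℝ := push e fun p => χ p * pr R (ρ p) with hψ
  have hpos : ∀ y, 0 < ψ y → ∃ p, |ρ p - R| ≤ 400 ∧ y = e p := by
    intro y hy
    by_cases h : y ∈ e.target
    · refine ⟨e.symm y, pr_pos ?_, (e.right_inv h).symm⟩
      rw [hψ, push, indicator_of_mem h] at hy
      exact lt_of_not_ge fun h' =>
        absurd hy (not_lt.2 (mul_nonpos_of_nonneg_of_nonpos (hχ01 _).1 h'))
    · rw [hψ, push, indicator_of_notMem h] at hy
      exact absurd hy (lt_irrefl _)
  have hφg : ∀ p, |ρ p - R| ≤ 400 → N.pre.gam φ φ (e p) ≤ (1 / 20) ^ 2 := by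
    intro p hp
    rw [hφ, hgam _ p hp, gam_comp hρ (g := fun s => (s - R) / 40)
      (((hasDerivAt_id _).sub_const R).div_const 40)]
    nlinarith [hg p]
  have hlip : ∀ f, Lip1 M univ f → Lip1 N {y | 0 < ψ y} (push e fun p => χ p * f p) := by
    intro f hf
    refine ⟨sm_push hx hχ hχs hf.1, fun y hy => ?_⟩
    obtain ⟨p, hp, rfl⟩ := hpos y hy
    rw [hgam f p hp]
    exact hf.2 p trivial
  have hψl : Lip1 M univ fun p => pr R (ρ p) := by
    refine ⟨hρ.comp (pr_sm R), fun p _ => ?_⟩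
    obtain ⟨g', h1, h2⟩ := pr_deriv R (ρ p)
    rw [gam_comp hρ h1]
    nlinarith [hg p, gam_self_nonneg (M := M) ρ p, sq_nonneg g']
  obtain ⟨v, F', lo, hi, hv, hF', hlo, hhi, hEF, hb, h2, h2', h3, h3', hsm⟩ :=
    hN d (Option ι) Y N FY hNi hFY hd φ ψ (1 / 20) 40 (1 / 200)
      (sm_push hx hχ hχs ((hρ.sub (sm_const R)).div (sm_const 40) fun _ => by norm_num))
      (by norm_num) (by norm_num) (hlip _ hψl) (by
        intro y hy
        obtain ⟨p, hp, rfl⟩ := hpos y hy
        exact ⟨hφg p hp, by linarith [hE p (hKe hp)]⟩)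
  have hφv : ∀ p, |ρ p - R| ≤ 400 → φ (e p) = (ρ p - R) / 40 := fun p hp => hval _ p hp
  classical
  set u : X → ℝ := fun p => if |ρ p - R| < 390 then v (e p) else if R < ρ p then hi else lo with hu
  have hu0 : ∀ p, |ρ p - R| < 390 → u p = v (e p) := fun p hp => if_pos hp
  have hu1 : ∀ p, R + 120 ≤ ρ p → u p = hi := by
    intro p hp
    by_cases h : |ρ p - R| < 390
    · rw [hu0 p h]
      refine h3 _ ?_
      rw [hφv p (by linarith)]
      linarith
    · simp only [hu, if_neg h]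
      exact if_pos (by linarith)
  have hu2 : ∀ p, ρ p ≤ R - 120 → u p = lo := by
    intro p hp
    by_cases h : |ρ p - R| < 390
    · rw [hu0 p h]
      refine h3' _ ?_
      rw [hφv p (by linarith)]
      linarith
    · simp only [hu, if_neg h]
      exact if_neg (by linarith)
  have huv : ∀ p, |ρ p - R| < 390 → u =ᶠ[𝓝 p] fun q => v (e q) := fun p hp => by
    filter_upwards [(isOpen_lt hab continuous_const).mem_nhds hp] with q hq
    exact hu0 q hq
  have hus : M.Sm u := by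
    refine SmOn.sm fun p _ => ?_
    by_cases h : |ρ p - R| < 390
    · exact ((li hx (hKe (show |ρ p - R| ≤ 400 by linarith))).contDiffAt hv).congr_of_eventuallyEq
        (symm_eventuallyEq (M.mem p) (huv p h))
    · rcases le_abs.1 (not_lt.1 h) with h | h
      · have h4 : u =ᶠ[𝓝 p] fun _ => hi := by
          filter_upwards [(isOpen_lt continuous_const hρc).mem_nhds
            (show R + 120 < ρ p by linarith)] with q hq
          exact hu1 q (le_of_lt hq)
        exact (contDiffAt_const (c := hi)).congr_of_eventuallyEq (symm_eventuallyEq (M.mem p) h4)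
      · have h4 : u =ᶠ[𝓝 p] fun _ => lo := by
          filter_upwards [(isOpen_lt hρc continuous_const).mem_nhds
            (show ρ p < R - 120 by linarith)] with q hq
          exact hu2 q (le_of_lt hq)
        exact (contDiffAt_const (c := lo)).congr_of_eventuallyEq (symm_eventuallyEq (M.mem p) h4)
  obtain ⟨χ', hχ', hχs', -, hχ1'⟩ := M.exists_bump (hK 360) (isOpen_lt hab (continuous_const (y := (400 : ℝ))))
    fun p hp => by
      have : |ρ p - R| ≤ 360 := hp
      change |ρ p - R| < 400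
      linarith
  refine ⟨u, fun p => χ' p * F' (e p), lo, hi, hus, ?_, hlo, hhi, ?_, ?_, ?_, hu1, hu2, ?_⟩
  · exact SmOn.smul_sm (f := fun p => F' (e p)) (U := e.source)
      (fun p hp => (li hx hp).contDiffAt hF') hχ'.sm
      (hχs'.trans fun p hp => hKe (show |ρ p - R| ≤ 400 from le_of_lt hp))
  · intro p hp
    have h400 : |ρ p - R| ≤ 400 := by linarith
    have h5 : (fun p => χ' p * F' (e p)) =ᶠ[𝓝 p] fun q => F' (e q) := by
      filter_upwards [eventually_nhdsSet_iff_forall.1 hχ1' p (show |ρ p - R| ≤ 360 by linarith)]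
        with q hq
      rw [hq, one_mul]
    have h6 := (li_graph hx (hKe h400) hus hv (huv p (by linarith))).EF' (F' := F') hF' h5
    rw [graph_pre, graph_pre] at h6
    rw [h6]
    linarith [hEF _ (hφg p h400), hE p (hKe h400)]
  · intro p hp
    have : p ∉ tsupport χ' := fun h => absurd (hχs' h) (not_lt.2 hp)
    simp only [image_eq_zero_of_notMem_tsupport this, zero_mul]
  · intro p
    simp only [hu]
    split_ifs
    · exact hb _
    · exact ⟨by linarith, le_rfl⟩
    · exact ⟨le_rfl, by linarith⟩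
  · intro f hf s hs hsc p hp q hq
    have h80 : ∀ p ∈ s, |ρ p - R| ≤ 80 := by
      intro p hp
      have h7 : |u p| ≤ 40 := hs hp
      obtain ⟨h8, h9⟩ := abs_le.1 h7
      by_cases h : |ρ p - R| < 390
      · rw [hu0 p h] at h8 h9
        have h10 := hφv p (by linarith)
        refine abs_le.2 ⟨not_lt.1 fun h' => ?_, not_lt.1 fun h' => ?_⟩
        · linarith [h2' (e p) (by rw [h10]; linarith)]
        · linarith [h2 (e p) (by rw [h10]; linarith)]
      · rcases le_abs.1 (not_lt.1 h) with h | h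
        · linarith [hu1 p (by linarith)]
        · linarith [hu2 p (by linarith)]
    have h400 : ∀ p ∈ s, |ρ p - R| ≤ 400 := fun p hp => by linarith [h80 p hp]
    have h11 := hsm _ (hlip f hf) (e '' s) (by
      rintro _ ⟨p, hp, rfl⟩
      refine ⟨?_, ?_⟩
      · change |v (e p)| ≤ 40
        rw [← hu0 p (by linarith [h80 p hp])]
        exact hs hp
      · change 12 ≤ ψ (e p)
        rw [hψ, hval _ p (h400 p hp)]
        exact pr_ge (h80 p hp)) (hsc.image e (e.continuousOn.mono fun p hp => hKe (h400 p hp)))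
      _ (mem_image_of_mem e hp) _ (mem_image_of_mem e hq)
    rwa [hval f p (h400 p hp), hval f q (h400 q hq)] at h11

end Crest.Agent.N228.N3

end
end

-- ▼ part N228/N3/Cuts
section

/-!
# Row 228, dimension three: CUT and CUTS (leaf N3-Cuts)
-/

set_option autoImplicit false
open MeasureTheory Set Filter Topology Function
open scoped ContDiff

noncomputable section

namespace Crest.Agent.N228.N3
open Crest.Agent.N222

namespace Cu

variable {Y : Type} [TopologicalSpace Y]

theorem lifts_slit {z : Y → Circle} (hz : Continuous z) (w : Circle) :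
    Lifts z {p | ((z p / w : Circle) : ℂ) ∈ Complex.slitPlane} := by
  refine ⟨fun p => Complex.arg (z p / w : Circle) + Complex.arg w, fun p hp => ?_, fun p _ => ?_⟩
  · have h : Continuous fun p => ((z p / w : Circle) : ℂ) :=
      continuous_subtype_val.comp (hz.div_const w)
    exact (((Complex.continuousAt_arg hp).comp_of_eq h.continuousAt rfl).add
      continuousAt_const).continuousWithinAt
  · rw [Circle.exp_add, Circle.exp_arg, Circle.exp_arg, div_mul_cancel]

theorem lifts_union {z : Y → Circle} {u : Y → ℝ} (hu : Continuous u) (h1 : Lifts z {p | 0 < u p})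
    (h2 : Lifts z {p | u p < 0}) : Lifts z {p | u p ≠ 0} := by
  obtain ⟨g1, c1, e1⟩ := h1
  obtain ⟨g2, c2, e2⟩ := h2
  have o1 : IsOpen {p | 0 < u p} := isOpen_lt continuous_const hu
  have o2 : IsOpen {p | u p < 0} := isOpen_lt hu continuous_const
  refine ⟨fun p => if 0 < u p then g1 p else g2 p, fun p hp => ?_, fun p hp => ?_⟩
  · refine ContinuousAt.continuousWithinAt ?_
    rcases lt_or_gt_of_ne (show u p ≠ 0 from hp) with h | h
    · refine (c2.continuousAt (o2.mem_nhds h)).congr ?_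
      filter_upwards [o2.mem_nhds h] with q hq
      exact (if_neg (not_lt.2 (le_of_lt hq))).symm
    · refine (c1.continuousAt (o1.mem_nhds h)).congr ?_
      filter_upwards [o1.mem_nhds h] with q hq
      exact (if_pos hq).symm
  · by_cases h : 0 < u p
    · simp only [if_pos h]
      exact e1 p h
    · simp only [if_neg h]
      exact e2 p (lt_of_le_of_ne (not_lt.1 h) hp)

theorem lifts_of_im {z : Y → Circle} (hz : Continuous z) {u : Y → ℝ} (hu : Continuous u)
    (h1 : ∀ p, 0 < u p → -1 < (z p : ℂ).im) (h2 : ∀ p, u p < 0 → (z p : ℂ).im < 1) :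
    Lifts z {p | u p ≠ 0} := by
  have hn : ∀ p, (z p : ℂ).re ^ 2 + (z p : ℂ).im ^ 2 = 1 := fun p => by
    rw [← Circle.normSq_coe (z p), Complex.normSq_apply]; ring
  obtain ⟨w, hw⟩ : ∃ w : Circle, (w : ℂ) = Complex.I :=
    ⟨⟨Complex.I, mem_sphere_zero_iff_norm.2 Complex.norm_I⟩, rfl⟩
  refine lifts_union hu ((lifts_slit hz w).mono fun p hp => ?_)
    ((lifts_slit hz w⁻¹).mono fun p hp => ?_)
  · have h := h1 p hp
    have h' := hn p
    simp only [mem_ofPred_eq, Circle.coe_div, hw, Complex.div_I, Complex.mem_slitPlane_iff,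
      Complex.neg_re, Complex.neg_im, Complex.mul_I_re, Complex.mul_I_im, neg_neg]
    by_contra hc
    push Not at hc
    have h0 : (z p : ℂ).re = 0 := by linarith [hc.2]
    rw [h0] at h'
    nlinarith [hc.1]
  · have h := h2 p hp
    have h' := hn p
    simp only [mem_ofPred_eq, div_inv_eq_mul, Circle.coe_mul, hw, Complex.mem_slitPlane_iff,
      Complex.mul_I_re, Complex.mul_I_im]
    by_contra hc
    push Not at hc
    rw [hc.2] at h'
    nlinarith [hc.1]

end Cu

open Cu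

theorem cut (hC : CircStmt) (hN : NeckStmt) : CutStmt := by
  intro d ι _ _ X _ _ _ _ _ _ M F hi hF hd z ψ T ε hz hε hψ hE
  obtain ⟨κ, _, _, N, F1, hL, z', hz', hl, hg⟩ := hC d ι X M F hi hF z (ε / 100) hz (by positivity)
  have hs : N.Sm fun q => (z' q : ℂ).im := hL.sm_iff.2 (hz'.comp Complex.imCLM.contDiff)
  have ha : (2 * √(ε / 100)) ^ 2 = 4 * (ε / 100) := by
    rw [mul_pow, Real.sq_sqrt (by positivity)]
    norm_num
  have hφ : ∀ p, N.pre.gam (fun q => 2 * (z' q : ℂ).im) (fun q => 2 * (z' q : ℂ).im) p ≤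
      (2 * √(ε / 100)) ^ 2 := fun p => by
    have h := hg p
    have e : N.pre.gam (fun q => 2 * (z' q : ℂ).im) (fun q => 2 * (z' q : ℂ).im) p =
        4 * N.pre.gam (fun q => (z' q : ℂ).im) (fun q => (z' q : ℂ).im) p := by
      simp only [Imm.gam_apply, Imm.D_const_mul 2 (hs.diffAt p), Finset.mul_sum]
      exact Finset.sum_congr rfl fun _ _ => by ring
    rw [ha, e]
    linarith
  obtain ⟨u, F', lo, hi', hu, hF', -, -, e1, -, e2, e3, -, -, e4⟩ :=
    hN d κ X N F1 hL.inj (hL.sm_iff.2 hL.sm) hd (fun q => 2 * (z' q : ℂ).im) ψ (2 * √(ε / 100))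
      (max T 0) (ε / 2) ((Imm.sm_const 2).mul hs) (by positivity) (by positivity) (hL.lip hψ)
      fun p hp => ⟨hφ p, by linarith [hE p hp, hL.E p]⟩
  refine ⟨Option κ, inferInstance, inferInstance, N.graph u hu, F', ⟨hL.ch,
    Imm.gx_injective hL.inj u, hL.sm_iff.1 hF', fun f hf p => ?_, fun p => ?_⟩, u,
    ⟨(Imm.graph_sm hu).2 hu, fun p _ => ?_⟩, hl _ ?_,
    (hL.small e4).mono (inter_subset_inter_left _ fun p (hp : |u p| ≤ T) =>
      show |u p| ≤ max T 0 from hp.trans (le_max_left _ _))⟩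
  · rw [Imm.graph_pre]
    exact (N.gS_gam_le u f p).trans (hL.gam f hf p)
  · rw [Imm.graph_pre]
    linarith [e1 p (hφ p), hL.E p]
  · rw [Imm.graph_pre, Imm.gS_gam_u]
    linarith [sq_nonneg (N.vv u p)]
  · have h0 := le_max_right T 0
    refine lifts_of_im (continuous_induced_rng.2 hz'.continuous) hu.continuous
      (fun p hp => ?_) fun p hp => ?_
    · by_contra hc
      linarith [e3 p (by linarith)]
    · by_contra hc
      linarith [e2 p (by linarith)]

theorem cuts (hC : CutStmt) (hCL : CLStmt) (hS : SminStmt) : CutsStmt := by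
  intro d ι _ _ X _ _ _ _ _ _ M F hi hF hd zs ψ
  induction zs generalizing ι M F with
  | nil =>
    intro c ε _ hε _ _
    refine ⟨ι, inferInstance, inferInstance, M, F, fun _ => c + 1,
      ⟨rfl, hi, hF, fun _ _ _ => le_rfl, fun p => by linarith⟩,
      ⟨Imm.sm_const _, fun p _ => by simp [Imm.gam_apply, Imm.D_const]⟩, by simp,
      fun B _ _ hB => hB.mono ?_⟩
    rintro p (h | ⟨h, -⟩)
    · exact h
    · exact absurd h (not_le.2 (lt_add_one c))
  | cons z zs ih =>
    intro c ε hz hε hψ hE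
    obtain ⟨c0, h0, h1⟩ : ∃ c0 : ℝ, 0 ≤ c0 ∧ c + 2 ≤ c0 :=
      ⟨max (c + 2) 0, le_max_right _ _, le_max_left _ _⟩
    obtain ⟨κ, _, _, N1, F1, L1, u, hu, lu, su⟩ := hC d ι X M F hi hF hd z ψ (c0 + 13) (ε / 2)
      (hz z List.mem_cons_self) (by positivity) hψ fun p hp => by linarith [hE p hp]
    obtain ⟨μ, _, _, N, F', m', L2, hm', lm', sm'⟩ := ih κ N1 F1 L1.inj (L1.sm_iff.2 L1.sm) (c + 1)
      (ε / 2) (fun w hw => L1.sm_iff.2 (hz w (List.mem_cons_of_mem _ hw))) (by positivity)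
      (L1.lip hψ) fun p hp => by linarith [hE p hp, L1.E p]
    have hu' := L2.lip hu
    obtain ⟨a, sa, ha⟩ := (hS d μ X N).2 u hu'.1
    obtain ⟨m, sm, hm⟩ := (hS d μ X N).1 a m' sa hm'.1
    have cu := hu.1.continuous
    have cψ : IsClosed {p | 12 ≤ ψ p} := isClosed_le continuous_const hψ.1.continuous
    refine ⟨μ, inferInstance, inferInstance, N, F', m, add_halves ε ▸ L1.trans L2,
      ⟨sm, fun p hp => (hm p).2.2.2 ((ha p).2.2.trans (hu'.2 p hp)) (hm'.2 p hp)⟩, fun w hw => ?_,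
      fun B hB hBψ sB f hf => ?_⟩
    · rcases List.mem_cons.1 hw with rfl | hw
      · exact lu.mono fun p hp => abs_pos.1 (lt_of_lt_of_le hp ((hm p).1.trans (ha p).1))
      · exact (lm' w hw).mono fun p hp => lt_of_lt_of_le hp (hm p).2.1
    · have sB' := sm' B hB hBψ sB
      set B' := B ∪ {p | m' p ≤ c + 1} ∩ {p | 12 ≤ ψ p} with hB'
      have cB' : IsClosed B' :=
        hB.union ((isClosed_le hm'.1.continuous continuous_const).inter cψ)
      have hB'ψ : B' ⊆ {p | 12 ≤ ψ p} := union_subset hBψ inter_subset_right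
      have s1 : Small u B' 11 := sB' u (hu.mono (subset_univ _))
      refine Small.mono (Z := B' ∪ {p | |u p| ≤ c0} ∩ {p | 12 ≤ ψ p})
        (small_of_closed (cB'.union ((isClosed_le cu.abs continuous_const).inter cψ))
          fun C hC cC pC => ?_) ?_ le_rfl
      · have out : ∀ p ∈ C, c0 < |u p| → p ∈ B' := fun p hp h =>
          (hC hp).resolve_right fun h' => absurd h'.1 (not_le.2 h)
        by_cases hx : ∃ p ∈ C, |u p| ≤ c0
        · obtain ⟨p0, hp0, hp1⟩ := hx
          refine su f hf C (fun q hq => ⟨?_, (hC hq).elim (fun h => hB'ψ h) fun h => h.2⟩) pC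
          have key : ∀ v : X → ℝ, Continuous v → (∀ p, |v p| = |u p|) →
              (∀ c' ⊆ B', IsPreconnected c' → ∀ p ∈ c', ∀ q ∈ c', v p - v q ≤ 11) →
              v q ≤ c0 + 13 := fun v cv e sv => by
            by_contra hc
            obtain ⟨c', h2, h3, p, hp, p', hp', h4, h5⟩ := hCL X C v (c0 + 1) (c0 + 13) pC cv
              (by linarith) (cC.inter ((isClosed_le continuous_const cv).inter
                (isClosed_le cv continuous_const))).isCompact
              ⟨p0, hp0, by linarith [le_abs_self (v p0), e p0]⟩ ⟨q, hq, (not_le.1 hc).le⟩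
            have := sv c' (fun r hr => out r (h2 hr).1
              (by linarith [le_abs_self (v r), e r, (h2 hr).2.1])) h3 p' hp' p hp
            linarith
          exact abs_le.2 ⟨neg_le.1 (key (fun p => -u p) cu.neg (fun p => abs_neg _)
            fun c' h2 h3 p hp p' hp' => by linarith [s1 c' h2 h3 p' hp' p hp]),
            key u cu (fun _ => rfl) s1⟩
        · push Not at hx
          exact L1.small sB' f hf C (fun p hp => out p hp (hx p hp)) pC
      · rintro p (h | ⟨h, h'⟩)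
        · exact Or.inl (Or.inl h)
        · have h2 : m p ≤ c := h
          rcases le_total (a p) (m' p) with h3 | h3
          · have h4 := (hm p).2.2.1
            rw [min_eq_left h3] at h4
            exact Or.inr ⟨show |u p| ≤ c0 by linarith [(ha p).2.1], h'⟩
          · have h4 := (hm p).2.2.1
            rw [min_eq_right h3] at h4
            exact Or.inl (Or.inr ⟨show m' p ≤ c + 1 by linarith, h'⟩)

end Crest.Agent.N228.N3

end
end

-- ▼ part N228/N3/Sep
section

/-!
# Row 228, dimension three: SEP and CL (helper61, task 651)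
-/

set_option autoImplicit false
set_option maxHeartbeats 400000
open Set Filter Topology Function

namespace Crest.Agent.N228.N3

theorem sep : SepStmt := by
  intro Y _ _ Z A B hZ hA hB hAZ hBZ h
  have : CompactSpace Z := isCompact_iff_compactSpace.1 hZ
  have hB' : IsCompact ((↑) ⁻¹' B : Set Z) := (hB.preimage continuous_subtype_val).isCompact
  have hA' : IsCompact ((↑) ⁻¹' A : Set Z) := (hA.preimage continuous_subtype_val).isCompact
  have key : ∀ a : {a : Z // a.1 ∈ A}, ∃ U : Set Z, IsClopen U ∧ a.1 ∈ U ∧ ∀ p ∈ U, p.1 ∉ B := by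
    rintro ⟨a, ha⟩
    have h1 : ((↑) ⁻¹' B : Set Z) ∩ ⋂ s : {s : Set Z // IsClopen s ∧ a ∈ s}, s.1 = ∅ := by
      rw [← connectedComponent_eq_iInter_isClopen, eq_empty_iff_forall_notMem]
      rintro p ⟨hp, hp'⟩
      refine h ((↑) '' connectedComponent a) (by rintro _ ⟨q, -, rfl⟩; exact q.2)
        (isPreconnected_connectedComponent.image _ continuous_subtype_val.continuousOn)
        ⟨a.1, ⟨a, mem_connectedComponent, rfl⟩, ha⟩ ⟨p.1, ⟨p, hp', rfl⟩, hp⟩
    obtain ⟨t, ht⟩ := hB'.elim_finite_subfamily_closed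
      (fun s : {s : Set Z // IsClopen s ∧ a ∈ s} => s.1) (fun s => s.2.1.isClosed) h1
    refine ⟨⋂ i ∈ t, i.1, isClopen_biInter_finset fun i _ => i.2.1,
      mem_iInter₂.2 fun i _ => i.2.2, fun p hp hpB => ?_⟩
    have : p ∈ ((↑) ⁻¹' B : Set Z) ∩ ⋂ i ∈ t, i.1 := ⟨hpB, hp⟩
    rw [ht] at this
    exact this
  choose U hU using key
  obtain ⟨t, ht⟩ := hA'.elim_finite_subcover U (fun a => (hU a).1.isOpen)
    fun p hp => mem_iUnion.2 ⟨⟨p, hp⟩, (hU ⟨p, hp⟩).2.1⟩
  have hV : IsClopen (⋃ a ∈ t, U a) := isClopen_biUnion_finset fun a _ => (hU a).1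
  refine ⟨(↑) '' (⋃ a ∈ t, U a), (↑) '' (⋃ a ∈ t, U a)ᶜ,
    hV.isClosed.isCompact.image continuous_subtype_val,
    hV.compl.isClosed.isCompact.image continuous_subtype_val,
    (disjoint_image_iff Subtype.val_injective).2 disjoint_compl_right, ?_, fun p hp => ?_,
    fun p hp => ?_⟩
  · rw [← image_union, union_compl_self, image_univ, Subtype.range_coe]
  · exact ⟨⟨p, hAZ hp⟩, ht hp, rfl⟩
  · refine ⟨⟨p, hBZ hp⟩, fun hq => ?_, rfl⟩
    obtain ⟨a, -, ha⟩ := mem_iUnion₂.1 hq
    exact (hU a).2.2 _ ha hp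

theorem cl (hS : SepStmt) : CLStmt := by
  intro Y _ _ c f a b hc hf hab hK ⟨p, hp, hpa⟩ ⟨q, hq, hqb⟩
  by_contra hn
  set K := c ∩ {p | a ≤ f p ∧ f p ≤ b} with hKdef
  obtain ⟨K1, K2, h1, h2, hd, hu, hA, hB⟩ := hS Y K (K ∩ {p | f p = a}) (K ∩ {p | f p = b}) hK
    (hK.isClosed.inter (isClosed_eq hf continuous_const))
    (hK.isClosed.inter (isClosed_eq hf continuous_const)) inter_subset_left inter_subset_left
    fun c' hc' h1 ⟨x, hx, hxa⟩ ⟨y, hy, hyb⟩ => hn ⟨c', hc', h1, x, hx, y, hy, hxa.2, hyb.2⟩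
  have hK1 : K1 ⊆ K := hu ▸ subset_union_left
  have hK2 : K2 ⊆ K := hu ▸ subset_union_right
  obtain ⟨x, -, hx1, hx2⟩ := isPreconnected_closed_iff.1 hc (K1 ∪ {p | f p ≤ a}) (K2 ∪ {p | b ≤ f p})
    (h1.isClosed.union (isClosed_le hf continuous_const))
    (h2.isClosed.union (isClosed_le continuous_const hf))
    (fun x hx => by
      rcases le_total (f x) a with h | h
      · exact Or.inl (Or.inr h)
      rcases le_total b (f x) with h' | h'
      · exact Or.inr (Or.inr h')
      have : x ∈ K1 ∪ K2 := hu ▸ ⟨hx, h, h'⟩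
      exact this.imp Or.inl Or.inl)
    ⟨p, hp, Or.inr hpa⟩ ⟨q, hq, Or.inr hqb⟩
  rcases hx1 with hx1 | hx1 <;> rcases hx2 with hx2 | hx2
  · exact disjoint_left.1 hd hx1 hx2
  · exact disjoint_left.1 hd hx1 (hB ⟨hK1 hx1, le_antisymm (hK1 hx1).2.2 hx2⟩)
  · exact disjoint_left.1 hd (hA ⟨hK2 hx2, le_antisymm hx1 (hK2 hx2).2.1⟩) hx2
  · exact absurd (le_trans hx2 hx1 : b ≤ a) (not_le.2 hab)

variable {Y : Type} [TopologicalSpace Y] [T2Space Y]





end Crest.Agent.N228.N3
end

-- ▼ part N228/N3/Tree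

/-!
# Row 228, dimension three: TREE (helper31)
-/

set_option autoImplicit false
open MeasureTheory Set Filter Topology Function
open scoped ContDiff

noncomputable section

namespace Crest.Agent.N228.N3
open Crest.Agent.N222

namespace Tr

/-- the last exit from `closure P` -/
theorem last {X : Type} [TopologicalSpace X] {P : Set X} (hP : IsOpen P) {γ : ℝ → X}
    (hγ : Continuous γ) (h0 : γ 0 ∈ P) (h1 : γ 1 ∉ closure P) :
    ∃ s ∈ Icc (0 : ℝ) 1, γ s ∈ closure P ∧ ∀ t ∈ Icc s 1, γ t ∉ P := by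
  obtain ⟨s, hs, hmax⟩ := (isCompact_Icc.inter_right (isClosed_closure.preimage hγ) :
    IsCompact (Icc (0 : ℝ) 1 ∩ γ ⁻¹' closure P)).exists_isGreatest
      ⟨0, ⟨le_rfl, zero_le_one⟩, subset_closure h0⟩
  refine ⟨s, hs.1, hs.2, fun t ht hP' => ?_⟩
  have e : t = s := le_antisymm (hmax ⟨⟨hs.1.1.trans ht.1, ht.2⟩, subset_closure hP'⟩) ht.1
  subst e
  have h2 : t < 1 := lt_of_le_of_ne ht.2 fun e => h1 (e ▸ hs.2)
  obtain ⟨u, hu, h3, h4⟩ := ((hγ.continuousAt.eventually_mem (hP.mem_nhds hP')).and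
    (eventually_lt_nhds h2)).exists_gt
  exact (hmax ⟨⟨hs.1.1.trans hu.le, h4.le⟩, subset_closure h3⟩).not_gt hu

theorem const {X : Type} [TopologicalSpace X] {c : Set X} (hc : IsPreconnected c) {f : X → ℝ}
    (hf : ContinuousOn f c) (h : ∀ p ∈ c, Circle.exp (f p) = 1) {p q : X} (hp : p ∈ c)
    (hq : q ∈ c) : f p = f q :=
  Circle.isCoveringMap_exp.constOn_of_comp hc hf (fun a ha b hb => (h a ha).trans (h b hb).symm)
    hp hq

theorem sm_of_local {d : ℕ} {ι : Type} [Fintype ι] [DecidableEq ι] {X : Type} [TopologicalSpace X]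
    {M : Imm d ι X} {f : X → ℂ} (h : ∀ p, ∃ g, M.Sm g ∧ f =ᶠ[𝓝 p] g) : M.Sm f :=
  Imm.SmOn.sm fun p _ =>
    let ⟨_, hg, e⟩ := h p
    (hg.smOn univ p trivial).congr_of_eventuallyEq (e.comp_tendsto ((M.ch p).tendsto_symm (M.mem p)))

end Tr

open Tr

theorem tree (hS : SepStmt) : TreeStmt := by
  classical
  intro d ι _ _ X _ _ _ _ _ M hX O W Z hW hZ hWZ hWO hL x γ γ' hγ hγ' h0 h0' h1 hO
  have := M.locallyConnected
  set P := connectedComponentIn W x with hPdef
  have hP : IsOpen P := hW.connectedComponentIn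
  have hPc : IsPreconnected P := isPreconnected_connectedComponentIn
  have hPW : P ⊆ W := connectedComponentIn_subset W x
  have hxP : x ∈ P := mem_connectedComponentIn (connectedComponentIn_nonempty_iff.1 ⟨_, h0⟩)
  have hcl : ∀ q ∈ closure P, q ∉ P → q ∈ Z := fun q hq hqP => by
    refine (hWZ (closure_mono hPW hq)).resolve_left fun hqW => hqP ?_
    exact (hPc.subset_closure (subset_insert q P) (insert_subset hq subset_closure)
      ).subset_connectedComponentIn (mem_insert_of_mem _ hxP) (insert_subset hqW hPW)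
        (mem_insert _ _)
  by_cases h2 : γ 1 ∈ closure P
  · exact ⟨1, ⟨zero_le_one, le_rfl⟩, 1, ⟨zero_le_one, le_rfl⟩, h2, h1 ▸ h2, Or.inl h1⟩
  obtain ⟨s, hs, hy, hs'⟩ := last hP hγ h0 h2
  obtain ⟨t, ht, hy', ht'⟩ := last hP hγ' h0' (h1 ▸ h2)
  refine ⟨s, hs, t, ht, hy, hy', Or.inr ?_⟩
  by_contra hc
  have hyP := hs' s ⟨le_rfl, hs.2⟩
  have hyP' := ht' t ⟨le_rfl, ht.2⟩
  obtain ⟨Z1, Z2, c1, c2, hd, hu, a1, a2⟩ := hS X Z {γ s} {γ' t} hZ.isCompact isClosed_singleton
    isClosed_singleton (singleton_subset_iff.2 (hcl _ hy hyP))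
    (singleton_subset_iff.2 (hcl _ hy' hyP')) (by
      rintro c hcZ hcc ⟨_, h3, rfl⟩ ⟨_, h4, rfl⟩
      exact hc ⟨c, hcZ, hcc, h3, h4⟩)
  obtain ⟨φ, hφ, hs2, -, hφ1⟩ := M.exists_bump c1 c2.isClosed.isOpen_compl
    (disjoint_left.1 hd)
  have n1 : ∀ p ∈ Z1, ∀ᶠ q in 𝓝 p, φ q = 1 := fun p hp => hφ1.filter_mono (nhds_le_nhdsSet hp)
  have n2 : ∀ p ∈ Z2, ∀ᶠ q in 𝓝 p, φ q = 0 := fun p hp =>
    notMem_tsupport_iff_eventuallyEq.1 fun h => hs2 h hp
  set z : X → Circle := fun p => if p ∈ P then Circle.exp (2 * Real.pi * φ p) else 1 with hz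
  have hsm : SmC M z := by
    refine sm_of_local fun p => ?_
    by_cases hp : p ∈ P
    · refine ⟨fun q => Complex.exp ((2 * Real.pi * φ q : ℝ) * Complex.I), hφ.sm.comp
        (g := fun a : ℝ => Complex.exp ((2 * Real.pi * a : ℝ) * Complex.I)) ?_, ?_⟩
      · exact ((Complex.ofRealCLM.contDiff.comp (contDiff_const.mul contDiff_id)).mul
          contDiff_const).cexp
      · filter_upwards [hP.mem_nhds hp] with q hq
        simp only [hz, if_pos hq, Circle.coe_exp]
    refine ⟨fun _ => 1, Imm.sm_const 1, ?_⟩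
    by_cases hp' : p ∈ closure P
    · rcases hu.ge (hcl p hp' hp) with h3 | h3
      · filter_upwards [n1 p h3] with q hq
        simp [hz, hq]
      · filter_upwards [n2 p h3] with q hq
        simp [hz, hq]
    · filter_upwards [isClosed_closure.isOpen_compl.mem_nhds hp'] with q hq
      simp only [hz, if_neg fun h => hq (subset_closure h), Circle.coe_one]
  obtain ⟨g, hg, hzg⟩ := hL z hsm
  have e1 : φ (γ s) = 1 := (n1 _ (a1 rfl)).self_of_nhds
  have e2 : φ (γ' t) = 0 := (n2 _ (a2 rfl)).self_of_nhds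
  have hPO : closure P ⊆ O := (closure_mono hPW).trans hWO
  have hQ : insert (γ s) (insert (γ' t) P) ⊆ closure P :=
    insert_subset hy (insert_subset hy' subset_closure)
  have k1 : g (γ s) - 2 * Real.pi * φ (γ s) = g (γ' t) - 2 * Real.pi * φ (γ' t) := by
    refine const (f := fun p => g p - 2 * Real.pi * φ p)
      (hPc.subset_closure ((subset_insert _ _).trans (subset_insert _ _)) hQ)
      ((hg.mono (hQ.trans hPO)).sub (continuous_const.mul hφ.sm.continuous).continuousOn)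
      (fun p hp => ?_) (mem_insert _ _) (mem_insert_of_mem _ (mem_insert _ _))
    rw [Circle.exp_sub, ← hzg p (hPO (hQ hp))]
    rcases hp with rfl | rfl | hp
    · simp [hz, hyP, e1]
    · simp [hz, hyP', e2]
    · simp [hz, hp]
  have k2 : ∀ {γ : ℝ → X} {s : ℝ}, Continuous γ → s ∈ Icc (0 : ℝ) 1 → (∀ t ∈ Icc s 1, γ t ∉ P) →
      (∀ t ∈ Icc (0 : ℝ) 1, γ t ∈ O) → g (γ s) = g (γ 1) := fun {γ s} hγ hs h3 h4 => by
    have h5 : ∀ t ∈ Icc s 1, γ t ∈ O := fun t ht => h4 t ⟨hs.1.trans ht.1, ht.2⟩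
    refine const (f := fun t => g (γ t)) isPreconnected_Icc (hg.comp hγ.continuousOn h5)
      (fun t ht => ?_) ⟨le_rfl, hs.2⟩ ⟨hs.2, le_rfl⟩
    rw [← hzg _ (h5 t ht)]
    simp only [hz, if_neg (h3 t ht)]
  rw [e1, e2, k2 hγ hs hs' fun t ht => (hO t ht).1, k2 hγ' ht ht' fun t ht => (hO t ht).2, h1] at k1
  linarith [Real.pi_pos]

end Crest.Agent.N228.N3

end
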